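import Vale.Agent.P100.Bernstein.Defs

/-!
# P237: a fast sign test for the leaves of a subdivision of a cell

The variables are `s`, `δ = (t - s) / s`, `v = 1 / r` and the value. All constants are integers over
`2 ^ 24`. A leaf is a combination of the cleared cell and of the constraints of a state; it has
degree `(2, 2, 3, 1)`, and its packed Bernstein coefficients are assembled directly, so that the
kernel decides the sign with a single bitwise operation.
-/

namespace Vale.Agent.P237.Petty.Cor.Grid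

/-- The scale of all constants. -/
abbrev scl : ℤ := 16777216

/-- A packed polynomial with a bound on its coefficients. -/
structure PV where
  /-- bound on the absolute sum of the coefficients -/
  bnd : ℕ
  /-- packed value -/
  val : ℤ

namespace PV

/-- Sum. -/
def add (a b : PV) : PV := ⟨a.bnd + b.bnd, a.val + b.val⟩

/-- Product. -/
def mul (a b : PV) : PV := ⟨a.bnd * b.bnd, a.val * b.val⟩

/-- Integer multiple. -/
def smul (c : ℤ) (a : PV) : PV := ⟨c.natAbs * a.bnd, c * a.val⟩

end PV

/-- An affine function over `2 ^ 24`. -/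
structure L2 where
  /-- constant -/
  c0 : ℤ
  /-- slope -/
  c1 : ℤ

/-- A quadratic over `2 ^ 24`. -/
structure Q2 where
  /-- constant -/
  c0 : ℤ
  /-- linear coefficient -/
  c1 : ℤ
  /-- quadratic coefficient -/
  c2 : ℤ

/-- The enclosures on an interval of `s`. -/
structure Row where
  /-- the weight, from below -/
  w : Q2
  /-- the coefficient of `u`, from below -/
  lamL : Q2
  /-- the coefficient of `u`, from above -/
  lamU : Q2
  /-- the coefficient of the shadow, from above -/
  shR : Q2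
  /-- the coefficient of `δ`, from below -/
  sigL : Q2
  /-- the coefficient of `δ`, from above -/
  sigU : Q2
  /-- the coefficient of `δ ^ 2`, from below -/
  quD : Q2
  /-- the coefficient of `δ u`, from below -/
  mixL : Q2
  /-- the coefficient of `δ u`, from above -/
  mixU : Q2
  /-- the mass above over the power of the circle, from below -/
  hiL : Q2
  /-- the mass above over the power of the circle, from above -/
  hiU : Q2
  /-- the mass below over the power of the circle, from above -/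
  loU : Q2
  /-- the mass below, from above -/
  massU : Q2
  /-- the mass below over the root of the power of the circle, from above -/
  rootU : Q2
  /-- the slope in the value of the remainder -/
  tA : L2
  /-- the part of the remainder free of the value -/
  tB : L2

/-- The constants of a cell. -/
structure Cst where
  /-- `p + 1` -/
  m : ℕ
  /-- `2 nu (1 + g)` -/
  kC : ℤ
  /-- `2 nu g (1 + g)` -/
  kD : ℤ
  /-- `2 nu (g ^ 2 - 1)` -/
  kM : ℤ
  /-- `exp (2 ell / m)` from above -/
  eCut : L2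
  /-- `exp ell` from above -/
  eVal : L2
  /-- `exp (ell / 2)` from above -/
  eRoot : L2

/-- A piece of the range of `v`. -/
structure Piece where
  /-- left end -/
  lo : ℤ
  /-- right end -/
  hi : ℤ
  /-- the shadow, from below -/
  sh : Q2
  /-- the ratio of the ordinates, from above -/
  rt : L2

/-- The multipliers of a leaf, and the data of the constraints that have a parameter. -/
structure Mult where
  /-- cut -/
  cut : ℕ
  /-- rectangle above -/
  rect : ℕ
  /-- mass above, from above -/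
  high : ℕ
  /-- square bound -/
  sq : ℕ
  /-- mass below -/
  low : ℕ
  /-- displacement -/
  disp : ℕ
  /-- hazard -/
  haz : ℕ
  /-- pinned mass below -/
  pin : ℕ
  /-- geometric mean -/
  geo : ℕ
  /-- the line of the pinned mass -/
  line : L2
  /-- the point of tangency of the geometric mean -/
  tan : ℕ

/-- The packed coordinates: `oS` stands for `1` in `s`, `lS` for `s`, and so on. -/
structure Coords where
  /-- `1` in `s` -/
  oS : PV
  /-- `s` -/
  lS : PV
  /-- `1` in `δ` -/
  oD : PV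
  /-- `δ` -/
  lD : PV
  /-- `1` in `v` -/
  oV : PV
  /-- `v` -/
  lV : PV
  /-- `1` in the value -/
  oL : PV
  /-- the value -/
  lL : PV

/-- An affine function in one coordinate, degree one. -/
def L2.pv (a : L2) (o l : PV) : PV := (o.smul a.c0).add (l.smul a.c1)

/-- A quadratic in one coordinate, degree two. -/
def Q2.pv (a : Q2) (o l : PV) : PV :=
  (((o.mul o).smul a.c0).add ((o.mul l).smul a.c1)).add ((l.mul l).smul a.c2)

/-- `v - 1`. -/
def Coords.uV (C : Coords) : PV := C.lV.add (C.oV.smul (-1))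

/-- `1 - s ^ 2`. -/
def Coords.cS (C : Coords) : PV := (C.oS.mul C.oS).add ((C.lS.mul C.lS).smul (-1))

/-- `1 - s (1 + δ)`, of degree `(2, 1)`. -/
def Coords.omT (C : Coords) : PV :=
  C.oS.mul ((C.oS.mul C.oD).add ((C.lS.mul (C.oD.add C.lD)).smul (-1)))

/-- `s (1 + δ)`, of degree `(2, 1)`. -/
def Coords.tS (C : Coords) : PV := (C.oS.mul C.lS).mul (C.oD.add C.lD)

/-- `v`, of degree three. -/
def Coords.v3 (C : Coords) : PV := C.lV.mul (C.oV.mul C.oV)

/-- `v (v - 1)`, of degree three. -/
def Coords.vu3 (C : Coords) : PV := (C.lV.mul C.uV).mul C.oV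

/-- The terms free of `δ`. -/
def part0 (c : Cst) (R : Row) (P : Piece) (lam : Q2) (C : Coords) : PV :=
  ((((((R.w.pv C.oS C.lS).mul C.lL).add
      (C.oS.mul (((R.tB.pv C.oS C.lS).mul C.oL).add
        (((R.tA.pv C.oS C.lS).mul C.lL).smul (-1))))).mul C.v3).add
    (((lam.pv C.oS C.lS).mul C.oL).mul C.vu3)).smul scl).add
  (((((C.cS.mul ((C.uV.mul C.uV).mul C.oV)).smul (c.kC * scl)).add
    ((R.shR.pv C.oS C.lS).mul
      (((P.sh.pv C.oV C.lV).add ((C.uV.mul C.oV).smul (-scl))).mul C.lV))).mul C.oL))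

/-- The terms linear in `δ`. -/
def part1 (c : Cst) (sig mix : Q2) (C : Coords) : PV :=
  (((((sig.pv C.oS C.lS).mul C.v3).add ((mix.pv C.oS C.lS).mul C.vu3)).add
    (((C.lS.mul C.lS).mul ((C.oV.mul C.oV).mul C.uV)).smul (-c.kM))).mul C.oL).smul scl

/-- The terms quadratic in `δ`. -/
def part2 (c : Cst) (R : Row) (C : Coords) : PV :=
  ((((R.quD.pv C.oS C.lS).mul C.v3).add
    (((C.lS.mul C.lS).mul ((C.oV.mul C.oV).mul C.oV)).smul c.kD)).mul C.oL).smul scl

/-- The cell times `v`, scale two. -/
def goal (c : Cst) (R : Row) (P : Piece) (lam sig mix : Q2) (C : Coords) : PV :=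
  (((part0 c R P lam C).mul (C.oD.mul C.oD)).add
    ((part1 c sig mix C).mul (C.oD.mul C.lD))).add ((part2 c R C).mul (C.lD.mul C.lD))

/-- The cut, scale three. -/
def gCut (c : Cst) (P : Piece) (C : Coords) : PV :=
  ((((C.cS.mul (c.eCut.pv C.oL C.lL)).mul
      (((P.rt.pv C.oV C.lV).mul (P.rt.pv C.oV C.lV)).mul C.oV)).mul (C.oD.mul C.oD))).add
    (((((C.lS.mul C.lS).mul ((C.oD.add C.lD).mul (C.oD.add C.lD))).add
      (((C.oS.mul C.oS).mul (C.oD.mul C.oD)).smul (-1))).mul
        (((C.oV.mul C.oV).mul C.oV).mul C.oL)).smul (scl * scl * scl))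

/-- The rectangle above, scale one. -/
def gRect (R : Row) (C : Coords) : PV :=
  (((C.omT.mul C.oV).smul scl).add
    ((((R.hiL.pv C.oS C.lS).mul C.lV).mul C.oD).smul (-1))).mul
    ((C.oD.mul (C.oV.mul C.oV)).mul C.oL)

/-- The mass above, scale one. -/
def gHigh (c : Cst) (R : Row) (C : Coords) : PV :=
  (((((R.hiU.pv C.oS C.lS).mul C.lV).mul C.oD).smul ((c.m : ℤ) + 1)).add
    ((C.omT.mul C.oV).smul (-scl))).mul ((C.oD.mul (C.oV.mul C.oV)).mul C.oL)

/-- The square bound, scale one. -/
def gSq (c : Cst) (C : Coords) : PV :=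
  (((C.omT.mul C.oV).smul (((c.m : ℤ) + 2) * scl)).add
    (((C.cS.mul C.lV).mul C.oD).smul (-scl))).mul ((C.oD.mul (C.oV.mul C.oV)).mul C.oL)

/-- The mass below, scale one. -/
def gLow (R : Row) (C : Coords) : PV :=
  ((((R.loU.pv C.oS C.lS).mul C.lV).mul C.oD).add ((C.tS.mul C.oV).smul (-scl))).mul
    ((C.oD.mul (C.oV.mul C.oV)).mul C.oL)

/-- The displacement, scale two. -/
def gDisp (c : Cst) (R : Row) (C : Coords) : PV :=
  ((((R.hiU.pv C.oS C.lS).mul C.oD).mul ((c.eVal.pv C.oL C.lL).add (C.oL.smul (-scl)))).add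
    ((((C.oS.mul C.lS).mul C.lD).mul C.oL).smul (scl * scl))).mul
    (C.oD.mul ((C.oV.mul C.oV).mul C.oV))

/-- The hazard, scale two. -/
def gHaz (c : Cst) (R : Row) (C : Coords) : PV :=
  (((((R.hiL.pv C.oS C.lS).mul (c.eVal.pv C.oL C.lL)).add
      ((R.loU.pv C.oS C.lS).mul ((c.eVal.pv C.oL C.lL).add (C.oL.smul (-scl))))).mul C.oV).add
    ((((R.hiL.pv C.oS C.lS).mul C.oL).mul C.lV).smul (-scl))).mul
    ((C.oD.mul C.oD).mul (C.oV.mul C.oV))

/-- The pinned mass below, against a line below it, scale two. -/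
def gPin (c : Cst) (R : Row) (line : L2) (C : Coords) : PV :=
  ((((R.massU.pv C.oS C.lS).mul C.oD).mul (c.eVal.pv C.oL C.lL)).add
    ((((((C.oS.mul C.oS).mul C.oD).smul line.c0).add (C.tS.smul line.c1)).mul C.oL).smul
      (-scl))).mul (C.oD.mul ((C.oV.mul C.oV).mul C.oV))

/-- The geometric mean below, scale four. -/
def gGeo (c : Cst) (R : Row) (a : ℕ) (C : Coords) : PV :=
  ((((((C.oV.smul ((a : ℤ) * a)).add (C.lV.smul (scl * scl))).mul
      (R.rootU.pv C.oS C.lS)).mul (c.eRoot.pv C.oL C.lL)).mul C.oD).add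
    (((C.tS.mul C.oV).mul C.oL).smul (-(2 * (a : ℤ) * (scl * scl * scl))))).mul
    (C.oD.mul (C.oV.mul C.oV))

/-- Subtract a multiple of a constraint, if the multiplier is not zero. -/
def sub0 (acc : PV) (μ : ℕ) (k : ℤ) (g : PV) : PV :=
  match μ with
  | 0 => acc
  | j + 1 => acc.add (g.smul (-(((j + 1 : ℕ) : ℤ) * k)))

/-- Minus one, at scale zero. -/
def negOne (C : Coords) : PV :=
  ((((C.oS.mul C.oS).mul (C.oD.mul C.oD)).mul ((C.oV.mul C.oV).mul C.oV)).mul C.oL).smul (-1)

/-- Subtract all multiples, scale five. -/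
def comb (c : Cst) (R : Row) (P : Piece) (μ : Mult) (C : Coords) (g0 : PV) : PV :=
  sub0 (sub0 (sub0 (sub0 (sub0 (sub0 (sub0 (sub0 (sub0 g0
    μ.cut scl (gCut c P C))
    μ.rect (scl * scl * scl) (gRect R C))
    μ.high (scl * scl * scl) (gHigh c R C))
    μ.sq (scl * scl * scl) (gSq c C))
    μ.low (scl * scl * scl) (gLow R C))
    μ.disp (scl * scl) (gDisp c R C))
    μ.haz (scl * scl) (gHaz c R C))
    μ.pin (scl * scl) (gPin c R μ.line C))
    μ.geo 1 (gGeo c R μ.tan C)

/-- A box. -/
structure Box where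
  /-- left end of `s` -/
  s0 : ℤ
  /-- right end of `s` -/
  s1 : ℤ
  /-- left end of `δ` -/
  d0 : ℤ
  /-- right end of `δ` -/
  d1 : ℤ
  /-- left end of `v` -/
  v0 : ℤ
  /-- right end of `v` -/
  v1 : ℤ
  /-- left end of the value -/
  l0 : ℤ
  /-- right end of the value -/
  l1 : ℤ

/-- The digit size. -/
abbrev rad : ℕ := 420

/-- The packed coordinate with ends `lo`, `hi`. -/
def coord (lo hi : ℤ) (X : ℕ) : PV := ⟨lo.natAbs + hi.natAbs, lo + hi * (X : ℤ)⟩

/-- The packed coordinates of a box. -/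
def Box.coords (B : Box) : Coords where
  oS := coord scl scl ((2 ^ rad) ^ 24)
  lS := coord B.s0 B.s1 ((2 ^ rad) ^ 24)
  oD := coord scl scl ((2 ^ rad) ^ 8)
  lD := coord B.d0 B.d1 ((2 ^ rad) ^ 8)
  oV := coord scl scl ((2 ^ rad) ^ 2)
  lV := coord B.v0 B.v1 ((2 ^ rad) ^ 2)
  oL := coord scl scl (2 ^ rad)
  lL := coord B.l0 B.l1 (2 ^ rad)

/-- The top bits of all the digits. -/
def topMask : ℕ := (2 ^ (rad * 72) - 1) / (2 ^ rad - 1) * 2 ^ (rad - 1)

/-- The sign test: no digit has its top bit set. -/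
def signTest (p : PV) : Bool :=
  decide (2 * p.bnd < 2 ^ rad) && (decide (0 ≤ p.val) && (Nat.land p.val.natAbs topMask == 0))

/-- The orientation of a leaf: whether `δ` and `v - 1` are nonnegative. -/
inductive Sgn where
  | pp
  | pm
  | mp
  | mm

/-- The coefficient of `u` that is valid. -/
def Row.lam (R : Row) : Sgn → Q2
  | .pp | .mp => R.lamL
  | .pm | .mm => R.lamU

/-- The coefficient of `δ` that is valid. -/
def Row.sig (R : Row) : Sgn → Q2
  | .pp | .pm => R.sigL
  | .mp | .mm => R.sigU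

/-- The coefficient of `δ u` that is valid. -/
def Row.mix (R : Row) : Sgn → Q2
  | .pp | .mm => R.mixL
  | .pm | .mp => R.mixU

/-- The box lies in the orientation. -/
def Sgn.fits (B : Box) : Sgn → Bool
  | .pp => decide (0 ≤ B.d0) && decide (scl ≤ B.v0)
  | .pm => decide (0 ≤ B.d0) && decide (B.v1 ≤ scl)
  | .mp => decide (B.d1 ≤ 0) && decide (scl ≤ B.v0)
  | .mm => decide (B.d1 ≤ 0) && decide (B.v1 ≤ scl)

/-- A leaf where the cell is above the remainder. -/
def posTest (c : Cst) (R : Row) (P : Piece) (σ : Sgn) (μ : Mult) (B : Box) : Bool :=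
  decide (P.lo ≤ B.v0) && decide (B.v1 ≤ P.hi) && σ.fits B &&
    signTest (comb c R P μ B.coords
      ((goal c R P (R.lam σ) (R.sig σ) (R.mix σ) B.coords).smul (scl * scl * scl)))

/-- A leaf without states. -/
def voidTest (c : Cst) (R : Row) (P : Piece) (μ : Mult) (B : Box) : Bool :=
  decide (P.lo ≤ B.v0) && decide (B.v1 ≤ P.hi) &&
    signTest (comb c R P μ B.coords (negOne B.coords))

end Vale.Agent.P237.Petty.Cor.Grid
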