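import Vale.Agent.P100.Bernstein.Decode
import Vale.Agent.P237.Petty.Cor.Grid.Fast
import Mathlib.Tactic.IntervalCases

/-!
# P237: the sign of all packed digits by one bitwise operation
-/

namespace Vale.Agent.P237.Petty.Cor.Grid

open Vale.Agent.P100.Bernstein

/-- The top bits of `N` digits of `k + 1` bits. -/
def maskN (k : ℕ) : ℕ → ℕ
  | 0 => 0
  | N + 1 => 2 ^ k + 2 ^ (k + 1) * maskN k N

theorem maskN_add (k a : ℕ) : ∀ b,
    maskN k (a + b) = maskN k a + 2 ^ ((k + 1) * a) * maskN k b := by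
  induction a with
  | zero => intro b; simp [maskN]
  | succ a ih =>
    intro b
    rw [show a + 1 + b = (a + b) + 1 by omega, maskN, maskN, ih b, mul_add, mul_add,
      mul_one, pow_add]
    ring

theorem maskN_lt (k : ℕ) : ∀ N, maskN k N < 2 ^ ((k + 1) * N)
  | 0 => by simp [maskN]
  | N + 1 => by
    have h := maskN_lt k N
    have h1 : 2 ^ k < 2 ^ (k + 1) := Nat.pow_lt_pow_right (by norm_num) (by omega)
    calc maskN k (N + 1) = 2 ^ k + 2 ^ (k + 1) * maskN k N := rfl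
      _ < 2 ^ (k + 1) + 2 ^ (k + 1) * maskN k N := Nat.add_lt_add_right h1 _
      _ = 2 ^ (k + 1) * (maskN k N + 1) := by ring
      _ ≤ 2 ^ (k + 1) * 2 ^ ((k + 1) * N) := Nat.mul_le_mul_left _ h
      _ = 2 ^ ((k + 1) * (N + 1)) := by rw [← pow_add]; ring_nf

theorem le_maskN (k N : ℕ) : 2 ^ ((k + 1) * N + k) ≤ maskN k (N + 1) := by
  rw [maskN_add k N 1, pow_add]
  simp [maskN]

/-- Without the top bit a block is below half its range. -/
theorem block_lt {k N w : ℕ} (hw : w < 2 ^ ((k + 1) * (N + 1)))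
    (h : w &&& maskN k (N + 1) = 0) : w < 2 ^ ((k + 1) * N + k) := by
  by_contra hc
  have hc' := Nat.not_lt.1 hc
  have e : (k + 1) * (N + 1) = (k + 1) * N + k + 1 := by ring
  rw [e, pow_succ] at hw
  have hm := maskN_lt k (N + 1)
  rw [e, pow_succ] at hm
  have hpos : 0 < 2 ^ ((k + 1) * N + k) := Nat.two_pow_pos _
  have a1 : w / 2 ^ ((k + 1) * N + k) = 1 :=
    Nat.div_eq_of_lt_le (by omega) (by omega)
  have a2 : maskN k (N + 1) / 2 ^ ((k + 1) * N + k) = 1 :=
    Nat.div_eq_of_lt_le (by have := le_maskN k N; omega) (by omega)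
  have h2 : (w &&& maskN k (N + 1)) / 2 ^ ((k + 1) * N + k) = 1 := by
    rw [Nat.and_div_two_pow, a1, a2]
    rfl
  rw [h, Nat.zero_div] at h2
  omega

/-- The first block and the rest of a value without top bits. -/
theorem block_split {k A B v : ℕ} (h : v &&& maskN k (A + B) = 0) :
    v % 2 ^ ((k + 1) * A) &&& maskN k A = 0 ∧ v / 2 ^ ((k + 1) * A) &&& maskN k B = 0 := by
  have hA := maskN_lt k A
  rw [maskN_add] at h
  constructor
  · have h1 := Nat.and_mod_two_pow (a := v) (b := maskN k A + 2 ^ ((k + 1) * A) * maskN k B)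
      (n := (k + 1) * A)
    rw [h, Nat.zero_mod, Nat.add_mul_mod_self_left, Nat.mod_eq_of_lt hA] at h1
    exact h1.symm
  · have h1 := Nat.and_div_two_pow (a := v) (b := maskN k A + 2 ^ ((k + 1) * A) * maskN k B)
      (n := (k + 1) * A)
    rw [h, Nat.zero_div, Nat.add_mul_div_left _ _ (Nat.two_pow_pos _), Nat.div_eq_of_lt hA,
      zero_add] at h1
    exact h1.symm

theorem digits_of_mask (f : ℤ → Bool) (k A : ℕ)
    (hf : ∀ w : ℕ, w < 2 ^ ((k + 1) * (A + 1)) → w &&& maskN k (A + 1) = 0 → f w = true) :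
    ∀ (j v : ℕ), v < 2 ^ ((k + 1) * ((j + 1) * (A + 1))) →
      v &&& maskN k ((j + 1) * (A + 1)) = 0 →
        digits f (2 ^ ((k + 1) * (A + 1))) j (v : ℤ) = true
  | 0, v, hv, h => by
    rw [digits]
    exact hf v (by simpa using hv) (by simpa using h)
  | j + 1, v, hv, h => by
    rw [show (j + 1 + 1) * (A + 1) = (A + 1) + (j + 1) * (A + 1) by ring] at h hv
    obtain ⟨h1, h2⟩ := block_split h
    set Y := 2 ^ ((k + 1) * (A + 1)) with hY
    have hYp : 0 < Y := Nat.two_pow_pos _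
    have hlt : v % Y < 2 ^ ((k + 1) * A + k) := block_lt (Nat.mod_lt _ hYp) h1
    have hY2 : Y = 2 * 2 ^ ((k + 1) * A + k) := by
      rw [hY, show (k + 1) * (A + 1) = (k + 1) * A + k + 1 by ring, pow_succ]
      ring
    have hb : (v : ℤ).bmod Y = ((v % Y : ℕ) : ℤ) := by
      have h3 : ((v % Y : ℕ) : ℤ) = (v : ℤ) % (Y : ℤ) := by push_cast; rfl
      rw [Int.bmod_def, if_pos, h3]
      rw [← h3]
      omega
    have hd : ((v : ℤ) - ((v % Y : ℕ) : ℤ)) / (Y : ℤ) = ((v / Y : ℕ) : ℤ) := by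
      have h4 := Nat.div_add_mod v Y
      have h5 : (v : ℤ) - ((v % Y : ℕ) : ℤ) = (Y : ℤ) * ((v / Y : ℕ) : ℤ) := by
        rw [eq_comm, ← sub_eq_zero]
        have : ((Y * (v / Y) + v % Y : ℕ) : ℤ) = (v : ℤ) := by rw [h4]
        push_cast at this ⊢
        linarith
      rw [h5, Int.mul_ediv_cancel_left _ (by exact_mod_cast hYp.ne')]
    rw [digits, hb, hd, Bool.and_eq_true]
    refine ⟨hf _ (Nat.mod_lt _ hYp) h1, digits_of_mask f k A hf j (v / Y) ?_ h2⟩
    rw [Nat.div_lt_iff_lt_mul hYp, hY, ← pow_add]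
    refine hv.trans_le (Nat.pow_le_pow_right (by norm_num) (le_of_eq ?_))
    ring

theorem size_pos : ∀ D : Deg, 0 < size D
  | [] => Nat.one_pos
  | d :: D => Nat.mul_pos d.succ_pos (size_pos D)

theorem signs_of_mask (k : ℕ) : ∀ (D : Deg) (v : ℕ), v < 2 ^ ((k + 1) * size D) →
    v &&& maskN k (size D) = 0 → signs false (k + 1) D (v : ℤ) = true
  | [], v, _, _ => by simp [signs]
  | d :: D, v, hv, h => by
    obtain ⟨A, hA⟩ : ∃ A, size D = A + 1 := ⟨size D - 1, by have := size_pos D; omega⟩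
    rw [signs, hA, show ((2 : ℕ) ^ (k + 1)) ^ (A + 1) = 2 ^ ((k + 1) * (A + 1)) by rw [← pow_mul]]
    rw [size, hA] at h hv
    have hD := signs_of_mask k D
    rw [hA] at hD
    exact digits_of_mask _ k A hD d v hv h

theorem weights_leaf : weights rad [2, 2, 3, 1] =
    [(2 ^ rad) ^ 24, (2 ^ rad) ^ 8, (2 ^ rad) ^ 2, 2 ^ rad] := by
  simp [weights, size]

theorem size_leaf : size [2, 2, 3, 1] = 72 := by simp [size]

theorem topMask_eq : topMask = maskN 419 72 := by decide +kernel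

/-- Four coordinates. -/
def q4 {α : Type*} (a b c e : α) : ℕ → α
  | 0 => a
  | 1 => b
  | 2 => c
  | _ => e

/-- The values of the packed variables. -/
def ptX : List ℕ := weights rad [2, 2, 3, 1]

theorem signTest_sound {p : PV} (h : signTest p = true) {s t : ℕ → ℝ}
    (hst : ∀ i < 4, 0 ≤ s i ∧ 0 ≤ t i ∧ s i + t i = 1) {F : ℝ}
    (hg : Good 4 ptX s t (fun i => ([2, 2, 3, 1] : Deg).getD i 0) p.bnd p.val F) : 0 ≤ F := by
  obtain ⟨L, h1, h2, h3, h4⟩ := hg
  simp only [signTest, Bool.and_eq_true, decide_eq_true_eq, beq_iff_eq] at h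
  obtain ⟨hb, hv, hm⟩ := h
  have hK : 2 * normT L < 2 ^ rad := lt_of_le_of_lt (by omega) hb
  have hsmall := evT_pack_le rad [2, 2, 3, 1] L (by simpa using h1)
  have hlt : p.val.natAbs < 2 ^ (420 * 72) := by
    have e3 : evT ([2, 2, 3, 1] : Deg).length (fun i => ([2, 2, 3, 1] : Deg).getD i 0) L
        (fun _ => (1 : ℤ)) (pt (weights rad [2, 2, 3, 1])) = p.val := h3
    rw [e3, size_leaf] at hsmall
    have h5 : (2 : ℤ) * (normT L : ℤ) < 2 ^ rad := by exact_mod_cast hK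
    have hY : (0 : ℤ) < ((2 : ℤ) ^ rad) ^ 72 := by positivity
    have h6 : |p.val| * 2 ^ rad < ((2 : ℤ) ^ rad) ^ 72 * 2 ^ rad := by
      refine hsmall.trans_lt ?_
      rw [mul_comm (((2 : ℤ) ^ rad) ^ 72)]
      exact mul_lt_mul_of_pos_right (by linarith [Int.natCast_nonneg (normT L)]) hY
    have h7 := lt_of_mul_lt_mul_right h6 (by positivity)
    rw [← pow_mul, Int.abs_eq_natAbs] at h7
    exact_mod_cast h7
  rw [topMask_eq] at hm
  have hs := signs_of_mask 419 [2, 2, 3, 1] p.val.natAbs (by rw [size_leaf]; exact hlt)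
    (by rw [size_leaf]; exact hm)
  rw [Int.natAbs_of_nonneg hv, ← h3] at hs
  rw [← h4]
  exact (signs_sound false rad [2, 2, 3, 1] L s t (by simpa using h1) hK (by simpa using hst) hs).1

end Vale.Agent.P237.Petty.Cor.Grid
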