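import Vale.Agent.P100.Bernstein.Cert
import Vale.Agent.P237.Petty.Cor.Grid.Signs

/-!
# P237: what the sign test of a leaf proves
-/

namespace Vale.Agent.P237.Petty.Cor.Grid

open Vale.Agent.P100.Bernstein (Good exists_weights)

/-- The scale, as a real number. -/
abbrev sR : ℝ := 16777216

/-- `p` is packed from a polynomial with value `F` at the point with weights `s`, `t`. -/
def Rep (s t : ℕ → ℝ) (d : ℕ → ℕ) (p : PV) (F : ℝ) : Prop := Good 4 ptX s t d p.bnd p.val F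

variable {s t : ℕ → ℝ} {a b c e a' b' c' e' : ℕ} {p q : PV} {F G : ℝ}

theorem Rep.mul (h : Rep s t (q4 a b c e) p F) (h' : Rep s t (q4 a' b' c' e') q G) :
    Rep s t (q4 (a + a') (b + b') (c + c') (e + e')) (p.mul q) (F * G) :=
  (Good.mul h h').congr (fun i _ => by rcases i with _ | _ | _ | i <;> rfl) le_rfl rfl rfl

theorem Rep.add (h : Rep s t (q4 a b c e) p F) (h' : Rep s t (q4 a b c e) q G) :
    Rep s t (q4 a b c e) (p.add q) (F + G) :=
  Good.add h h'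

theorem Rep.smul (h : Rep s t (q4 a b c e) p F) (k : ℤ) :
    Rep s t (q4 a b c e) (p.smul k) ((k : ℝ) * F) :=
  Good.smul h k

theorem Rep.congr (h : Rep s t (q4 a b c e) p F) (hF : F = G) : Rep s t (q4 a b c e) p G :=
  hF ▸ h

/-- A point of a cell. -/
structure Pnt where
  /-- the abscissa of the circle -/
  s : ℝ
  /-- the relative displacement -/
  d : ℝ
  /-- the reciprocal of the rate -/
  v : ℝ
  /-- the value -/
  l : ℝ

/-- The abscissa of the profile. -/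
def Pnt.tp (z : Pnt) : ℝ := z.s * (1 + z.d)

/-- The value of an affine function. -/
noncomputable def L2.ev (f : L2) (x : ℝ) : ℝ := ((f.c0 : ℝ) + f.c1 * x) / sR

/-- The value of a quadratic. -/
noncomputable def Q2.ev (f : Q2) (x : ℝ) : ℝ := ((f.c0 : ℝ) + f.c1 * x + f.c2 * x ^ 2) / sR

/-- The coordinates stand for the point. -/
structure At (s t : ℕ → ℝ) (C : Coords) (z : Pnt) : Prop where
  oS : Rep s t (q4 1 0 0 0) C.oS sR
  lS : Rep s t (q4 1 0 0 0) C.lS (sR * z.s)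
  oD : Rep s t (q4 0 1 0 0) C.oD sR
  lD : Rep s t (q4 0 1 0 0) C.lD (sR * z.d)
  oV : Rep s t (q4 0 0 1 0) C.oV sR
  lV : Rep s t (q4 0 0 1 0) C.lV (sR * z.v)
  oL : Rep s t (q4 0 0 0 1) C.oL sR
  lL : Rep s t (q4 0 0 0 1) C.lL (sR * z.l)

/-- The cell times `v`, less the remainder. -/
noncomputable def goalV (k : Cst) (R : Row) (P : Piece) (lam sig mix : Q2) (z : Pnt) : ℝ :=
  z.l * z.v * (R.w.ev z.s - R.tA.ev z.s) + z.v * R.tB.ev z.s + lam.ev z.s * (z.v - 1) * z.v +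
    R.shR.ev z.s * (P.sh.ev z.v - (z.v - 1)) * z.v + sig.ev z.s * z.d * z.v +
    R.quD.ev z.s * z.d ^ 2 * z.v + mix.ev z.s * z.d * (z.v - 1) * z.v +
    (k.kC : ℝ) / sR * ((1 - z.s ^ 2) * (z.v - 1) ^ 2) + (k.kD : ℝ) / sR * (z.s ^ 2 * z.d ^ 2) -
    (k.kM : ℝ) / sR * (z.s ^ 2 * z.d * (z.v - 1))

/-- The cut. -/
noncomputable def cutV (k : Cst) (P : Piece) (z : Pnt) : ℝ :=
  k.eCut.ev z.l * (1 - z.s ^ 2) * P.rt.ev z.v ^ 2 - 1 + z.tp ^ 2

/-- The rectangle above. -/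
noncomputable def rectV (R : Row) (z : Pnt) : ℝ := 1 - z.tp - z.v * R.hiL.ev z.s

/-- The mass above. -/
noncomputable def highV (k : Cst) (R : Row) (z : Pnt) : ℝ :=
  ((k.m : ℝ) + 1) * (z.v * R.hiU.ev z.s) - (1 - z.tp)

/-- The square bound. -/
noncomputable def sqV (k : Cst) (z : Pnt) : ℝ :=
  ((k.m : ℝ) + 2) * (1 - z.tp) - z.v * (1 - z.s ^ 2)

/-- The mass below. -/
noncomputable def lowV (R : Row) (z : Pnt) : ℝ := z.v * R.loU.ev z.s - z.tp

/-- The displacement. -/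
noncomputable def dispV (k : Cst) (R : Row) (z : Pnt) : ℝ :=
  R.hiU.ev z.s * (k.eVal.ev z.l - 1) + z.s * z.d

/-- The hazard. -/
noncomputable def hazV (k : Cst) (R : Row) (z : Pnt) : ℝ :=
  R.hiL.ev z.s * k.eVal.ev z.l + R.loU.ev z.s * (k.eVal.ev z.l - 1) - z.v * R.hiL.ev z.s

/-- The pinned mass below. -/
noncomputable def pinV (k : Cst) (R : Row) (line : L2) (z : Pnt) : ℝ :=
  R.massU.ev z.s * k.eVal.ev z.l - line.ev z.tp

/-- The geometric mean below. -/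
noncomputable def geoV (k : Cst) (R : Row) (a : ℕ) (z : Pnt) : ℝ :=
  (((a : ℝ) / sR) ^ 2 + z.v) * R.rootU.ev z.s * k.eRoot.ev z.l - 2 * ((a : ℝ) / sR) * z.tp

/-- The constraints that a leaf uses. -/
structure Holds (k : Cst) (R : Row) (P : Piece) (μ : Mult) (z : Pnt) : Prop where
  cut : μ.cut ≠ 0 → 0 ≤ cutV k P z
  rect : μ.rect ≠ 0 → 0 ≤ rectV R z
  high : μ.high ≠ 0 → 0 ≤ highV k R z
  sq : μ.sq ≠ 0 → 0 ≤ sqV k z
  low : μ.low ≠ 0 → 0 ≤ lowV R z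
  disp : μ.disp ≠ 0 → 0 ≤ dispV k R z
  haz : μ.haz ≠ 0 → 0 ≤ hazV k R z
  pin : μ.pin ≠ 0 → 0 ≤ pinV k R μ.line z
  geo : μ.geo ≠ 0 → 0 ≤ geoV k R μ.tan z

variable {C : Coords} {z : Pnt}

theorem At.qS (h : At s t C z) (f : Q2) :
    Rep s t (q4 2 0 0 0) (f.pv C.oS C.lS) (sR ^ 3 * f.ev z.s) :=
  (((((h.oS.mul h.oS).smul f.c0).add ((h.oS.mul h.lS).smul f.c1)).add
    ((h.lS.mul h.lS).smul f.c2))).congr (by simp only [Q2.ev]; field_simp)

theorem At.qV (h : At s t C z) (f : Q2) :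
    Rep s t (q4 0 0 2 0) (f.pv C.oV C.lV) (sR ^ 3 * f.ev z.v) :=
  (((((h.oV.mul h.oV).smul f.c0).add ((h.oV.mul h.lV).smul f.c1)).add
    ((h.lV.mul h.lV).smul f.c2))).congr (by simp only [Q2.ev]; field_simp)

theorem At.aS (h : At s t C z) (f : L2) :
    Rep s t (q4 1 0 0 0) (f.pv C.oS C.lS) (sR ^ 2 * f.ev z.s) :=
  ((h.oS.smul f.c0).add (h.lS.smul f.c1)).congr (by simp only [L2.ev]; field_simp)

theorem At.aV (h : At s t C z) (f : L2) :
    Rep s t (q4 0 0 1 0) (f.pv C.oV C.lV) (sR ^ 2 * f.ev z.v) :=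
  ((h.oV.smul f.c0).add (h.lV.smul f.c1)).congr (by simp only [L2.ev]; field_simp)

theorem At.aL (h : At s t C z) (f : L2) :
    Rep s t (q4 0 0 0 1) (f.pv C.oL C.lL) (sR ^ 2 * f.ev z.l) :=
  ((h.oL.smul f.c0).add (h.lL.smul f.c1)).congr (by simp only [L2.ev]; field_simp)

theorem At.uV (h : At s t C z) : Rep s t (q4 0 0 1 0) C.uV (sR * (z.v - 1)) :=
  (h.lV.add (h.oV.smul (-1))).congr (by push_cast; ring)

theorem At.cS (h : At s t C z) : Rep s t (q4 2 0 0 0) C.cS (sR ^ 2 * (1 - z.s ^ 2)) :=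
  ((h.oS.mul h.oS).add ((h.lS.mul h.lS).smul (-1))).congr (by push_cast; ring)

theorem At.omT (h : At s t C z) : Rep s t (q4 2 1 0 0) C.omT (sR ^ 3 * (1 - z.tp)) :=
  (h.oS.mul ((h.oS.mul h.oD).add ((h.lS.mul (h.oD.add h.lD)).smul (-1)))).congr
    (by simp only [Pnt.tp]; push_cast; ring)

theorem At.tS (h : At s t C z) : Rep s t (q4 2 1 0 0) C.tS (sR ^ 3 * z.tp) :=
  ((h.oS.mul h.lS).mul (h.oD.add h.lD)).congr (by simp only [Pnt.tp]; ring)

theorem At.v3 (h : At s t C z) : Rep s t (q4 0 0 3 0) C.v3 (sR ^ 3 * z.v) :=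
  (h.lV.mul (h.oV.mul h.oV)).congr (by ring)

theorem At.vu3 (h : At s t C z) : Rep s t (q4 0 0 3 0) C.vu3 (sR ^ 3 * (z.v * (z.v - 1))) :=
  ((h.lV.mul h.uV).mul h.oV).congr (by ring)

theorem At.negOne (h : At s t C z) :
    Rep s t (q4 2 2 3 1) (negOne C) (sR ^ 8 * (-1)) :=
  (((((h.oS.mul h.oS).mul (h.oD.mul h.oD)).mul ((h.oV.mul h.oV).mul h.oV)).mul h.oL).smul
    (-1)).congr (by push_cast; ring)

theorem At.goal (h : At s t C z) (k : Cst) (R : Row) (P : Piece) (lam sig mix : Q2) :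
    Rep s t (q4 2 2 3 1) (goal k R P lam sig mix C) (sR ^ 10 * goalV k R P lam sig mix z) := by
  have h0 : Rep s t (q4 2 0 3 1) (part0 k R P lam C)
      (sR ^ 8 * (z.l * z.v * (R.w.ev z.s - R.tA.ev z.s) + z.v * R.tB.ev z.s +
        lam.ev z.s * (z.v - 1) * z.v + R.shR.ev z.s * (P.sh.ev z.v - (z.v - 1)) * z.v +
        (k.kC : ℝ) / sR * ((1 - z.s ^ 2) * (z.v - 1) ^ 2))) :=
    ((((((h.qS R.w).mul h.lL).add
        (h.oS.mul (((h.aS R.tB).mul h.oL).add (((h.aS R.tA).mul h.lL).smul (-1))))).mul h.v3).add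
      (((h.qS lam).mul h.oL).mul h.vu3)).smul scl).add
    ((((h.cS.mul ((h.uV.mul h.uV).mul h.oV)).smul (k.kC * scl)).add
      ((h.qS R.shR).mul
        (((h.qV P.sh).add ((h.uV.mul h.oV).smul (-scl))).mul h.lV))).mul h.oL) |>.congr
      (by simp only [scl, sR]; push_cast; ring)
  have h1 : Rep s t (q4 2 0 3 1) (part1 k sig mix C)
      (sR ^ 8 * (sig.ev z.s * z.v + mix.ev z.s * (z.v - 1) * z.v -
        (k.kM : ℝ) / sR * (z.s ^ 2 * (z.v - 1)))) :=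
    ((((((h.qS sig).mul h.v3).add ((h.qS mix).mul h.vu3)).add
      (((h.lS.mul h.lS).mul ((h.oV.mul h.oV).mul h.uV)).smul (-k.kM))).mul h.oL).smul scl).congr
      (by simp only [scl, sR]; push_cast; ring)
  have h2 : Rep s t (q4 2 0 3 1) (part2 k R C)
      (sR ^ 8 * (R.quD.ev z.s * z.v + (k.kD : ℝ) / sR * z.s ^ 2)) :=
    (((((h.qS R.quD).mul h.v3).add
      (((h.lS.mul h.lS).mul ((h.oV.mul h.oV).mul h.oV)).smul k.kD)).mul h.oL).smul scl).congr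
      (by simp only [scl, sR]; push_cast; ring)
  exact (((h0.mul (h.oD.mul h.oD)).add (h1.mul (h.oD.mul h.lD))).add
    (h2.mul (h.lD.mul h.lD))).congr (by simp only [goalV]; ring)

theorem At.gCut (h : At s t C z) (k : Cst) (P : Piece) :
    Rep s t (q4 2 2 3 1) (gCut k P C) (sR ^ 11 * cutV k P z) :=
  ((((h.cS.mul (h.aL k.eCut)).mul (((h.aV P.rt).mul (h.aV P.rt)).mul h.oV)).mul
    (h.oD.mul h.oD)).add
    (((((h.lS.mul h.lS).mul ((h.oD.add h.lD).mul (h.oD.add h.lD))).add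
      (((h.oS.mul h.oS).mul (h.oD.mul h.oD)).smul (-1))).mul
        (((h.oV.mul h.oV).mul h.oV).mul h.oL)).smul (scl * scl * scl))).congr
    (by simp only [cutV, Pnt.tp, scl, sR]; push_cast; ring)

theorem At.gRect (h : At s t C z) (R : Row) :
    Rep s t (q4 2 2 3 1) (gRect R C) (sR ^ 9 * rectV R z) :=
  ((((h.omT.mul h.oV).smul scl).add ((((h.qS R.hiL).mul h.lV).mul h.oD).smul (-1))).mul
    ((h.oD.mul (h.oV.mul h.oV)).mul h.oL)).congr
    (by simp only [rectV, scl, sR]; push_cast; ring)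

theorem At.gHigh (h : At s t C z) (k : Cst) (R : Row) :
    Rep s t (q4 2 2 3 1) (gHigh k R C) (sR ^ 9 * highV k R z) :=
  (((((h.qS R.hiU).mul h.lV).mul h.oD).smul ((k.m : ℤ) + 1)).add
    ((h.omT.mul h.oV).smul (-scl))).mul ((h.oD.mul (h.oV.mul h.oV)).mul h.oL) |>.congr
    (by simp only [highV, scl, sR]; push_cast; ring)

theorem At.gSq (h : At s t C z) (k : Cst) :
    Rep s t (q4 2 2 3 1) (gSq k C) (sR ^ 9 * sqV k z) :=
  (((h.omT.mul h.oV).smul (((k.m : ℤ) + 2) * scl)).add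
    (((h.cS.mul h.lV).mul h.oD).smul (-scl))).mul ((h.oD.mul (h.oV.mul h.oV)).mul h.oL) |>.congr
    (by simp only [sqV, scl, sR]; push_cast; ring)

theorem At.gLow (h : At s t C z) (R : Row) :
    Rep s t (q4 2 2 3 1) (gLow R C) (sR ^ 9 * lowV R z) :=
  ((((h.qS R.loU).mul h.lV).mul h.oD).add ((h.tS.mul h.oV).smul (-scl))).mul
    ((h.oD.mul (h.oV.mul h.oV)).mul h.oL) |>.congr
    (by simp only [lowV, scl, sR]; push_cast; ring)

theorem At.gDisp (h : At s t C z) (k : Cst) (R : Row) :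
    Rep s t (q4 2 2 3 1) (gDisp k R C) (sR ^ 10 * dispV k R z) :=
  ((((h.qS R.hiU).mul h.oD).mul ((h.aL k.eVal).add (h.oL.smul (-scl)))).add
    ((((h.oS.mul h.lS).mul h.lD).mul h.oL).smul (scl * scl))).mul
    (h.oD.mul ((h.oV.mul h.oV).mul h.oV)) |>.congr
    (by simp only [dispV, scl, sR]; push_cast; ring)

theorem At.gHaz (h : At s t C z) (k : Cst) (R : Row) :
    Rep s t (q4 2 2 3 1) (gHaz k R C) (sR ^ 10 * hazV k R z) :=
  (((((h.qS R.hiL).mul (h.aL k.eVal)).add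
      ((h.qS R.loU).mul ((h.aL k.eVal).add (h.oL.smul (-scl))))).mul h.oV).add
    ((((h.qS R.hiL).mul h.oL).mul h.lV).smul (-scl))).mul
    ((h.oD.mul h.oD).mul (h.oV.mul h.oV)) |>.congr
    (by simp only [hazV, scl, sR]; push_cast; ring)

theorem At.gPin (h : At s t C z) (k : Cst) (R : Row) (line : L2) :
    Rep s t (q4 2 2 3 1) (gPin k R line C) (sR ^ 10 * pinV k R line z) :=
  ((((h.qS R.massU).mul h.oD).mul (h.aL k.eVal)).add
    ((((((h.oS.mul h.oS).mul h.oD).smul line.c0).add (h.tS.smul line.c1)).mul h.oL).smul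
      (-scl))).mul (h.oD.mul ((h.oV.mul h.oV).mul h.oV)) |>.congr
    (by simp only [pinV, L2.ev, scl, sR]; push_cast; ring)

theorem At.gGeo (h : At s t C z) (k : Cst) (R : Row) (a : ℕ) :
    Rep s t (q4 2 2 3 1) (gGeo k R a C) (sR ^ 12 * geoV k R a z) :=
  ((((((h.oV.smul ((a : ℤ) * a)).add (h.lV.smul (scl * scl))).mul (h.qS R.rootU)).mul
      (h.aL k.eRoot)).mul h.oD).add
    (((h.tS.mul h.oV).mul h.oL).smul (-(2 * (a : ℤ) * (scl * scl * scl))))).mul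
    (h.oD.mul (h.oV.mul h.oV)) |>.congr
    (by simp only [geoV, scl, sR]; push_cast; ring)

theorem Rep.sub0 {k : ℤ} {g : PV} {K : ℝ} (hp : Rep s t (q4 a b c e) p F)
    (hg : Rep s t (q4 a b c e) g G) (hk : (k : ℝ) = K) (μ : ℕ) :
    Rep s t (q4 a b c e) (sub0 p μ k g) (F - (μ : ℝ) * K * G) := by
  cases μ with
  | zero => exact hp.congr (by simp)
  | succ j => exact (hp.add (hg.smul _)).congr (by subst hk; push_cast; ring)

/-- A leaf that passes has a nonnegative start where its constraints hold. -/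
theorem comb_sound {k : Cst} {R : Row} {P : Piece} {μ : Mult} {g0 : PV} {G0 : ℝ}
    (h : At s t C z) (hg : Rep s t (q4 2 2 3 1) g0 G0) (hz : Holds k R P μ z)
    (hst : ∀ i < 4, 0 ≤ s i ∧ 0 ≤ t i ∧ s i + t i = 1)
    (hs : signTest (comb k R P μ C g0) = true) : 0 ≤ G0 := by
  have e1 : ((scl : ℤ) : ℝ) = sR := by simp [scl, sR]
  have e2 : ((scl * scl : ℤ) : ℝ) = sR * sR := by rw [Int.cast_mul, e1]
  have e3 : ((scl * scl * scl : ℤ) : ℝ) = sR * sR * sR := by rw [Int.cast_mul, Int.cast_mul, e1]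
  have hF := signTest_sound hs hst (((((((((hg.sub0 (h.gCut k P) e1 μ.cut).sub0 (h.gRect R) e3
    μ.rect).sub0 (h.gHigh k R) e3 μ.high).sub0 (h.gSq k) e3 μ.sq).sub0 (h.gLow R) e3 μ.low).sub0
    (h.gDisp k R) e2 μ.disp).sub0 (h.gHaz k R) e2 μ.haz).sub0 (h.gPin k R μ.line) e2 μ.pin).sub0
    (h.gGeo k R μ.tan) (K := 1) Int.cast_one μ.geo |>.congr rfl |> fun r =>
      Good.congr r (fun i hi => by interval_cases i <;> rfl) le_rfl rfl rfl)
  have w : ∀ (μ : ℕ) (K g : ℝ), 0 ≤ K → (μ ≠ 0 → 0 ≤ g) → 0 ≤ (μ : ℝ) * K * g := by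
    intro μ K g hK hg'
    rcases eq_or_ne μ 0 with rfl | hm
    · simp
    · exact mul_nonneg (mul_nonneg (by positivity) hK) (hg' hm)
  have p : ∀ (j : ℕ) (g : ℝ), 0 ≤ g → 0 ≤ sR ^ j * g := fun j g hg' => by positivity
  linarith [w μ.cut sR _ (by norm_num) fun hm => p 11 _ (hz.cut hm),
    w μ.rect (sR * sR * sR) _ (by norm_num) fun hm => p 9 _ (hz.rect hm),
    w μ.high (sR * sR * sR) _ (by norm_num) fun hm => p 9 _ (hz.high hm),
    w μ.sq (sR * sR * sR) _ (by norm_num) fun hm => p 9 _ (hz.sq hm),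
    w μ.low (sR * sR * sR) _ (by norm_num) fun hm => p 9 _ (hz.low hm),
    w μ.disp (sR * sR) _ (by norm_num) fun hm => p 10 _ (hz.disp hm),
    w μ.haz (sR * sR) _ (by norm_num) fun hm => p 10 _ (hz.haz hm),
    w μ.pin (sR * sR) _ (by norm_num) fun hm => p 10 _ (hz.pin hm),
    w μ.geo 1 _ zero_le_one fun hm => p 12 _ (hz.geo hm)]

/-- The point lies in the box. -/
structure InB (B : Box) (z : Pnt) : Prop where
  s0 : (B.s0 : ℝ) ≤ sR * z.s
  s1 : sR * z.s ≤ B.s1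
  d0 : (B.d0 : ℝ) ≤ sR * z.d
  d1 : sR * z.d ≤ B.d1
  v0 : (B.v0 : ℝ) ≤ sR * z.v
  v1 : sR * z.v ≤ B.v1
  l0 : (B.l0 : ℝ) ≤ sR * z.l
  l1 : sR * z.l ≤ B.l1

theorem rep_coord {lo hi : ℤ} {i X : ℕ} {d : ℕ → ℕ} (hX : ptX.getD i 1 = X) (hi4 : i < 4)
    (hd : ∀ j < 4, (if j = i then 1 else 0) = d j) {x : ℝ}
    (hx : x = (lo : ℝ) * s i + hi * t i) : Rep s t d (coord lo hi X) x :=
  (Vale.Agent.P100.Bernstein.good_lin hi4 lo hi).congr hd le_rfl
    (by simp only [coord, Vale.Agent.P100.Bernstein.pt, hX]) hx.symm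

theorem at_box {B : Box} (h : InB B z) :
    ∃ s t : ℕ → ℝ, (∀ i < 4, 0 ≤ s i ∧ 0 ≤ t i ∧ s i + t i = 1) ∧ At s t B.coords z := by
  obtain ⟨a0, b0, ha0, hb0, e0, x0⟩ := exists_weights h.s0 h.s1
  obtain ⟨a1, b1, ha1, hb1, e1, x1⟩ := exists_weights h.d0 h.d1
  obtain ⟨a2, b2, ha2, hb2, e2, x2⟩ := exists_weights h.v0 h.v1
  obtain ⟨a3, b3, ha3, hb3, e3, x3⟩ := exists_weights h.l0 h.l1
  refine ⟨q4 a0 a1 a2 a3, q4 b0 b1 b2 b3, fun i hi => ?_, ?_⟩
  · rcases i with _ | _ | _ | i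
    exacts [⟨ha0, hb0, e0⟩, ⟨ha1, hb1, e1⟩, ⟨ha2, hb2, e2⟩, ⟨ha3, hb3, e3⟩]
  have w : ptX = [(2 ^ rad) ^ 24, (2 ^ rad) ^ 8, (2 ^ rad) ^ 2, 2 ^ rad] := weights_leaf
  have hd : ∀ i < 4, ∀ j < 4, (if j = i then 1 else 0) =
      q4 (if i = 0 then 1 else 0) (if i = 1 then 1 else 0) (if i = 2 then 1 else 0)
        (if i = 3 then 1 else 0) j := by decide
  have one : ∀ a b : ℝ, a + b = 1 → sR = ((scl : ℤ) : ℝ) * a + ((scl : ℤ) : ℝ) * b := by
    intro a b hab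
    rw [← mul_add, hab, mul_one]
    simp [scl, sR]
  exact ⟨rep_coord (i := 0) (by simp [w]) (by decide) (hd 0 (by decide)) (one _ _ e0),
    rep_coord (i := 0) (by simp [w]) (by decide) (hd 0 (by decide)) x0,
    rep_coord (i := 1) (by simp [w]) (by decide) (hd 1 (by decide)) (one _ _ e1),
    rep_coord (i := 1) (by simp [w]) (by decide) (hd 1 (by decide)) x1,
    rep_coord (i := 2) (by simp [w]) (by decide) (hd 2 (by decide)) (one _ _ e2),
    rep_coord (i := 2) (by simp [w]) (by decide) (hd 2 (by decide)) x2,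
    rep_coord (i := 3) (by simp [w]) (by decide) (hd 3 (by decide)) (one _ _ e3),
    rep_coord (i := 3) (by simp [w]) (by decide) (hd 3 (by decide)) x3⟩

/-- The orientation of a point. -/
def Sgn.Of (z : Pnt) : Sgn → Prop
  | .pp => 0 ≤ z.d ∧ 1 ≤ z.v
  | .pm => 0 ≤ z.d ∧ z.v ≤ 1
  | .mp => z.d ≤ 0 ∧ 1 ≤ z.v
  | .mm => z.d ≤ 0 ∧ z.v ≤ 1

/-- The piece contains the coordinate. -/
def Piece.Has (P : Piece) (v : ℝ) : Prop := (P.lo : ℝ) ≤ sR * v ∧ sR * v ≤ P.hi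

theorem posTest_sound {k : Cst} {R : Row} {P : Piece} {σ : Sgn} {μ : Mult} {B : Box}
    (h : posTest k R P σ μ B = true) (hb : InB B z) :
    P.Has z.v ∧ σ.Of z ∧
      (Holds k R P μ z → 0 ≤ goalV k R P (R.lam σ) (R.sig σ) (R.mix σ) z) := by
  simp only [posTest, Bool.and_eq_true, decide_eq_true_eq] at h
  obtain ⟨⟨⟨hlo, hhi⟩, hf⟩, hs⟩ := h
  have hl : (P.lo : ℝ) ≤ B.v0 := by exact_mod_cast hlo
  have hh : (B.v1 : ℝ) ≤ P.hi := by exact_mod_cast hhi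
  have hS : (0 : ℝ) < sR := by norm_num
  refine ⟨⟨hl.trans hb.v0, hb.v1.trans hh⟩, ?_, fun hz => ?_⟩
  · cases σ <;> simp only [Sgn.fits, Bool.and_eq_true, decide_eq_true_eq, scl] at hf <;>
      obtain ⟨f1, f2⟩ := hf <;>
      have g1 := (Int.cast_le (R := ℝ)).2 f1 <;> have g2 := (Int.cast_le (R := ℝ)).2 f2 <;>
      push_cast at g1 g2 <;> refine ⟨?_, ?_⟩ <;>
      nlinarith [hb.d0, hb.d1, hb.v0, hb.v1, g1, g2]
  · obtain ⟨s, t, hst, ha⟩ := at_box hb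
    have := comb_sound ha ((ha.goal k R P (R.lam σ) (R.sig σ) (R.mix σ)).smul _) hz hst hs
    have h3 : ((scl * scl * scl : ℤ) : ℝ) = sR * sR * sR := by
      simp only [scl, sR]; norm_num
    rw [h3, ← mul_assoc] at this
    exact nonneg_of_mul_nonneg_right (by linarith) (by positivity : (0 : ℝ) < sR * sR * sR * sR ^ 10)

theorem voidTest_sound {k : Cst} {R : Row} {P : Piece} {μ : Mult} {B : Box}
    (h : voidTest k R P μ B = true) (hb : InB B z) :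
    P.Has z.v ∧ (Holds k R P μ z → False) := by
  simp only [voidTest, Bool.and_eq_true, decide_eq_true_eq] at h
  obtain ⟨⟨hlo, hhi⟩, hs⟩ := h
  have hl : (P.lo : ℝ) ≤ B.v0 := by exact_mod_cast hlo
  have hh : (B.v1 : ℝ) ≤ P.hi := by exact_mod_cast hhi
  refine ⟨⟨hl.trans hb.v0, hb.v1.trans hh⟩, fun hz => ?_⟩
  obtain ⟨s, t, hst, ha⟩ := at_box hb
  have := comb_sound ha ha.negOne hz hst hs
  have : (0 : ℝ) < sR ^ 8 := by positivity
  linarith

end Vale.Agent.P237.Petty.Cor.Grid
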