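import Vale.Agent.P100.Bernstein.Cert
import Vale.Agent.P237.Petty.Cor.Grid.Sound
import Vale.Agent.P237.Petty.Cor.Point

/-!
# P237: nonnegativity in one variable, with bisection found by the kernel
-/

namespace Vale.Agent.P237.Petty.Cor.Grid

open Vale.Agent.P100.Bernstein (Expr Iv Deg Packed checkBox checkBox_sound weights padD InBox
  powZ digits signs size okBox gap lift getD_addD getD_maxD getD_smulD)

/-- Sum of two packed polynomials in one variable: degree, bound, denominator, value. -/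
def add1 (Y : ℕ) (c : ℤ) (p q : ℕ × ℕ × ℕ × ℤ) : ℕ × ℕ × ℕ × ℤ :=
  match p, q with
  | (d, b, n, v), (e, b', n', v') =>
    (max d e,
      Nat.lcm n n' / n * 2 ^ (max d e - d) * b +
        c.natAbs * (Nat.lcm n n' / n' * 2 ^ (max d e - e) * b'),
      Nat.lcm n n',
      ((Nat.lcm n n' / n * (1 + Y) ^ (max d e - d) : ℕ) : ℤ) * v +
        c * (((Nat.lcm n n' / n' * (1 + Y) ^ (max d e - e) : ℕ) : ℤ) * v'))

/-- Product. -/
def mul1 (p q : ℕ × ℕ × ℕ × ℤ) : ℕ × ℕ × ℕ × ℤ :=
  match p, q with
  | (d, b, n, v), (e, b', n', v') => (d + e, b * b', n * n', v * v')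

/-- The packed form of an expression in one variable, in one pass. -/
def pack1 (I : Iv) (Y : ℕ) : Expr → ℕ × ℕ × ℕ × ℤ
  | .num c => (0, c.natAbs, 1, c)
  | .frac c d => (0, c.natAbs, d, c)
  | .var _ => (1, I.lo.natAbs + I.hi.natAbs, I.den, I.lo + I.hi * (Y : ℤ))
  | .add a b => add1 Y 1 (pack1 I Y a) (pack1 I Y b)
  | .sub a b => add1 Y (-1) (pack1 I Y a) (pack1 I Y b)
  | .neg a => match pack1 I Y a with | (d, b, n, v) => (d, b, n, -v)
  | .mul a b => mul1 (pack1 I Y a) (pack1 I Y b)
  | .pow a k => match pack1 I Y a with | (d, b, n, v) => (k * d, b ^ k, n ^ k, powZ v k)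

theorem pack1_eq (I : Iv) (Y : ℕ) : ∀ e : Expr, e.ok 1 = true → pack1 I Y e =
    ((e.pack [I] [Y]).deg.getD 0 0, (e.pack [I] [Y]).bound, (e.pack [I] [Y]).den,
      (e.pack [I] [Y]).val)
  | .num _, _ => rfl
  | .frac _ _, _ => rfl
  | .var i, h => by
    obtain rfl : i = 0 := by simpa [Expr.ok] using h
    rfl
  | .neg a, h => by simp only [pack1, pack1_eq I Y a (by simpa [Expr.ok] using h), Expr.pack]
  | .pow a k, h => by
    simp only [pack1, pack1_eq I Y a (by simpa [Expr.ok] using h), Expr.pack, getD_smulD]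
  | .mul a b, h => by
    simp only [Expr.ok, Bool.and_eq_true] at h
    simp only [pack1, pack1_eq I Y a h.1, pack1_eq I Y b h.2, Expr.pack, mul1, getD_addD]
  | .add a b, h => by
    simp only [Expr.ok, Bool.and_eq_true] at h
    simp only [pack1, pack1_eq I Y a h.1, pack1_eq I Y b h.2, Expr.pack, add1, Packed.addc,
      getD_maxD, gap, lift, List.length_cons, List.length_nil, List.getD_cons_zero, Nat.zero_add,
      one_mul]
  | .sub a b, h => by
    simp only [Expr.ok, Bool.and_eq_true] at h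
    simp only [pack1, pack1_eq I Y a h.1, pack1_eq I Y b h.2, Expr.pack, add1, Packed.addc,
      getD_maxD, gap, lift, List.length_cons, List.length_nil, List.getD_cons_zero, Nat.zero_add,
      one_mul]

/-- A multiple of `64` above the size of `b`, found by search. -/
def sizeUp (b : ℕ) : ℕ → ℕ → ℕ
  | 0, K => K
  | d + 1, K => if b < 2 ^ K then K else sizeUp b d (K + 64)

/-- The test on one interval, with `2 ^ K` for the radix. -/
def boxK (e : Expr) (I : Iv) (K : ℕ) : Bool :=
  match pack1 I (2 ^ K) e with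
  | (d, b, _, v) => decide (2 * b < 2 ^ K) && digits (fun t => decide (0 ≤ t)) (2 ^ K) d v

/-- The test on one interval. -/
def box1 (e : Expr) (I : Iv) : Bool :=
  decide (0 < I.den) &&
    match pack1 I 0 e with
    | (_, b, _, _) => boxK e I (sizeUp (2 * b) 200 64)

theorem boxK_sound {e : Expr} (he : e.ok 1 = true) {I : Iv} {K : ℕ} (hd : 0 < I.den)
    (h : boxK e I K = true) :
    checkBox false e [I] K [2 ^ K] = true := by
  simp only [boxK, pack1_eq I (2 ^ K) e he, Bool.and_eq_true, decide_eq_true_eq] at h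
  obtain ⟨hb, hs⟩ := h
  have hp : ∀ D : Deg, padD [I].length D = [D.getD 0 0] := fun D => by cases D <;> rfl
  have hs1 : ∀ (d : ℕ) (v : ℤ), signs false K [d] v =
      digits (fun t => decide (0 ≤ t)) (2 ^ K) d v := fun d v => by
    simp only [signs, size, pow_one, cond_false]
  simp only [checkBox, okBox, hd, hb, hp, hs1, weights, size, pow_one, decide_true, Bool.and_self,
    hs]

theorem box1_sound {e : Expr} (he : e.ok 1 = true) {I : Iv} (h : box1 e I = true) :
    ∃ K, checkBox false e [I] K [2 ^ K] = true := by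
  simp only [box1, Bool.and_eq_true, decide_eq_true_eq, pack1_eq I 0 e he] at h
  exact ⟨_, boxK_sound he h.1 h.2⟩

/-- The test, bisecting at most `d` times. -/
def bisect (e : Expr) : ℕ → Iv → Bool
  | 0, I => box1 e I
  | d + 1, I =>
    box1 e I ||
      (bisect e d ⟨2 * I.lo, I.lo + I.hi, 2 * I.den⟩ &&
        bisect e d ⟨I.lo + I.hi, 2 * I.hi, 2 * I.den⟩)

/-- Nonnegativity on `[a, b]`, over `2 ^ 24`. -/
def nonneg1 (e : Expr) (a b : ℤ) : Bool := e.ok 1 && bisect e 12 ⟨a, b, 16777216⟩

theorem bisect_sound {e : Expr} (he : e.ok 1 = true) {x : ℝ} : ∀ (d : ℕ) (I : Iv),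
    bisect e d I = true → (I.lo : ℝ) ≤ I.den * x → (I.den : ℝ) * x ≤ I.hi → 0 ≤ e.eval [x]
  | 0, I, h, h1, h2 =>
    (checkBox_sound (B := [I]) he (box1_sound he h).choose_spec (x := [x]) ⟨h1, h2, trivial⟩).1
  | d + 1, I, h, h1, h2 => by
    simp only [bisect, Bool.or_eq_true, Bool.and_eq_true] at h
    rcases h with h | ⟨hl, hr⟩
    · exact (checkBox_sound (B := [I]) he (box1_sound he h).choose_spec (x := [x]) ⟨h1, h2, trivial⟩).1
    · rcases le_total ((2 * I.den : ℝ) * x) (I.lo + I.hi) with c | c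
      · exact bisect_sound he d _ hl (by push_cast; linarith) (by push_cast; linarith)
      · exact bisect_sound he d _ hr (by push_cast; linarith) (by push_cast; linarith)

theorem nonneg1_sound {e : Expr} {a b : ℤ} (h : nonneg1 e a b = true) {x : ℝ}
    (h1 : (a : ℝ) ≤ sR * x) (h2 : sR * x ≤ b) : 0 ≤ e.eval [x] := by
  simp only [nonneg1, Bool.and_eq_true] at h
  exact bisect_sound h.1 12 _ h.2 (by simpa [sR] using h1) (by simpa [sR] using h2)

/-- A rational constant over the scale. -/
def cE (c : ℤ) : Expr := .frac c 16777216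

/-- A quadratic as an expression. -/
def Q2.expr (q : Q2) : Expr :=
  .add (cE q.c0) (.mul (.var 0) (.add (cE q.c1) (.mul (cE q.c2) (.var 0))))

/-- The derivative of a quadratic as an expression. -/
def Q2.dExpr (q : Q2) : Expr := .add (cE q.c1) (.mul (cE (2 * q.c2)) (.var 0))

/-- An affine function as an expression. -/
def L2.expr (q : L2) : Expr := .add (cE q.c0) (.mul (cE q.c1) (.var 0))

/-- The square of the half circle as an expression. -/
def cirE : Expr := .sub (.num 1) (.mul (.var 0) (.var 0))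

@[simp] theorem eval_cE (c : ℤ) (x : List ℝ) : (cE c).eval x = (c : ℝ) / sR := by
  simp [cE, Expr.eval, sR]

theorem Q2.eval_expr (q : Q2) (x : ℝ) : q.expr.eval [x] = q.ev x := by
  simp only [Q2.expr, Expr.eval, eval_cE, Q2.ev, List.getD_cons_zero]
  ring

theorem Q2.eval_dExpr (q : Q2) (x : ℝ) :
    q.dExpr.eval [x] = ((q.c1 : ℝ) + 2 * q.c2 * x) / sR := by
  simp only [Q2.dExpr, Expr.eval, eval_cE, List.getD_cons_zero]
  push_cast
  ring

theorem L2.eval_expr (q : L2) (x : ℝ) : q.expr.eval [x] = q.ev x := by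
  simp only [L2.expr, Expr.eval, eval_cE, L2.ev, List.getD_cons_zero]
  ring

theorem eval_cirE (x : ℝ) : cirE.eval [x] = 1 - x ^ 2 := by
  simp only [cirE, Expr.eval, List.getD_cons_zero]
  push_cast
  ring

theorem Q2.hasDerivAt (q : Q2) (x : ℝ) :
    HasDerivAt q.ev (((q.c1 : ℝ) + 2 * q.c2 * x) / sR) x := by
  show HasDerivAt (fun x => ((q.c0 : ℝ) + q.c1 * x + q.c2 * x ^ 2) / sR) _ _
  refine ((((hasDerivAt_id x).const_mul (q.c1 : ℝ)).const_add _).add
    ((hasDerivAt_pow 2 x).const_mul (q.c2 : ℝ))).div_const sR |>.congr_deriv ?_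
  push_cast
  ring

end Vale.Agent.P237.Petty.Cor.Grid
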