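import Vale.Agent.P237.Petty.Cor.Grid.State

/-!
# P237: a crude lower bound of the cell near the end
-/

namespace Vale.Agent.P237.Petty.Cor.Grid

open MeasureTheory Set
open Lift (circLow circHigh)

variable {D : Par}

/-- The absolute sum of an even polynomial. -/
noncomputable def absE : List ℤ → ℝ
  | [] => 0
  | c :: l => |(c : ℝ)| / sR + absE l

/-- The absolute sum of its derivative. -/
noncomputable def absD : List ℤ → ℝ
  | [] => 0
  | _ :: l => 2 * absE l + absD l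

theorem absE_nonneg : ∀ l, 0 ≤ absE l
  | [] => le_rfl
  | c :: l => add_nonneg (div_nonneg (abs_nonneg _) (by norm_num)) (absE_nonneg l)

theorem absD_nonneg : ∀ l, 0 ≤ absD l
  | [] => le_rfl
  | _ :: l => add_nonneg (mul_nonneg zero_le_two (absE_nonneg l)) (absD_nonneg l)

theorem abs_evE_le {x : ℝ} (h0 : 0 ≤ x) (h1 : x ≤ 1) : ∀ l,
    |evE l x| ≤ absE l ∧ |dE l x| ≤ absD l
  | [] => by simp [evE, dE, absE, absD]
  | c :: l => by
    obtain ⟨i1, i2⟩ := abs_evE_le h0 h1 l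
    have hx2 : x ^ 2 ≤ 1 := pow_le_one₀ h0 h1
    simp only [evE, dE, absE, absD]
    constructor
    · refine (abs_add_le _ _).trans (add_le_add ?_ ?_)
      · rw [abs_div, abs_of_pos (show (0 : ℝ) < sR by norm_num)]
      · rw [abs_mul, abs_of_nonneg (sq_nonneg x)]
        exact (mul_le_of_le_one_left (abs_nonneg _) hx2).trans i1
    · refine (abs_add_le _ _).trans (add_le_add ?_ ?_)
      · rw [abs_mul, abs_of_nonneg (by linarith : (0 : ℝ) ≤ 2 * x)]
        exact mul_le_mul (by linarith) i1 (abs_nonneg _) zero_le_two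
      · rw [abs_mul, abs_of_nonneg (sq_nonneg x)]
        exact (mul_le_of_le_one_left (abs_nonneg _) hx2).trans i2

/-- The absolute bound of `sb`. -/
noncomputable def Par.absS (D : Par) : ℝ := absE D.B + |(D.A : ℝ)| / sR

/-- The absolute bound of the derivative of `sb`. -/
noncomputable def Par.absS' (D : Par) : ℝ :=
  2 * absE D.B + absD D.B + 2 * (|(D.A : ℝ)| / sR)

theorem abs_sb_le {x : ℝ} (h0 : 0 ≤ x) (h1 : x ≤ 1) :
    |D.sb x| ≤ D.absS ∧ |D.sb' x| ≤ D.absS' := by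
  obtain ⟨i1, i2⟩ := abs_evE_le h0 h1 D.B
  have hA := abs_nonneg ((D.A : ℝ) / sR)
  have hx2 : x ^ 2 ≤ 1 := pow_le_one₀ h0 h1
  have e : |(D.A : ℝ) / sR| = |(D.A : ℝ)| / sR := by
    rw [abs_div, abs_of_pos (show (0 : ℝ) < sR by norm_num)]
  rw [Par.absS, Par.absS', Par.sb, Par.sb', ← e]
  constructor
  · refine (abs_sub _ _).trans (add_le_add ?_ ?_)
    · rw [abs_mul, abs_of_nonneg (sq_nonneg x)]
      exact (mul_le_of_le_one_left (abs_nonneg _) hx2).trans i1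
    · rw [abs_mul, abs_of_nonneg (by linarith : (0 : ℝ) ≤ 1 - x ^ 2)]
      exact mul_le_of_le_one_right hA (by linarith [sq_nonneg x])
  · refine (abs_add_le _ _).trans (add_le_add ((abs_add_le _ _).trans (add_le_add ?_ ?_)) ?_)
    · rw [abs_mul, abs_of_nonneg (by linarith : (0 : ℝ) ≤ 2 * x)]
      exact mul_le_mul (by linarith) i1 (abs_nonneg _) zero_le_two
    · rw [abs_mul, abs_of_nonneg (sq_nonneg x)]
      exact (mul_le_of_le_one_left (abs_nonneg _) hx2).trans i2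
    · rw [abs_mul, abs_mul, abs_of_nonneg h0, abs_two]
      exact mul_le_of_le_one_right (mul_nonneg zero_le_two hA) h1

/-- The bound of the cell near the end, times `arc s`; `E` bounds `exp ell`, `S` is the start,
`C` bounds `c0`. -/
noncomputable def Par.tailK (D : Par) (E S C : ℝ) : ℝ :=
  let Dd := 1 + (E - 1) / (((D.p : ℝ) + 3) * S)
  let U := ((D.p : ℝ) + 3) * Dd + 1
  let ep := 1 - S ^ 2
  ((D.p : ℝ) + 1) * D.gz + (absE D.K + D.gz) * U +
    Dd * (absD D.K + ((D.p : ℝ) + 2) * D.gz + ((D.p : ℝ) + 1) * absE D.K + C) +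
    Dd ^ 2 * ep * (ep * ((D.absS' + D.absS) / S ^ 2 + D.nu * ((D.p : ℝ) + 4) * D.g ^ 2) +
      ((D.p : ℝ) + 1) * D.absS / S) +
    2 * D.absS / S * U * Dd * ep + 8 * D.nu * (D.g ^ 2 + 1) * U * Dd * ep

/-- The part of the test. -/
theorem test_part {nu g s c d u v U Dd ep : ℝ} (hnu : 0 ≤ nu) (hg : 0 ≤ g) (hs : 0 ≤ s)
    (hs1 : s ≤ 1) (hc0 : 0 ≤ c) (hc1 : c ≤ 1) (hcs : c ^ 2 = 1 - s ^ 2) (hv : 0 < v)
    (huv : u = v - 1) (hu : |u| ≤ U) (hD : 0 ≤ Dd) (hd : |d| ≤ Dd * c ^ 2) (hep : c ^ 2 ≤ ep)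
    (hcase : v < 1 / 4 → 0 ≤ d ∧ d ≤ 1 - s) :
    -(8 * nu * (g ^ 2 + 1) * U * Dd * ep) ≤
      c * ((2 * nu * g * (1 + g) * d ^ 2 + 2 * nu * (1 + g) * c ^ 2 * u ^ 2 -
        2 * nu * s * (g ^ 2 - 1) * u * d) / v) := by
  have hU : 0 ≤ U := (abs_nonneg u).trans hu
  have hep0 : 0 ≤ ep := (sq_nonneg c).trans hep
  have hq : 0 ≤ 2 * nu * g * (1 + g) * d ^ 2 := by positivity
  have hK : 0 ≤ 8 * nu * (g ^ 2 + 1) * U * Dd * ep := by positivity
  rcases lt_or_ge v (1 / 4) with h4 | h4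
  · obtain ⟨d0, d1⟩ := hcase h4
    have hu0 : 0 ≤ -u := by linarith
    have hu1 : 1 / 2 ≤ -u := by linarith
    have k1 : s * d ≤ c ^ 2 / 2 := by
      rw [hcs]
      linarith [mul_le_mul_of_nonneg_left d1 hs, sq_nonneg (1 - s)]
    have k2 : s * d * ((g - 1) * u) ≤ c ^ 2 * u ^ 2 := by
      have a1 : (g - 1) * u ≤ -u := by linarith [mul_nonneg hg hu0]
      refine (mul_le_mul_of_nonneg_left a1 (mul_nonneg hs d0)).trans ?_
      refine (mul_le_mul_of_nonneg_right k1 hu0).trans ?_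
      linarith [mul_le_mul_of_nonneg_left hu1 (mul_nonneg (sq_nonneg c) hu0)]
    have k3 := mul_le_mul_of_nonneg_left k2 (show 0 ≤ 2 * nu * (1 + g) by positivity)
    have : 0 ≤ c * ((2 * nu * g * (1 + g) * d ^ 2 + 2 * nu * (1 + g) * c ^ 2 * u ^ 2 -
        2 * nu * s * (g ^ 2 - 1) * u * d) / v) :=
      mul_nonneg hc0 (div_nonneg (by linarith) hv.le)
    linarith
  · have k1 : |s * (g ^ 2 - 1) * u * d| ≤ (g ^ 2 + 1) * U * (Dd * c ^ 2) := by
      rw [abs_mul, abs_mul, abs_mul, abs_of_nonneg hs]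
      refine mul_le_mul (mul_le_mul ?_ hu (abs_nonneg _) (by positivity)) hd (abs_nonneg _)
        (by positivity)
      refine (mul_le_of_le_one_left (abs_nonneg _) hs1).trans ?_
      rw [abs_le]
      constructor <;> linarith [sq_nonneg g]
    have k2 := mul_le_mul_of_nonneg_left ((le_of_abs_le k1).trans
      (mul_le_mul_of_nonneg_left (mul_le_mul_of_nonneg_left hep hD)
        (show 0 ≤ (g ^ 2 + 1) * U by positivity))) (show 0 ≤ 2 * nu by positivity)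
    have hr : 0 ≤ 2 * nu * (1 + g) * c ^ 2 * u ^ 2 := by positivity
    have k3 : -(8 * nu * (g ^ 2 + 1) * U * Dd * ep) ≤
        (2 * nu * g * (1 + g) * d ^ 2 + 2 * nu * (1 + g) * c ^ 2 * u ^ 2 -
          2 * nu * s * (g ^ 2 - 1) * u * d) / v := by
      rw [le_div_iff₀ hv]
      linarith [mul_le_mul_of_nonneg_left h4 hK]
    have k5 := mul_le_mul_of_nonneg_left k3 hc0
    linarith [mul_le_of_le_one_left hK hc1]

theorem abs_mul_le {x y X Y : ℝ} (hx : |x| ≤ X) (hy : |y| ≤ Y) : -(X * Y) ≤ x * y := by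
  have := mul_le_mul hx hy (abs_nonneg _) ((abs_nonneg _).trans hx)
  rw [← abs_mul] at this
  linarith [neg_abs_le (x * y)]

theorem tail_split {ell s t a r q : ℝ} (h : FlatState D.p ell s t a r q) :
    arc s * D.cell ell s t a r = arc s * (ell * wS D.p (arc s)) +
      arc s * (((D.p : ℝ) + 1) * D.gz * (1 / a - 1 / arc s)) + (arc s * evE D.K s - D.gz) * (1 / r - 1) +
      (arc s ^ 3 * dE D.K s - D.gz * s - ((D.p : ℝ) + 1) * s * (arc s * evE D.K s - D.gz) -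
        arc s ^ 3 * s * D.c0) * ((t - s) / arc s ^ 2) +
      (arc s ^ 3 * ((D.sb' s * s - D.sb s) / s ^ 2 - D.nu * ((D.p : ℝ) + 4) * D.g ^ 2) -
        arc s * (((D.p : ℝ) + 1) * D.sb s)) * ((t - s) ^ 2 / arc s ^ 2) +
      (arc s * (2 * (D.sb s / s))) * ((1 / r - 1) * (t - s)) +
      arc s * ((2 * D.nu * D.g * (1 + D.g) * (t - s) ^ 2 +
        2 * D.nu * (1 + D.g) * arc s ^ 2 * (1 / r - 1) ^ 2 -
        2 * D.nu * s * (D.g ^ 2 - 1) * (1 / r - 1) * (t - s)) / (1 / r)) := by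
  have hsI := h.state.s_mem
  have hz : 0 < 1 - s ^ 2 := one_sub_sq_pos hsI.1.le hsI.2
  have hc2 : arc s ^ 2 = 1 - s ^ 2 := Real.sq_sqrt hz.le
  rw [cell_eq h, Par.kF, Par.kF', Par.bF', Par.bF, potRate, ← hc2]
  have := hsI.1.ne'
  have := h.state.arc_pos'.ne'
  have := h.state.rate_pos.ne'
  have := h.state.pos.ne'
  field_simp
  ring

theorem abs_c_le {c x X : ℝ} (hc : 0 ≤ c) (hc1 : c ≤ 1) (hx : |x| ≤ X) : |c * x| ≤ X := by
  rw [abs_mul, abs_of_nonneg hc]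
  exact (mul_le_of_le_one_left (abs_nonneg _) hc1).trans hx

theorem term_k {c e L G u U : ℝ} (hc : 0 ≤ c) (hc1 : c ≤ 1) (he : |e| ≤ L) (hG : 0 ≤ G)
    (hu : |u| ≤ U) : -((L + G) * U) ≤ (c * e - G) * u :=
  abs_mul_le ((abs_sub _ _).trans
    (add_le_add (abs_c_le hc hc1 he) (le_of_eq (abs_of_nonneg hG)))) hu

theorem term_d {P c s e de L Ld G c0 C d Dd : ℝ} (hP : 0 ≤ P) (hc : 0 < c) (hc1 : c ≤ 1)
    (hs : 0 < s) (hs1 : s ≤ 1) (he : |e| ≤ L) (hde : |de| ≤ Ld) (hG : 0 ≤ G) (hC : |c0| ≤ C)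
    (hd : |d| ≤ Dd * c ^ 2) :
    -((Ld + G + P * (L + G) + C) * Dd) ≤
      (c ^ 3 * de - G * s - P * s * (c * e - G) - c ^ 3 * s * c0) * (d / c ^ 2) := by
  refine abs_mul_le ?_ (by rw [abs_div, abs_of_pos (pow_pos hc 2), div_le_iff₀ (pow_pos hc 2)]; exact hd)
  have hc3 : c ^ 3 ≤ 1 := pow_le_one₀ hc.le hc1
  refine (abs_sub _ _).trans (add_le_add ((abs_sub _ _).trans (add_le_add
    ((abs_sub _ _).trans (add_le_add (abs_c_le (by positivity) hc3 hde) ?_)) ?_)) ?_)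
  · rw [mul_comm]
    exact abs_c_le hs.le hs1 (le_of_eq (abs_of_nonneg hG))
  · rw [mul_assoc, abs_mul, abs_of_nonneg hP]
    exact mul_le_mul_of_nonneg_left (abs_c_le hs.le hs1
      ((abs_sub _ _).trans (add_le_add (abs_c_le hc.le hc1 he) (le_of_eq (abs_of_nonneg hG))))) hP
  · rw [mul_assoc]
    exact abs_c_le (by positivity) hc3 (abs_c_le hs.le hs1 hC)

theorem term_q {P N c s S b db Bs Bd ep d Dd : ℝ} (hP : 0 ≤ P) (hN : 0 ≤ N) (hc : 0 < c)
    (hc1 : c ≤ 1) (hS : 0 < S) (hs : S ≤ s) (hs1 : s ≤ 1) (hb : |b| ≤ Bs) (hdb : |db| ≤ Bd)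
    (hep : c ^ 2 ≤ ep) (hd : |d| ≤ Dd * c ^ 2) :
    -((ep * ((Bd + Bs) / S ^ 2 + N) + P * Bs / S) * (Dd ^ 2 * ep)) ≤
      (c ^ 3 * ((db * s - b) / s ^ 2 - N) - c * (P * b)) * (d ^ 2 / c ^ 2) := by
  have hsp : 0 < s := hS.trans_le hs
  have hBs : 0 ≤ Bs := (abs_nonneg _).trans hb
  refine abs_mul_le ((abs_sub _ _).trans (add_le_add ?_ ?_)) ?_
  · have e1 : |(db * s - b) / s ^ 2 - N| ≤ (Bd + Bs) / S ^ 2 + N := by
      refine (abs_sub _ _).trans (add_le_add ?_ (le_of_eq (abs_of_nonneg hN)))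
      rw [abs_div, abs_of_pos (pow_pos hsp 2), mul_comm db]
      exact div_le_div₀ (by linarith [(abs_nonneg _).trans hdb])
        ((abs_sub _ _).trans (add_le_add (abs_c_le hsp.le hs1 hdb) hb)) (pow_pos hS 2)
        (pow_le_pow_left₀ hS.le hs 2)
    rw [abs_mul, abs_of_pos (pow_pos hc 3)]
    exact mul_le_mul ((pow_le_pow_of_le_one hc.le hc1 (by norm_num)).trans hep) e1 (abs_nonneg _)
      ((sq_nonneg c).trans hep)
  · refine (abs_c_le hc.le hc1 (le_refl |P * b|)).trans ?_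
    rw [abs_mul, abs_of_nonneg hP, le_div_iff₀ hS]
    exact (mul_le_of_le_one_right (by positivity) (hs.trans hs1)).trans
      (mul_le_mul_of_nonneg_left hb hP)
  · rw [abs_div, abs_of_pos (pow_pos hc 2), abs_pow, div_le_iff₀ (pow_pos hc 2)]
    refine (pow_le_pow_left₀ (abs_nonneg _) hd 2).trans ?_
    have := mul_le_mul_of_nonneg_left hep (show 0 ≤ Dd ^ 2 * c ^ 2 by positivity)
    linarith

theorem term_x {c s S b Bs ep u U d Dd : ℝ} (hc : 0 ≤ c) (hc1 : c ≤ 1) (hS : 0 < S) (hs : S ≤ s)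
    (hb : |b| ≤ Bs) (hep : c ^ 2 ≤ ep) (hu : |u| ≤ U) (hD : 0 ≤ Dd) (hd : |d| ≤ Dd * c ^ 2) :
    -((2 * Bs / S) * (U * (Dd * ep))) ≤ (c * (2 * (b / s))) * (u * d) := by
  refine abs_mul_le (abs_c_le hc hc1 ?_) ?_
  · rw [abs_mul, abs_two, abs_div, abs_of_pos (hS.trans_le hs), mul_div_assoc]
    exact mul_le_mul_of_nonneg_left (div_le_div₀ ((abs_nonneg _).trans hb) hb hS hs) zero_le_two
  · rw [abs_mul]
    exact mul_le_mul hu (hd.trans (mul_le_mul_of_nonneg_left hep hD)) (abs_nonneg _)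
      ((abs_nonneg _).trans hu)

/-- The box of a state near the end. -/
theorem tail_state {E S : ℝ} (hS : 1 / 2 < S)
    {ell s t a r q : ℝ} (h : FlatState D.p ell s t a r q) (h0 : 0 ≤ ell)
    (hE : Real.exp ell ≤ E) (hs : S ≤ s) :
    |t - s| ≤ (1 + (E - 1) / (((D.p : ℝ) + 3) * S)) * arc s ^ 2 ∧
      |1 / r - 1| ≤ ((D.p : ℝ) + 3) * (1 + (E - 1) / (((D.p : ℝ) + 3) * S)) + 1 ∧
      (1 / r < 1 / 4 → 0 ≤ t - s ∧ t - s ≤ 1 - s) ∧
      0 ≤ (E - 1) / (((D.p : ℝ) + 3) * S) := by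
  have hsI := h.state.s_mem
  have ht := h.state.t_mem
  have hr := h.state.rate_pos
  have hc := h.state.arc_pos'
  have hz : 0 < 1 - s ^ 2 := one_sub_sq_pos hsI.1.le hsI.2
  have hc2 : arc s ^ 2 = 1 - s ^ 2 := Real.sq_sqrt hz.le
  have hc1 : arc s ≤ 1 := Real.sqrt_le_one.2 (by linarith [sq_nonneg s])
  have hcp := pow_pos hc (D.p + 1)
  have hp3 : (0 : ℝ) < (D.p : ℝ) + 3 := by positivity
  have hsI' : s ∈ Icc (0 : ℝ) 1 := Ioo_subset_Icc_self hsI
  have hT : circHigh D.p s ≤ arc s ^ (D.p + 1) * (arc s ^ 2 / (((D.p : ℝ) + 3) * S)) := by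
    have h1 := (circHigh_bounds (p := D.p) hsI').2
    rw [show arc s ^ (D.p + 3) = arc s ^ (D.p + 1) * arc s ^ 2 from pow_add _ _ 2] at h1
    rw [← mul_div_assoc, le_div_iff₀ (by positivity)]
    refine le_trans ?_ h1
    have h2 : 0 ≤ circHigh D.p s :=
      intervalIntegral.integral_nonneg hsI.2.le fun v _ => pow_nonneg (Real.sqrt_nonneg _) _
    have := mul_le_mul_of_nonneg_right hs (mul_nonneg hp3.le h2)
    linarith
  set c := arc s with hcd
  set H := (E - 1) / (((D.p : ℝ) + 3) * S) with hH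
  have hE1 : 0 ≤ E - 1 := by linarith [Real.one_le_exp h0]
  have hH0 : 0 ≤ H := div_nonneg hE1 (by positivity)
  have hd1 : t - s ≤ 1 - s := by linarith [ht.2]
  have hcs : 1 - s ≤ c ^ 2 := by rw [hc2]; nlinarith [hsI.1, hsI.2]
  have hd2 : s - t ≤ H * c ^ 2 := by
    refine le_of_mul_le_mul_right ((h.disp_ge h0).trans ?_) hcp
    refine (mul_le_mul (sub_le_sub_right hE 1) hT ?_ hE1).trans (le_of_eq ?_)
    · exact intervalIntegral.integral_nonneg hsI.2.le fun v _ => pow_nonneg (Real.sqrt_nonneg _) _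
    · rw [hH, hcd]; field_simp
  have hDd : |t - s| ≤ (1 + H) * c ^ 2 := by
    rw [abs_le]
    constructor <;> nlinarith [sq_nonneg c]
  have hvV : 1 / r ≤ ((D.p : ℝ) + 3) * (1 + H) := by
    have h1 := h.state.sq_le
    rw [div_eq_mul_one_div, ← hc2] at h1
    refine le_of_mul_le_mul_left ?_ (sq_pos_of_pos hc)
    nlinarith
  set v := 1 / r with hvd
  have hv : 0 < v := one_div_pos.2 hr
  have hu : |v - 1| ≤ ((D.p : ℝ) + 3) * (1 + H) + 1 := by
    rw [abs_le]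
    constructor <;> linarith [mul_nonneg hp3.le (show (0 : ℝ) ≤ 1 + H by linarith)]
  have hcase : v < 1 / 4 → 0 ≤ t - s ∧ t - s ≤ 1 - s := fun h4 => by
    refine ⟨?_, hd1⟩
    by_contra hn
    have h1 := h.state.high.trans (mul_le_mul_of_nonneg_left hT
      (show (0 : ℝ) ≤ (D.p : ℝ) + 2 by positivity))
    have ea : a ^ (D.p + 1) = arc s ^ (D.p + 1) / v := by
      rw [hvd, h.state.rate_eq, ← hcd]; field_simp
    rw [ea, div_mul_eq_mul_div, div_le_iff₀ hv] at h1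
    have h2 : 1 - t ≤ ((D.p : ℝ) + 2) * v * (c ^ 2 / (((D.p : ℝ) + 3) * S)) :=
      le_of_mul_le_mul_left (by linarith) hcp
    have h3 : c ^ 2 ≤ 2 * (1 - s) := by rw [hc2]; nlinarith [hsI.1, hsI.2]
    rw [← mul_div_assoc, le_div_iff₀ (by positivity)] at h2
    have h5 := mul_le_mul_of_nonneg_right (show c ^ 2 / 2 ≤ 1 - t by linarith)
      (mul_nonneg hp3.le (show (0 : ℝ) ≤ S by linarith))
    have h6 := mul_lt_mul_of_pos_right h4 (show 0 < ((D.p : ℝ) + 3) * c ^ 2 by positivity)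
    have h7 : ((D.p : ℝ) + 2) * v * c ^ 2 ≤ ((D.p : ℝ) + 3) * v * c ^ 2 := by
      nlinarith [mul_nonneg hv.le (sq_nonneg c)]
    have h8 := mul_lt_mul_of_pos_right hS (show 0 < ((D.p : ℝ) + 3) * c ^ 2 by positivity)
    linarith
  exact ⟨hDd, hu, hcase, hH0⟩

/-- The cell near the end. -/
theorem tail_cell {E S C : ℝ} (hS : 1 / 2 < S) (hG : 0 ≤ D.gz) (hC : |D.c0| ≤ C)
    {ell s t a r q : ℝ} (h : FlatState D.p ell s t a r q) (h0 : 0 ≤ ell)
    (hE : Real.exp ell ≤ E) (hs : S ≤ s) :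
    -D.tailK E S C ≤ arc s * D.cell ell s t a r := by
  obtain ⟨hDd, hu, hcase, hH0⟩ := tail_state hS h h0 hE hs
  have hsI := h.state.s_mem
  have hc := h.state.arc_pos'
  have hz : 0 < 1 - s ^ 2 := one_sub_sq_pos hsI.1.le hsI.2
  have hc2 : arc s ^ 2 = 1 - s ^ 2 := Real.sq_sqrt hz.le
  have hc1 : arc s ≤ 1 := Real.sqrt_le_one.2 (by linarith [sq_nonneg s])
  set c := arc s with hcd
  set H := (E - 1) / (((D.p : ℝ) + 3) * S) with hH
  set v := 1 / r with hvd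
  have hv : 0 < v := one_div_pos.2 h.state.rate_pos
  obtain ⟨bK, bK'⟩ := abs_evE_le hsI.1.le hsI.2.le D.K
  obtain ⟨bS, bS'⟩ := abs_sb_le (D := D) hsI.1.le hsI.2.le
  have hep : c ^ 2 ≤ 1 - S ^ 2 := by
    rw [hc2]
    nlinarith [pow_le_pow_left₀ (by linarith) hs 2]
  have hnu : 0 ≤ D.nu := by unfold Par.nu; positivity
  have hg : 0 ≤ D.g := by unfold Par.g; positivity
  have tT := test_part hnu hg hsI.1.le hsI.2.le hc.le hc1 hc2 hv rfl hu (by linarith) hDd hep hcase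
  have hU0 := (abs_nonneg (v - 1)).trans hu
  have hs0 : 0 < S := by linarith
  have hK0 := absE_nonneg D.K
  have hS0 : 0 ≤ D.absS := (abs_nonneg _).trans bS
  have hS0' : 0 ≤ D.absS' := (abs_nonneg _).trans bS'
  -- the separate terms
  have tW : 0 ≤ c * (ell * wS D.p c) := by
    refine mul_nonneg hc.le (mul_nonneg h0 ?_)
    have := Ident.b0_pos D.p
    rw [wS, sqCoef]
    positivity
  have tG : -(((D.p : ℝ) + 1) * D.gz) ≤ c * (((D.p : ℝ) + 1) * D.gz * (1 / a - 1 / c)) := by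
    have e : c * (((D.p : ℝ) + 1) * D.gz * (1 / a - 1 / c)) =
        ((D.p : ℝ) + 1) * D.gz * (c / a) - ((D.p : ℝ) + 1) * D.gz := by
      field_simp
    rw [e]
    linarith [mul_nonneg (mul_nonneg (show (0 : ℝ) ≤ (D.p : ℝ) + 1 by positivity) hG)
      (div_nonneg hc.le h.state.pos.le)]
  have tk := term_k hc.le hc1 bK hG hu
  have td := term_d (P := (D.p : ℝ) + 1) (by positivity) hc hc1 hsI.1 hsI.2.le bK bK' hG hC hDd
  have tq := term_q (P := (D.p : ℝ) + 1) (N := D.nu * ((D.p : ℝ) + 4) * D.g ^ 2) (by positivity)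
    (by positivity) hc hc1 hs0 hs hsI.2.le bS bS' hep hDd
  have tx := term_x hc.le hc1 hs0 hs bS hep hu (by linarith) hDd
  rw [hcd, tail_split h, ← hcd, ← hvd]
  simp only [Par.tailK, ← hH]
  linarith

end Vale.Agent.P237.Petty.Cor.Grid
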