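import Vale.Agent.P237.Petty.Cor.Grid.Hinge
import Vale.Agent.P237.Petty.Cor.Grid.Tail

/-!
# P237: a cell from the data of the grid
-/

namespace Vale.Agent.P237.Petty.Cor.Grid

open MeasureTheory Set
open Vale.Agent.P100.Bernstein (Expr)
open Lift (circLow circHigh)

/-- The data of a cell; `B` is the negative of the remainder. -/
structure Cell where
  /-- the parameters -/
  D : Par
  /-- the constants -/
  k : Cst
  /-- the least value -/
  l0 : ℤ
  /-- the largest value -/
  l1 : ℤ
  /-- an upper bound of the exponential of the value -/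
  eMax : ℤ
  /-- a bound of the coefficient of `s (t - s)` -/
  cB : ℕ
  /-- the bound of the cell near the end -/
  tK : ℕ
  /-- an upper bound of the half circle at `xp` -/
  cq : ℤ
  /-- the start of the correction of the tail -/
  xp : ℤ
  /-- the start of the tail -/
  xe : ℤ
  /-- the part of the remainder along the value -/
  A : Hinges
  /-- the negative of the other part -/
  B : Hinges
  /-- the rows, each with a node for the bound of the displacement -/
  rows : List (RowD × ℕ)
  /-- the pieces -/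
  pieces : List (Piece × Bool)

namespace Cell

variable (C : Cell)

/-- The nodes of a table. -/
def gridOf (T : List Slab) : List (ℤ × ℤ) := (0, 0) :: T.map fun σ => (σ.x1, σ.cl1)

/-- The context of a row. -/
def ctx (T : List Slab) (Q : RowD) : Ctx := ⟨C.k, Q.R, C.pieces, gridOf T⟩

/-- The box of a row. -/
def box (Q : RowD) : Box := ⟨Q.s0, Q.s1, -scl, Q.dh, 0, Q.vm, C.l0, C.l1⟩

/-- A subdivision of the box of a row passes. -/
def Covers (T : List Slab) (Q : RowD) : Prop := ∃ t : Tree, (C.ctx T Q).chk t (C.box Q) = true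

/-- The negative of an affine function. -/
def negL (q : L2) : L2 := ⟨-q.c0, -q.c1⟩

/-- The bound of the displacement of a row. -/
def dhOk (T : List Slab) (Q : RowD) (j : ℕ) : Bool :=
  decide (scl * scl ≤ Q.s0 * (scl + Q.dh)) ||
  (match T[j]? with
   | some σ =>
      decide (0 < σ.cl1) && decide (C.eMax * σ.x1 ≤ (scl + Q.dh) * σ.cl1) &&
        nonneg1 (.sub (cE (σ.cl1 - 1)) (.mul (cE C.eMax) Q.R.massU.expr)) Q.s0 Q.s1
   | none => false) ||
  (decide (0 ≤ scl + Q.dh) &&
    decide (Q.vm ^ 2 * (scl * scl) ^ (C.D.p + 1) ≤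
      (scl + Q.dh) ^ 2 * (scl * scl - Q.s1 * Q.s1) ^ (C.D.p + 1)))

/-- The bound of the reciprocal of the rate in a row. -/
def vmOk (Q : RowD) : Bool :=
  decide (((C.D.p : ℤ) + 3) * (scl * scl * scl) ≤ Q.vm * (scl * scl - Q.s1 * Q.s1)) ||
  (nonneg1 (.sub Q.R.hiL.expr (cE 1)) Q.s0 Q.s1 &&
    nonneg1 (.sub (.mul (cE Q.vm) Q.R.hiL.expr)
      (.add (.mul (cE C.eMax) Q.R.hiL.expr) (.mul (cE (C.eMax - scl)) Q.R.loU.expr))) Q.s0 Q.s1)

/-- The check of a row, without its subdivision. -/
def rowOk (T : List Slab) (e : RowD × ℕ) : Bool :=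
  C.D.coefOk e.1 && C.D.massOk T e.1 && C.A.isOn e.1.R.tA e.1.s0 e.1.s1 &&
    C.B.isOn (negL e.1.R.tB) e.1.s0 e.1.s1 && C.dhOk T e.1 e.2 && C.vmOk e.1

/-- The rows cover an interval. -/
def coverR : ℤ → ℤ → List (RowD × ℕ) → Bool
  | _, _, [] => false
  | a, b, [e] => decide (e.1.s0 ≤ a) && decide (b ≤ e.1.s1)
  | a, b, e :: f :: l => decide (e.1.s0 ≤ a) && coverR e.1.s1 b (f :: l)

/-- The absolute sum of the coefficients. -/
def absI : List ℤ → ℤ
  | [] => 0
  | c :: l => |c| + absI l

/-- The absolute sum of the coefficients of the derivative. -/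
def absID : List ℤ → ℤ
  | [] => 0
  | _ :: l => 2 * absI l + absID l

/-- The bound of the cell near the end as an expression. -/
def tailX : Expr :=
  let iS : Expr := .frac scl C.xe.toNat
  let Dd : Expr := .add (.num 1) (.mul (.mul (cE (C.eMax - scl)) iS) (.frac 1 (C.D.p + 3)))
  let U : Expr := .add (.mul (.num (C.D.p + 3)) Dd) (.num 1)
  let ep : Expr := .sub (.num 1) (.mul (cE C.xe) (cE C.xe))
  let gz : Expr := cE C.D.G0
  let L : Expr := cE (absI C.D.K)
  let Bs : Expr := cE (absI C.D.B + |C.D.A|)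
  let Bd : Expr := cE (2 * absI C.D.B + absID C.D.B + 2 * |C.D.A|)
  let nu : Expr := .frac C.D.nuN 16384
  let gg : Expr := .mul (.frac C.D.gN 32) (.frac C.D.gN 32)
  .add (.add (.add (.add (.add (.mul (.num (C.D.p + 1)) gz) (.mul (.add L gz) U))
    (.mul Dd (.add (.add (.add (cE (absID C.D.K)) (.mul (.num (C.D.p + 2)) gz))
      (.mul (.num (C.D.p + 1)) L)) (.num C.cB))))
    (.mul (.mul (.mul Dd Dd) ep) (.add (.mul ep (.add (.mul (.add Bd Bs) (.mul iS iS))
      (.mul (.mul nu (.num (C.D.p + 4))) gg))) (.mul (.mul (.num (C.D.p + 1)) Bs) iS))))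
    (.mul (.mul (.mul (.mul (.num 2) Bs) iS) U) (.mul Dd ep)))
    (.mul (.mul (.mul (.mul (.num 8) nu) (.add gg (.num 1))) U) (.mul Dd ep))

/-- The check of the constants of a cell. -/
def headOk : Bool :=
  decide (1 ≤ C.D.p) && decide (0 < C.D.G0) && decide (0 < C.D.nuN) &&
    cstOk C.D C.k C.l0 C.l1 && bracketOk C.D.p C.D.bl C.D.bu &&
    decide (0 ≤ C.k.eVal.c1) && decide (C.k.eVal.c0 * scl + C.k.eVal.c1 * C.l1 ≤ C.eMax * scl) &&
    coverR 0 C.xe C.rows &&
    decide (0 < C.xp) && decide (C.xp < C.xe) && decide (scl < 2 * C.xe) && decide (C.xe < scl) &&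
    decide (0 ≤ C.cq) && decide (scl * scl - C.xp * C.xp ≤ C.cq * C.cq) &&
    nonneg1 (.sub (.mul (.num C.cB) (.mul (cE C.D.bl) (cE C.D.bl))) (C.D.c0X C.D.bl)) 0 0 &&
    nonneg1 (.add (.mul (.num C.cB) (.mul (cE C.D.bu) (cE C.D.bu))) (C.D.c0X C.D.bu)) 0 0 &&
    nonneg1 (.sub (.num C.tK) C.tailX) 0 0 &&
    (match affOn C.A.hs C.xe scl, affOn C.B.hs C.xe scl with
     | some a, some b => decide (a.2 = 0) && decide (C.A.v0 + a.1 ≤ 0) &&
        decide (b.2 = 0) && decide (C.B.v0 + b.1 ≤ 0)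
     | _, _ => false)

/-- The check of the means of a cell. -/
def meanOk (T : List Slab) : Bool :=
  match C.A.low (C.D.p + 1) T, C.B.low (C.D.p + 1) T with
  | some a, some b => decide (0 ≤ a) &&
      decide (-b * scl * (C.xe - C.xp) * (C.D.p + 2) * scl ^ (C.D.p + 2) +
          C.tK * scl * C.cq ^ (C.D.p + 2) * (4096 * (C.D.p + 3) * scl ^ 7) * scl ≤
        C.l0 * a * (C.xe - C.xp) * (C.D.p + 2) * scl ^ (C.D.p + 2))
  | _, _ => false

theorem absI_eq : ∀ l : List ℤ, (absI l : ℝ) / sR = absE l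
  | [] => by simp [absI, absE]
  | c :: l => by
    rw [absI, absE, ← absI_eq l]
    push_cast
    ring

theorem absID_eq : ∀ l : List ℤ, (absID l : ℝ) / sR = absD l
  | [] => by simp [absID, absD]
  | c :: l => by
    rw [absID, absD, ← absI_eq l, ← absID_eq l]
    push_cast
    ring

theorem tailX_eval (hxe : 0 < C.xe) :
    C.tailX.eval [(0 : ℝ)] =
      C.D.tailK ((C.eMax : ℝ) / sR) ((C.xe : ℝ) / sR) C.cB := by
  have e : (((C.xe.toNat : ℕ) : ℤ) : ℝ) = (C.xe : ℝ) := by rw [Int.toNat_of_nonneg hxe.le]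
  rw [Int.cast_natCast] at e
  simp only [tailX, Par.tailK, Par.absS, Par.absS', Expr.eval, eval_cE, Par.gz, Par.nu, Par.g]
  rw [← absI_eq C.D.K, ← absID_eq C.D.K, ← absI_eq C.D.B, ← absID_eq C.D.B, e]
  push_cast
  simp only [sR]
  field_simp

theorem coverR_mem : ∀ (L : List (RowD × ℕ)) (a b : ℤ), coverR a b L = true → ∀ s : ℝ,
    (a : ℝ) ≤ sR * s → sR * s ≤ b → ∃ e ∈ L, (e.1.s0 : ℝ) ≤ sR * s ∧ sR * s ≤ e.1.s1
  | [], _, _, h, _, _, _ => by simp [coverR] at h
  | [e], a, b, h, s, h1, h2 => by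
    simp only [coverR, Bool.and_eq_true, decide_eq_true_eq] at h
    exact ⟨e, List.mem_singleton_self _, ((Int.cast_le (R := ℝ)).2 h.1).trans h1,
      h2.trans ((Int.cast_le (R := ℝ)).2 h.2)⟩
  | e :: f :: l, a, b, h, s, h1, h2 => by
    simp only [coverR, Bool.and_eq_true, decide_eq_true_eq] at h
    rcases le_total (sR * s) e.1.s1 with c | c
    · exact ⟨e, List.mem_cons_self, ((Int.cast_le (R := ℝ)).2 h.1).trans h1, c⟩
    · obtain ⟨ρ, hρ, hm⟩ := coverR_mem (f :: l) _ b h.2 s c h2
      exact ⟨ρ, List.mem_cons_of_mem _ hρ, hm⟩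

variable {C} {T : List Slab}

theorem gridBelow (hT : tableOk (C.D.p + 1) T = true) :
    GridBelow (circLow C.D.p) (gridOf T) := by
  have hv := tableOk_sound hT
  intro q hq
  simp only [gridOf, List.mem_cons, List.mem_map] at hq
  rcases hq with rfl | ⟨σ, hσ, rfl⟩
  · simp [circLow]
  · exact ⟨(hv σ hσ).node1, (hv σ hσ).cl1⟩

theorem eMax_ge {ell : ℝ} (h1 : C.k.eVal.c1 ≥ 0)
    (h2 : C.k.eVal.c0 * scl + C.k.eVal.c1 * C.l1 ≤ C.eMax * scl)
    (hl : sR * ell ≤ C.l1) (he : Real.exp ell ≤ C.k.eVal.ev ell) :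
    Real.exp ell ≤ (C.eMax : ℝ) / sR := by
  refine he.trans ?_
  have a1 : (0 : ℝ) ≤ C.k.eVal.c1 := by exact_mod_cast h1
  have a2 := (Int.cast_le (R := ℝ)).2 h2
  push_cast [scl] at a2
  have a3 := mul_le_mul_of_nonneg_left hl a1
  simp only [L2.ev]
  refine div_le_div_of_nonneg_right ?_ (by norm_num)
  simp only [sR] at a3
  linarith

/-- The sign in a row. -/
theorem row_pos (hh : C.headOk = true) (hT : tableOk (C.D.p + 1) T = true)
    (hp : C.pieces.all (pieceOk C.k.m) = true) {e : RowD × ℕ} (he : C.rowOk T e = true)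
    (hc : C.Covers T e.1) {ell : ℝ} (hl0 : (C.l0 : ℝ) ≤ sR * ell) (hl1 : sR * ell ≤ C.l1)
    {s t a r q : ℝ} (h : FlatState C.D.p ell s t a r q)
    (h1 : (e.1.s0 : ℝ) ≤ sR * s) (h2 : sR * s ≤ e.1.s1) :
    ell * C.A.ev s + C.B.ev s ≤ C.D.cell ell s t a r := by
  simp only [headOk, Bool.and_eq_true, decide_eq_true_eq] at hh
  obtain ⟨⟨⟨⟨⟨⟨⟨⟨⟨⟨⟨⟨⟨⟨⟨⟨⟨hp1, hG⟩, -⟩, hcst⟩, hbr⟩, he1⟩, he2⟩, -⟩, -⟩, -⟩, -⟩, -⟩, -⟩, -⟩, -⟩,
    -⟩, -⟩, -⟩ := hh
  simp only [rowOk, Bool.and_eq_true] at he
  obtain ⟨⟨⟨⟨⟨hco, hma⟩, hA⟩, hB⟩, hdh⟩, hvm⟩ := he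
  have S : (0 : ℝ) < sR := by norm_num
  have hs := h.state.s_mem
  have hD := bracketOk_sound hbr
  have hR := rowAt hD (tableOk_sound hT) hco hma h1 h2 hs.1 hs.2
  have hG' : 0 ≤ C.D.gz := div_nonneg (by exact_mod_cast hG.le) S.le
  have F := facts_of_state hcst h hR hG' hl0 hl1
  obtain ⟨t', ht'⟩ := hc
  have hpos : 0 ≤ (1 / r) * (C.D.cell ell s t a r - (ell * e.1.R.tA.ev s - e.1.R.tB.ev s)) := by
    refine chk_sound (K := C.ctx T e.1) (fun P hP => ?_) (concaveOn_circLow C.D.p) (gridBelow hT)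
      t' _ ht' ?_ F
    · exact pieceOk_sound (List.all_eq_true.1 hp P hP)
    have hell : 0 ≤ ell := by
      simp only [cstOk, expOk, Bool.and_eq_true, decide_eq_true_eq] at hcst
      have : (0 : ℝ) ≤ C.l0 := by exact_mod_cast hcst.2.1.1.1
      norm_num [sR] at hl0
      linarith
    have eV : Real.exp ell ≤ C.k.eVal.ev ell := by
      simp only [cstOk, Bool.and_eq_true] at hcst
      have := expOk_sound hcst.1.2 hl0 hl1
      norm_num at this
      exact this
    have hE := eMax_ge he1 he2 hl1 eV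
    have ht := h.state.t_mem
    have hs0 := hs.1.ne'
    have hv : 0 < 1 / r := one_div_pos.2 h.state.rate_pos
    have hz : 0 < 1 - s ^ 2 := one_sub_sq_pos hs.1.le hs.2
    have hb1 : (e.1.s1 : ℝ) / sR < 1 ∧ 0 ≤ (e.1.s0 : ℝ) ∧ s ≤ (e.1.s1 : ℝ) / sR := by
      simp only [Par.coefOk, Bool.and_eq_true, decide_eq_true_eq] at hco
      obtain ⟨⟨⟨⟨⟨⟨⟨⟨⟨⟨⟨⟨⟨⟨⟨-, -⟩, c1⟩, c2⟩, -⟩, -⟩, -⟩, -⟩, -⟩, -⟩, -⟩, -⟩, -⟩, -⟩, -⟩, -⟩ := hco
      refine ⟨?_, by exact_mod_cast c1, by rw [le_div_iff₀ S]; linarith⟩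
      rw [div_lt_one S]
      have := (Int.cast_lt (R := ℝ)).2 c2
      simpa [scl, sR] using this
    have hv1 : sR * (1 / r) ≤ e.1.vm := by
      simp only [vmOk, Bool.or_eq_true, Bool.and_eq_true, decide_eq_true_eq] at hvm
      rcases hvm with c | ⟨n0, n1⟩
      · have c' := (Int.cast_le (R := ℝ)).2 c
        push_cast [scl] at c'
        have h3 : (1 / r) * (1 - ((e.1.s1 : ℝ) / sR) ^ 2) ≤ (C.D.p : ℝ) + 3 := by
          have h4 := h.state.sq_le
          rw [div_eq_mul_one_div] at h4
          have h5 := mul_le_mul_of_nonneg_left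
            (pow_le_pow_left₀ hs.1.le hb1.2.2 2) hv.le
          have h6 := mul_le_mul_of_nonneg_left (show 1 - t ≤ 1 by linarith [ht.1])
            (show (0 : ℝ) ≤ (C.D.p : ℝ) + 3 by positivity)
          linarith
        have hpos' : 0 < sR ^ 2 - (e.1.s1 : ℝ) ^ 2 := by
          have := hb1.1
          rw [div_lt_one S] at this
          have : (0 : ℝ) ≤ e.1.s1 := le_trans hb1.2.1 (h1.trans h2)
          nlinarith
        refine le_of_mul_le_mul_right ?_ hpos'
        have h7 := mul_le_mul_of_nonneg_left h3 (show (0 : ℝ) ≤ sR ^ 3 by positivity)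
        rw [show sR ^ 3 * (1 / r * (1 - ((e.1.s1 : ℝ) / sR) ^ 2)) =
          sR * (1 / r) * (sR ^ 2 - (e.1.s1 : ℝ) ^ 2) by field_simp] at h7
        simp only [sR] at h7 ⊢
        linarith
      · have m0 := nonneg1_sound n0 h1 h2
        have m1 := nonneg1_sound n1 h1 h2
        simp only [Expr.eval, Q2.eval_expr, eval_cE] at m0 m1
        push_cast [scl] at m0 m1
        have hp0 : 0 < e.1.R.hiL.ev s := by
          have : (0 : ℝ) < (1 : ℝ) / sR := by positivity
          linarith
        have hz' := F.haz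
        simp only [hazV] at hz'
        have hev : C.k.eVal.ev ell ≤ (C.eMax : ℝ) / sR := by
          simp only [L2.ev]
          refine div_le_div_of_nonneg_right ?_ S.le
          have a1 : (0 : ℝ) ≤ C.k.eVal.c1 := by exact_mod_cast he1
          have a2 := (Int.cast_le (R := ℝ)).2 he2
          push_cast [scl] at a2
          have a3 := mul_le_mul_of_nonneg_left hl1 a1
          simp only [sR] at a3
          linarith
        have k1 := mul_le_mul_of_nonneg_left hev hp0.le
        have hL0 : 0 ≤ e.1.R.loU.ev s := nonneg_of_mul_nonneg_left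
          ((intervalIntegral.integral_nonneg hs.1.le fun v _ => pow_nonneg (Real.sqrt_nonneg _) _).trans
            hR.loU) (pow_pos h.state.arc_pos' _)
        have k2 := mul_le_mul_of_nonneg_left hev hL0
        have e1 : ((C.eMax : ℝ) - 16777216) / sR = (C.eMax : ℝ) / sR - 1 := by
          simp only [sR]; ring
        rw [e1] at m1
        have k3 : (1 / r) * e.1.R.hiL.ev s ≤ (e.1.vm : ℝ) / sR * e.1.R.hiL.ev s := by linarith
        have k4 := le_of_mul_le_mul_right k3 hp0
        rw [le_div_iff₀ S] at k4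
        linarith
    refine ⟨h1, h2, ?_, ?_, ?_, hv1, hl0, hl1⟩
    · simp only [Cell.box, scl]
      push_cast
      rw [← mul_div_assoc, le_div_iff₀ hs.1]
      simp only [sR]
      linarith [ht.1]
    · simp only [Cell.box]
      rw [← mul_div_assoc, div_le_iff₀ hs.1]
      simp only [dhOk, Bool.or_eq_true] at hdh
      rcases hdh with (c | c) | c
      · simp only [decide_eq_true_eq] at c
        have c' := (Int.cast_le (R := ℝ)).2 c
        push_cast [scl] at c'
        have hs0' := hb1.2.1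
        have hd : 0 ≤ sR + (e.1.dh : ℝ) := by
          by_contra hn
          have := mul_nonpos_of_nonneg_of_nonpos hs0' (not_le.1 hn).le
          simp only [sR] at this
          linarith
        have h4 := mul_le_mul_of_nonneg_right h1 hd
        have h5 := mul_lt_mul_of_pos_left ht.2 (show (0 : ℝ) < sR ^ 2 by positivity)
        refine le_of_mul_le_mul_left ?_ S
        simp only [sR] at h4 h5 ⊢
        linarith
      · split at c
        next σ hσ =>
          simp only [Bool.and_eq_true, decide_eq_true_eq] at c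
          obtain ⟨⟨hcl, hx⟩, hn⟩ := c
          have hmem := List.mem_of_getElem? hσ
          have hv' := (tableOk_sound hT) σ hmem
          set x := (σ.x1 : ℝ) / sR with hxd
          set c := (σ.cl1 : ℝ) / sR with hcd
          have hc0 : 0 < c := div_pos (by exact_mod_cast hcl) S
          have n := nonneg1_sound hn h1 h2
          simp only [Expr.eval, Q2.eval_expr, eval_cE] at n
          push_cast at n
          rw [sub_div, ← hcd] at n
          have hlow := h.low
          have hE0 : 0 ≤ (C.eMax : ℝ) / sR := (Real.exp_pos _).le.trans hE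
          have hC0 : 0 ≤ circLow C.D.p s :=
            intervalIntegral.integral_nonneg hs.1.le fun v _ => pow_nonneg (Real.sqrt_nonneg _) _
          have h3 : circLow C.D.p t < c := by
            have := mul_le_mul hE hR.massU hC0 hE0
            have : (0 : ℝ) < 1 / sR := by positivity
            linarith
          have htx : t < x := by
            by_contra hn'
            have hle : circLow C.D.p x ≤ circLow C.D.p t := by
              refine intervalIntegral.integral_mono_interval le_rfl hv'.node1.1 (not_lt.1 hn') ?_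
                ((continuous_arc.pow _).intervalIntegrable _ _)
              filter_upwards with u using pow_nonneg (Real.sqrt_nonneg _) _
            linarith [hv'.cl1]
          have hx0 : 0 < x := ht.1.trans htx
          have hcc := (concaveOn_circLow C.D.p).2 (show (0 : ℝ) ∈ Icc (0 : ℝ) 1 by simp) hv'.node1
            (show 0 ≤ 1 - t / x by rw [sub_nonneg, div_le_one hx0]; exact htx.le)
            (div_nonneg ht.1.le hx0.le) (by ring)
          simp only [smul_eq_mul, mul_zero, zero_add] at hcc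
          rw [div_mul_cancel₀ _ hx0.ne'] at hcc
          have e0 : circLow C.D.p 0 = 0 := intervalIntegral.integral_same
          rw [e0, mul_zero, zero_add] at hcc
          have h4 : t / x * c ≤ (C.eMax : ℝ) / sR * s :=
            ((mul_le_mul_of_nonneg_left hv'.cl1 (div_nonneg ht.1.le hx0.le)).trans hcc).trans
              (hlow.trans (mul_le_mul hE (circLow_le (Ioo_subset_Icc_self hs)) hC0 hE0))
          rw [div_mul_eq_mul_div, div_le_iff₀ hx0] at h4
          have hx' := (Int.cast_le (R := ℝ)).2 hx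
          push_cast [scl] at hx'
          have h5 : (C.eMax : ℝ) / sR * x ≤ (1 + (e.1.dh : ℝ) / sR) * c := by
            rw [hxd, hcd]
            field_simp
            simp only [sR] at hx' ⊢
            linarith
          have h6 := mul_le_mul_of_nonneg_left h5 hs.1.le
          have h7 : t ≤ s * (1 + (e.1.dh : ℝ) / sR) := le_of_mul_le_mul_right (by linarith) hc0
          have h8 := mul_le_mul_of_nonneg_left h7 S.le
          rw [show sR * (s * (1 + (e.1.dh : ℝ) / sR)) = s * sR + s * e.1.dh by field_simp] at h8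
          linarith
        next => simp at c
      · simp only [Bool.and_eq_true, decide_eq_true_eq] at c
        obtain ⟨hd, hx⟩ := c
        have hd' : 0 ≤ sR + (e.1.dh : ℝ) := by
          have := (Int.cast_le (R := ℝ)).2 hd
          push_cast [scl] at this
          simpa [sR] using this
        have hb0 : 0 ≤ (e.1.s1 : ℝ) / sR := hs.1.le.trans hb1.2.2
        have hbz : 0 < 1 - ((e.1.s1 : ℝ) / sR) ^ 2 := one_sub_sq_pos hb0 hb1.1
        have hc := pow_pos h.state.arc_pos' (C.D.p + 1)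
        have e4 := arc_pow_sq C.D.p hs.1.le hs.2.le
        have h3 : t ^ 2 * (1 - ((e.1.s1 : ℝ) / sR) ^ 2) ^ (C.D.p + 1) ≤ (1 / r * s) ^ 2 := by
          have h4 := h.state.low.trans (circLow_le (Ioo_subset_Icc_self hs))
          rw [show a ^ (C.D.p + 1) = arc s ^ (C.D.p + 1) / (1 / r) by
            rw [h.state.rate_eq]; field_simp, mul_div_assoc', div_le_iff₀ hv] at h4
          have h5 := pow_le_pow_left₀ (mul_nonneg ht.1.le hc.le) h4 2
          rw [mul_pow, e4] at h5
          have h6 : (1 - ((e.1.s1 : ℝ) / sR) ^ 2) ^ (C.D.p + 1) ≤ (1 - s ^ 2) ^ (C.D.p + 1) :=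
            pow_le_pow_left₀ hbz.le (by linarith [pow_le_pow_left₀ hs.1.le hb1.2.2 2]) _
          refine le_trans (mul_le_mul_of_nonneg_left h6 (sq_nonneg t)) (h5.trans (le_of_eq ?_))
          ring
        have hx' : (e.1.vm : ℝ) ^ 2 ≤
            (sR + (e.1.dh : ℝ)) ^ 2 * (1 - ((e.1.s1 : ℝ) / sR) ^ 2) ^ (C.D.p + 1) := by
          have c' := (Int.cast_le (R := ℝ)).2 hx
          push_cast [scl] at c'
          refine le_of_mul_le_mul_right ?_ (pow_pos (mul_pos S S) (C.D.p + 1))
          rw [mul_assoc, ← mul_pow, sub_mul, one_mul]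
          rw [show ((e.1.s1 : ℝ) / sR) ^ 2 * (sR * sR) = (e.1.s1 : ℝ) * e.1.s1 by field_simp]
          norm_num [sR] at c' ⊢
          exact c'
        have h7 : (sR * t) ^ 2 ≤ (s * (sR + (e.1.dh : ℝ))) ^ 2 := by
          refine le_of_mul_le_mul_right ?_ (pow_pos hbz (C.D.p + 1))
          have h8 := mul_le_mul_of_nonneg_left h3 (sq_nonneg sR)
          have h9 := mul_le_mul_of_nonneg_left (pow_le_pow_left₀ (mul_pos S hv).le hv1 2) (sq_nonneg s)
          have h10 := mul_le_mul_of_nonneg_left hx' (sq_nonneg s)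
          linarith
        have h11 := le_of_pow_le_pow_left₀ two_ne_zero (mul_nonneg hs.1.le hd') h7
        linarith
    · simp only [Cell.box, Int.cast_zero]
      positivity
  have hv : 0 < 1 / r := one_div_pos.2 h.state.rate_pos
  have h3 := (mul_nonneg_iff_of_pos_left hv).1 hpos
  rw [C.A.isOn_sound hA h1 h2, C.B.isOn_sound hB h1 h2]
  have : (negL e.1.R.tB).ev s = -e.1.R.tB.ev s := by
    simp only [negL, L2.ev]; push_cast; ring
  rw [this]
  linarith

/-- The correction of the tail. -/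
noncomputable def ramp (C : Cell) (s : ℝ) : ℝ :=
  (C.tK : ℝ) / ((C.xe : ℝ) / sR - (C.xp : ℝ) / sR) * max 0 (s - (C.xp : ℝ) / sR)

theorem c0_abs (hh : C.headOk = true) : |C.D.c0| ≤ C.cB := by
  simp only [headOk, Bool.and_eq_true, decide_eq_true_eq] at hh
  obtain ⟨⟨⟨⟨⟨⟨⟨⟨⟨⟨⟨⟨⟨⟨⟨⟨⟨-, -⟩, -⟩, -⟩, hbr⟩, -⟩, -⟩, -⟩, -⟩, -⟩, -⟩, -⟩, -⟩, -⟩, hu⟩, hl⟩, -⟩,
    -⟩ := hh
  obtain ⟨hb, hbl, hbu⟩ := bracketOk_sound hbr
  have nu := nonneg1_sound hu (x := 0) (by simp) (by simp)
  have nl := nonneg1_sound hl (x := 0) (by simp) (by simp)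
  simp only [Expr.eval, eval_cE, c0X_eval] at nu nl
  push_cast at nu nl
  have hL : 0 < (C.D.bl : ℝ) / sR := div_pos (by exact_mod_cast hb) (by norm_num)
  have hU := (Ident.b0_pos C.D.p).trans_le hbu
  rw [abs_le]
  constructor
  · refine le_of_mul_le_mul_right ?_ (mul_pos hU hU)
    linarith [c0_upper C.D hbu]
  · refine le_of_mul_le_mul_right ?_ (mul_pos hL hL)
    linarith [c0_lower C.D hL.le hbl]

/-- The sign on the whole range. -/
theorem pos_all (hh : C.headOk = true) (hT : tableOk (C.D.p + 1) T = true)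
    (hp : C.pieces.all (pieceOk C.k.m) = true) (hr : C.rows.all (C.rowOk T) = true)
    (hc : ∀ e ∈ C.rows, C.Covers T e.1) {ell : ℝ} (hl0 : (C.l0 : ℝ) ≤ sR * ell)
    (hl1 : sR * ell ≤ C.l1) {s t a r q : ℝ} (h : FlatState C.D.p ell s t a r q) :
    ell * C.A.ev s + C.B.ev s - C.ramp s / arc s ≤ C.D.cell ell s t a r := by
  have hh' := hh
  simp only [headOk, Bool.and_eq_true, decide_eq_true_eq] at hh'
  obtain ⟨⟨⟨⟨⟨⟨⟨⟨⟨⟨⟨⟨⟨⟨⟨⟨⟨hp1, hG⟩, -⟩, hcst⟩, -⟩, he1⟩, he2⟩, hcov⟩, -⟩, hxx⟩, hxe⟩, hxs⟩, -⟩,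
    -⟩, -⟩, -⟩, hK⟩, hend⟩ := hh'
  have S : (0 : ℝ) < sR := by norm_num
  have hs := h.state.s_mem
  have hden : 0 < (C.xe : ℝ) / sR - (C.xp : ℝ) / sR := by
    rw [sub_pos]
    exact (div_lt_div_iff_of_pos_right S).2 (by exact_mod_cast hxx)
  have hr0 : 0 ≤ C.ramp s := mul_nonneg (div_nonneg (Nat.cast_nonneg _) hden.le) (le_max_left _ _)
  have hr1 : 0 ≤ C.ramp s / arc s := div_nonneg hr0 h.state.arc_pos'.le
  rcases le_total (sR * s) C.xe with c | c
  · obtain ⟨e, he, m1, m2⟩ := coverR_mem C.rows 0 C.xe hcov s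
      (by push_cast; exact mul_nonneg S.le hs.1.le) c
    linarith [row_pos hh hT hp (List.all_eq_true.1 hr e he) (hc e he) hl0 hl1 h m1 m2]
  · split at hend
    next a' b' hA hB =>
      simp only [Bool.and_eq_true, decide_eq_true_eq] at hend
      obtain ⟨⟨⟨a2, a1⟩, b2⟩, b1⟩ := hend
      have hsS : sR * s ≤ ((scl : ℤ) : ℝ) := by
        simp only [scl, sR]
        push_cast
        linarith [hs.2]
      have eA : C.A.ev s ≤ 0 := by
        rw [Hinges.ev, affOn_sound _ _ _ _ hA s c hsS, a2, Int.cast_zero, zero_mul, add_zero,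
          ← add_div]
        exact div_nonpos_of_nonpos_of_nonneg (by exact_mod_cast a1) S.le
      have eB : C.B.ev s ≤ 0 := by
        rw [Hinges.ev, affOn_sound _ _ _ _ hB s c hsS, b2, Int.cast_zero, zero_mul, add_zero,
          ← add_div]
        exact div_nonpos_of_nonpos_of_nonneg (by exact_mod_cast b1) S.le
      have hell : 0 ≤ ell := by
        simp only [cstOk, expOk, Bool.and_eq_true, decide_eq_true_eq] at hcst
        have : (0 : ℝ) ≤ C.l0 := by exact_mod_cast hcst.2.1.1.1
        norm_num [sR] at hl0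
        linarith
      have eV : Real.exp ell ≤ C.k.eVal.ev ell := by
        simp only [cstOk, Bool.and_eq_true] at hcst
        have := expOk_sound hcst.1.2 hl0 hl1
        norm_num at this
        exact this
      have hse : (C.xe : ℝ) / sR ≤ s := by rw [div_le_iff₀ S]; linarith
      have hhalf : (1 : ℝ) / 2 < (C.xe : ℝ) / sR := by
        have h9 := (Int.cast_lt (R := ℝ)).2 hxe
        push_cast [scl] at h9
        simp only [sR]
        linarith
      have hxe0 : 0 < C.xe := by simp only [scl] at hxe; omega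
      have hT' := tail_cell hhalf (div_nonneg (by exact_mod_cast hG.le) S.le) (c0_abs hh) h hell
        (eMax_ge he1 he2 hl1 eV) hse
      have n := nonneg1_sound hK (x := 0) (by simp) (by simp)
      simp only [Expr.eval] at n
      rw [C.tailX_eval hxe0] at n
      push_cast at n
      have hrp : (C.tK : ℝ) ≤ C.ramp s := by
        rw [Cell.ramp, div_mul_eq_mul_div, le_div_iff₀ hden]
        exact mul_le_mul_of_nonneg_left
          ((sub_le_sub_right hse _).trans (le_max_right _ _)) (Nat.cast_nonneg _)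
      have h3 : -(C.ramp s / arc s) ≤ C.D.cell ell s t a r := by
        rw [← neg_div, div_le_iff₀ h.state.arc_pos']
        linarith
      have := mul_nonpos_of_nonneg_of_nonpos hell eA
      linarith
    next => simp at hend

/-- The data give the cell. -/
theorem corCell (hh : C.headOk = true) (hT : tableOk (C.D.p + 1) T = true)
    (hp : C.pieces.all (pieceOk C.k.m) = true) (hr : C.rows.all (C.rowOk T) = true)
    (hm : C.meanOk T = true) (hc : ∀ e ∈ C.rows, C.Covers T e.1) :
    CorCell C.D.p ((C.l0 : ℝ) / sR) ((C.l1 : ℝ) / sR) := by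
  have hh' := hh
  simp only [headOk, Bool.and_eq_true, decide_eq_true_eq] at hh'
  obtain ⟨⟨⟨⟨⟨⟨⟨⟨⟨⟨⟨⟨⟨⟨⟨⟨⟨hp1, hG⟩, -⟩, -⟩, -⟩, -⟩, -⟩, -⟩, hxp⟩, hxx⟩, -⟩, hxs⟩, hcq⟩, hcq2⟩,
    -⟩, -⟩, -⟩, -⟩ := hh'
  have S : (0 : ℝ) < sR := by norm_num
  simp only [meanOk] at hm
  split at hm
  next na nb hna hnb =>
    simp only [Bool.and_eq_true, decide_eq_true_eq] at hm
    obtain ⟨ha0, hmean⟩ := hm
    have iA := C.A.low_sound hT hna
    have iB := C.B.low_sound hT hnb
    have hc0 : Continuous fun s => arc s ^ (C.D.p + 1) := continuous_arc.pow _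
    have hcA : Continuous fun s => arc s ^ (C.D.p + 1) * C.A.ev s := hc0.mul C.A.continuous
    have hcB : Continuous fun s => arc s ^ (C.D.p + 1) * C.B.ev s := hc0.mul C.B.continuous
    have hcr : Continuous fun s => arc s ^ C.D.p * C.ramp s := by
      unfold Cell.ramp
      exact (continuous_arc.pow _).mul (by fun_prop)
    have eR : ∀ s, arc s ^ (C.D.p + 1) * (-C.B.ev s + C.ramp s / arc s) =
        -(arc s ^ (C.D.p + 1) * C.B.ev s) + arc s ^ C.D.p * C.ramp s := fun s => by
      rcases eq_or_ne (arc s) 0 with h0 | h0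
      · simp [h0, zero_pow (show C.D.p ≠ 0 by omega)]
      · rw [pow_succ]
        field_simp
    have hgam : 0 < C.D.gam := by
      have := Ident.b0_pos C.D.p
      have : 0 < C.D.gz := div_pos (by exact_mod_cast hG) S
      unfold Par.gam
      positivity
    refine corCell_of_bridge (gam := C.D.gam) (nu := C.D.nu) (g := C.D.g) hp1 hgam
      (by unfold Par.nu; positivity)
      (k := C.D.kF) (k' := C.D.kF') (β := C.D.bF) (β' := C.D.bF')
      (B := fun s => arc s ^ (C.D.p + 1) * C.D.sb s)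
      (M := fun s => wS C.D.p (arc s) - C.A.ev s) (R := fun s => -C.B.ev s + C.ramp s / arc s)
      (fun s hs => C.D.hasDerivAt_kF ⟨by linarith [hs.1], hs.2⟩)
      (fun s hs => C.D.hasDerivAt_bF hs.1.ne') ?_ ?_ ?_ ?_ ?_ ?_ ?_ ?_
    · have e : (fun s => arc s ^ (C.D.p + 1) * C.D.kF s) =
          fun s => arc s ^ (C.D.p + 1) * evE C.D.K s - C.D.gz * arc s ^ C.D.p := by
        funext s
        rcases eq_or_ne (arc s) 0 with h0 | h0
        · simp [Par.kF, h0, zero_pow (show C.D.p ≠ 0 by omega)]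
        · rw [Par.kF, pow_succ]
          field_simp
      rw [e]
      exact ((hc0.mul (continuous_evE _)).sub
        (continuous_const.mul (continuous_arc.pow _))).continuousOn
    · exact (hc0.mul (continuous_iff_continuousAt.2 fun s =>
        (C.D.hasDerivAt_sb s).continuousAt)).continuousOn
    · intro s hs
      rw [Par.bF]
      have := hs.1.ne'
      field_simp
    · have e : (fun s => arc s ^ (C.D.p + 1) * (wS C.D.p (arc s) - C.A.ev s)) =
          fun s => arc s ^ (C.D.p + 1) * wS C.D.p (arc s) - arc s ^ (C.D.p + 1) * C.A.ev s := by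
        funext s; ring
      rw [e]
      exact ((continuous_arc_pow_wS _).sub hcA).continuousOn
    · simp only [eR]
      exact (hcB.neg.add hcr).continuousOn
    · have e : ∀ s, arc s ^ (C.D.p + 1) * (wS C.D.p (arc s) - C.A.ev s) =
          arc s ^ (C.D.p + 1) * wS C.D.p (arc s) - arc s ^ (C.D.p + 1) * C.A.ev s := fun s => by ring
      simp only [e]
      rw [intervalIntegral.integral_sub ((continuous_arc_pow_wS _).intervalIntegrable _ _)
        (hcA.intervalIntegrable _ _), integral_wS hp1]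
      have ha' : (0 : ℝ) ≤ na := by exact_mod_cast ha0
      have : 0 ≤ ∫ s in (0 : ℝ)..1, arc s ^ (C.D.p + 1) * C.A.ev s :=
        nonneg_of_mul_nonneg_right (ha'.trans iA) (by positivity)
      linarith
    · have e : ∀ s, arc s ^ (C.D.p + 1) * (wS C.D.p (arc s) - C.A.ev s) =
          arc s ^ (C.D.p + 1) * wS C.D.p (arc s) - arc s ^ (C.D.p + 1) * C.A.ev s := fun s => by ring
      have hcB' : Continuous fun s => -(arc s ^ (C.D.p + 1) * C.B.ev s) := hcB.neg
      simp only [eR, e]
      rw [intervalIntegral.integral_sub ((continuous_arc_pow_wS _).intervalIntegrable _ _)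
        (hcA.intervalIntegrable _ _), integral_wS hp1, sub_sub_cancel,
        intervalIntegral.integral_add (hcB'.intervalIntegrable _ _) (hcr.intervalIntegrable _ _),
        intervalIntegral.integral_neg]
      obtain ⟨i, hi⟩ : ∃ i, C.D.p = i + 1 := ⟨C.D.p - 1, by omega⟩
      set x := (C.xp : ℝ) / sR with hx
      set Kt := (C.tK : ℝ) / ((C.xe : ℝ) / sR - x) with hKt
      have hd : 0 < (C.xe : ℝ) - C.xp := sub_pos.2 (by exact_mod_cast hxx)
      have hKt0 : 0 ≤ Kt := by
        rw [hKt, hx, ← sub_div]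
        positivity
      have hx1 : x ∈ Icc (0 : ℝ) 1 := by
        refine ⟨div_nonneg (by exact_mod_cast hxp.le) S.le, ?_⟩
        rw [hx, div_le_one S]
        have h9 := (Int.cast_le (R := ℝ)).2 (hxx.trans hxs).le
        push_cast [scl] at h9
        simpa [sR] using h9
      have er : ∫ s in (0 : ℝ)..1, arc s ^ C.D.p * C.ramp s ≤
          Kt * (((C.cq : ℝ) / sR) ^ (C.D.p + 2) / ((C.D.p : ℝ) + 2)) := by
        rw [intervalIntegral.integral_congr
          (g := fun s => Kt * (arc s ^ (i + 1) * max 0 (s - x))) fun s _ => by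
            simp only [Cell.ramp, hi, ← hx, ← hKt]; ring,
          intervalIntegral.integral_const_mul, integral_hinge hx1]
        refine mul_le_mul_of_nonneg_left ((sub_le_self _ (mul_nonneg hx1.1
          (intervalIntegral.integral_nonneg hx1.2 fun v _ => pow_nonneg (Real.sqrt_nonneg _) _))).trans ?_) hKt0
        rw [hi]
        push_cast
        rw [show (i : ℝ) + 1 + 2 = i + 3 by ring]
        refine div_le_div_of_nonneg_right (pow_le_pow_left₀ (Real.sqrt_nonneg _) ?_ _) (by positivity)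
        refine Real.sqrt_le_iff.2 ?_
        refine ⟨div_nonneg (by exact_mod_cast hcq) S.le, ?_⟩
        have h9 := (Int.cast_le (R := ℝ)).2 hcq2
        push_cast [scl] at h9
        rw [hx, div_pow, div_pow, one_sub_div (by positivity)]
        refine div_le_div_of_nonneg_right ?_ (by positivity)
        simp only [sR]
        linarith
      have hmean' := (Int.cast_le (R := ℝ)).2 hmean
      push_cast [scl] at hmean'
      set IA := ∫ s in (0 : ℝ)..1, arc s ^ (C.D.p + 1) * C.A.ev s
      set IB := ∫ s in (0 : ℝ)..1, arc s ^ (C.D.p + 1) * C.B.ev s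
      refine le_trans (add_le_add le_rfl er) ?_
      set W := 4096 * ((C.D.p : ℝ) + 3) * sR ^ 7 with hW
      set Q := sR * ((C.xe : ℝ) - C.xp) * ((C.D.p : ℝ) + 2) * sR ^ (C.D.p + 2) with hQ
      have hW0 : 0 < W := by positivity
      have hQ0 : 0 < Q := by positivity
      refine le_of_mul_le_mul_left ?_ (mul_pos hW0 hQ0)
      have l0n : (0 : ℝ) ≤ C.l0 := by
        have hh2 := hh
        simp only [headOk, cstOk, expOk, Bool.and_eq_true, decide_eq_true_eq] at hh2
        exact_mod_cast hh2.1.1.1.1.1.1.1.1.1.1.1.1.1.1.2.2.1.1.1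
      have k1 := mul_le_mul_of_nonneg_left iB hQ0.le
      have k2 := mul_le_mul_of_nonneg_left iA (mul_nonneg (div_nonneg l0n S.le) hQ0.le)
      have e1 : W * Q * (Kt * (((C.cq : ℝ) / sR) ^ (C.D.p + 2) / ((C.D.p : ℝ) + 2))) =
          (C.tK : ℝ) * sR * (C.cq : ℝ) ^ (C.D.p + 2) * W * sR := by
        rw [hKt, hx, hQ, ← sub_div, div_pow]
        field_simp
      have e2 : (C.l0 : ℝ) / sR * Q * (na : ℝ) =
          (C.l0 : ℝ) * na * ((C.xe : ℝ) - C.xp) * ((C.D.p : ℝ) + 2) * sR ^ (C.D.p + 2) := by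
        rw [hQ]
        field_simp
      rw [mul_add, e1]
      rw [hW, hQ] at k1 k2 ⊢
      rw [hQ] at e2
      simp only [sR] at k1 k2 e2 hmean' ⊢
      linarith
    · intro ell hl s t a r q h
      have hl0 : (C.l0 : ℝ) ≤ sR * ell := by rw [← div_le_iff₀' S]; exact hl.1
      have hl1 : sR * ell ≤ C.l1 := by rw [← le_div_iff₀' S]; exact hl.2
      have := pos_all hh hT hp hr hc hl0 hl1 h
      rw [Par.cell] at this
      simp only [sub_sub_cancel]
      linarith
  next => simp at hm

end Cell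

end Vale.Agent.P237.Petty.Cor.Grid
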