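import Vale.Agent.P237.Petty.Cor.Grid.Auto
import Vale.Agent.P237.Petty.Cor.Bridge

/-!
# P237: the parameters of a cell on the grid and its potentials
-/

namespace Vale.Agent.P237.Petty.Cor.Grid

open Vale.Agent.P100.Bernstein (Expr)

/-- The parameters of a cell; the potentials are even polynomials over `2 ^ 24`, besides their
singular parts. -/
structure Par where
  /-- the order -/
  p : ℕ
  /-- the shadow multiplier -/
  G0 : ℤ
  /-- the singular coefficient of the second potential -/
  A : ℤ
  /-- the coefficients of the first potential -/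
  K : List ℤ
  /-- the coefficients of the second potential -/
  B : List ℤ
  /-- the multiplier of the test, over `2 ^ 14` -/
  nuN : ℕ
  /-- the parameter of the test, over `2 ^ 5` -/
  gN : ℕ
  /-- the ratio of the half circles, from below -/
  bl : ℤ
  /-- the ratio of the half circles, from above -/
  bu : ℤ

/-- An even polynomial. -/
noncomputable def evE : List ℤ → ℝ → ℝ
  | [], _ => 0
  | c :: l, x => (c : ℝ) / sR + x ^ 2 * evE l x

/-- Its derivative. -/
noncomputable def dE : List ℤ → ℝ → ℝ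
  | [], _ => 0
  | _ :: l, x => 2 * x * evE l x + x ^ 2 * dE l x

/-- An even polynomial as an expression. -/
def evX : List ℤ → Expr
  | [] => .num 0
  | c :: l => .add (cE c) (.mul (.mul (.var 0) (.var 0)) (evX l))

/-- Its derivative as an expression. -/
def dX : List ℤ → Expr
  | [] => .num 0
  | _ :: l => .add (.mul (.mul (.num 2) (.var 0)) (evX l)) (.mul (.mul (.var 0) (.var 0)) (dX l))

theorem eval_evX : ∀ (l : List ℤ) (x : ℝ), (evX l).eval [x] = evE l x
  | [], x => by simp [evX, evE, Expr.eval]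
  | c :: l, x => by
    simp only [evX, evE, Expr.eval, eval_cE, eval_evX l x, List.getD_cons_zero]
    ring

theorem eval_dX : ∀ (l : List ℤ) (x : ℝ), (dX l).eval [x] = dE l x
  | [], x => by simp [dX, dE, Expr.eval]
  | c :: l, x => by
    simp only [dX, dE, Expr.eval, eval_evX l x, eval_dX l x, List.getD_cons_zero]
    push_cast
    ring

theorem hasDerivAt_evE : ∀ (l : List ℤ) (x : ℝ), HasDerivAt (evE l) (dE l x) x
  | [], x => hasDerivAt_const x 0
  | c :: l, x => by
    show HasDerivAt (fun x => (c : ℝ) / sR + x ^ 2 * evE l x) _ _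
    refine (((hasDerivAt_pow 2 x).mul (hasDerivAt_evE l x)).const_add _).congr_deriv ?_
    simp only [dE]
    push_cast
    ring

theorem continuous_evE (l : List ℤ) : Continuous (evE l) :=
  continuous_iff_continuousAt.2 fun x => (hasDerivAt_evE l x).continuousAt

namespace Par

variable (D : Par)

/-- `G0`. -/
noncomputable def gz : ℝ := (D.G0 : ℝ) / sR

/-- The multiplier of the shadow. -/
noncomputable def gam : ℝ := ((D.p : ℝ) + 1) * D.gz / Ident.b0 D.p

/-- The multiplier of the test. -/
noncomputable def nu : ℝ := (D.nuN : ℝ) / 16384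

/-- The parameter of the test. -/
noncomputable def g : ℝ := (D.gN : ℝ) / 32

/-- The coefficient of `s (t - s)`. -/
noncomputable def c0 : ℝ := 2 * (sqCoef D.p + ((D.p : ℝ) + 4) * (D.nu - nuS D.p))

/-- The first potential. -/
noncomputable def kF (s : ℝ) : ℝ := evE D.K s - D.gz / arc s

/-- Its derivative. -/
noncomputable def kF' (s : ℝ) : ℝ := dE D.K s - D.gz * s / arc s ^ 3

/-- `s` times the second potential. -/
noncomputable def sb (s : ℝ) : ℝ := s ^ 2 * evE D.B s - (D.A : ℝ) / sR * (1 - s ^ 2)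

/-- The derivative of `sb`. -/
noncomputable def sb' (s : ℝ) : ℝ :=
  2 * s * evE D.B s + s ^ 2 * dE D.B s + 2 * ((D.A : ℝ) / sR) * s

/-- The second potential. -/
noncomputable def bF (s : ℝ) : ℝ := D.sb s / s

/-- Its derivative. -/
noncomputable def bF' (s : ℝ) : ℝ := (D.sb' s * s - D.sb s) / s ^ 2

/-- `sb` as an expression. -/
def sbX : Expr :=
  .sub (.mul (.mul (.var 0) (.var 0)) (evX D.B)) (.mul (cE D.A) cirE)

/-- The derivative of `sb` as an expression. -/
def sbX' : Expr :=
  .add (.add (.mul (.mul (.num 2) (.var 0)) (evX D.B)) (.mul (.mul (.var 0) (.var 0)) (dX D.B)))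
    (.mul (.mul (.num 2) (cE D.A)) (.var 0))

theorem eval_sbX (s : ℝ) : D.sbX.eval [s] = D.sb s := by
  simp only [sbX, sb, Expr.eval, eval_evX, eval_cE, eval_cirE, List.getD_cons_zero]
  ring

theorem eval_sbX' (s : ℝ) : D.sbX'.eval [s] = D.sb' s := by
  simp only [sbX', sb', Expr.eval, eval_evX, eval_dX, eval_cE, List.getD_cons_zero]
  push_cast
  ring

theorem hasDerivAt_sb (s : ℝ) : HasDerivAt D.sb (D.sb' s) s := by
  show HasDerivAt (fun s => s ^ 2 * evE D.B s - (D.A : ℝ) / sR * (1 - s ^ 2)) _ _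
  refine (((hasDerivAt_pow 2 s).mul (hasDerivAt_evE D.B s)).sub
    (((hasDerivAt_pow 2 s).const_sub 1).const_mul _)).congr_deriv ?_
  simp only [sb']
  push_cast
  ring

theorem hasDerivAt_bF {s : ℝ} (hs : s ≠ 0) : HasDerivAt D.bF (D.bF' s) s := by
  show HasDerivAt (fun s => D.sb s / s) _ _
  refine ((D.hasDerivAt_sb s).div (hasDerivAt_id s) hs).congr_deriv ?_
  simp only [bF', id, mul_one]

theorem hasDerivAt_kF {s : ℝ} (hs : s ∈ Set.Ioo (-1 : ℝ) 1) :
    HasDerivAt D.kF (D.kF' s) s := by
  have h0 : 0 < 1 - s ^ 2 := by nlinarith [hs.1, hs.2]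
  have hq : 0 < arc s := Real.sqrt_pos.2 h0
  have hd : HasDerivAt arc (-s / arc s) s := by
    refine (((hasDerivAt_pow 2 s).const_sub 1).sqrt h0.ne').congr_deriv ?_
    simp only [arc]
    field_simp
    ring
  show HasDerivAt (fun s => evE D.K s - D.gz / arc s) _ _
  refine ((hasDerivAt_evE D.K s).sub ((hasDerivAt_const s D.gz).div hd hq.ne')).congr_deriv ?_
  simp only [kF']
  field_simp
  ring

/-- The bounds of the ratio of the half circles. -/
def Bracket : Prop :=
  0 < D.bl ∧ (D.bl : ℝ) / sR ≤ Ident.b0 D.p ∧ Ident.b0 D.p ≤ (D.bu : ℝ) / sR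

end Par

end Vale.Agent.P237.Petty.Cor.Grid
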