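import Vale.Agent.P237.Petty.Cor.Grid.Tree
import Vale.Agent.P237.Petty.Cor.Grid.Par
import Mathlib.Analysis.Real.Pi.Bounds

/-!
# P237: the constants and pieces of a cell
-/

namespace Vale.Agent.P237.Petty.Cor.Grid

open Set
open Vale.Agent.P100.Bernstein (Expr)
open Ident (half)

/-- The Taylor polynomial of the exponential above it on the unit interval. -/
def expX (e : Expr) : Expr :=
  .add (.num 1) (.mul e (.add (.num 1) (.mul e (.add (.frac 1 2) (.mul e (.add (.frac 1 6)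
    (.mul e (.add (.frac 1 24) (.mul e (.add (.frac 1 120) (.mul e (.add (.frac 1 720)
      (.mul e (.frac 8 35280))))))))))))))

/-- The line is above `exp (a x / b)` on `[l0, l1]`. -/
def expOk (q : L2) (a b : ℕ) (l0 l1 : ℤ) : Bool :=
  decide (0 ≤ l0) && decide (0 < b) && decide ((a : ℤ) * l1 ≤ 8 * b * scl) &&
    nonneg1 (.sub q.expr (.pow (expX (.mul (.frac a (8 * b)) (.var 0))) 8)) l0 l1

theorem expX_ge {e : Expr} {x y : ℝ} (hy : e.eval [x] = y) (h0 : 0 ≤ y) (h1 : y ≤ 1) :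
    Real.exp y ≤ (expX e).eval [x] := by
  have h := Real.exp_bound' h0 h1 (show 0 < 7 by norm_num)
  simp only [Finset.sum_range_succ, Finset.sum_range_zero, Nat.factorial] at h
  simp only [expX, Expr.eval, hy]
  norm_num at h ⊢
  nlinarith [h]

theorem expOk_sound {q : L2} {a b : ℕ} {l0 l1 : ℤ} (h : expOk q a b l0 l1 = true) {l : ℝ}
    (h1 : (l0 : ℝ) ≤ sR * l) (h2 : sR * l ≤ l1) : Real.exp ((a : ℝ) / b * l) ≤ q.ev l := by
  simp only [expOk, Bool.and_eq_true, decide_eq_true_eq] at h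
  obtain ⟨⟨⟨g0, gb⟩, g1⟩, he⟩ := h
  have n := nonneg1_sound he h1 h2
  have hb : (0 : ℝ) < b := by exact_mod_cast gb
  have hl : 0 ≤ l := by
    have : (0 : ℝ) ≤ l0 := by exact_mod_cast g0
    norm_num [sR] at h1
    linarith
  have ha : (a : ℝ) * l ≤ 8 * b := by
    have h3 := (Int.cast_le (R := ℝ)).2 g1
    push_cast [scl] at h3
    have h4 := mul_le_mul_of_nonneg_left h2 (show (0 : ℝ) ≤ a by positivity)
    simp only [sR] at h4
    linarith
  set y := (a : ℝ) / (8 * b) * l with hy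
  have hy0 : 0 ≤ y := by positivity
  have hy1 : y ≤ 1 := by
    rw [hy, div_mul_eq_mul_div, div_le_one (by positivity)]
    exact ha
  simp only [Expr.eval, L2.eval_expr, sub_nonneg] at n
  refine le_trans ?_ n
  rw [show (a : ℝ) / b * l = ((8 : ℕ) : ℝ) * y by rw [hy]; push_cast; field_simp, Real.exp_nat_mul]
  refine pow_le_pow_left₀ (Real.exp_pos _).le (expX_ge ?_ hy0 hy1) _
  simp only [Expr.eval, List.getD_cons_zero, hy]
  push_cast
  ring

/-- The check of the constants. -/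
def cstOk (D : Par) (k : Cst) (l0 l1 : ℤ) : Bool :=
  decide (k.m = D.p + 1) && decide (k.kC = (D.nuN : ℤ) * (32 + D.gN) * 64) &&
  decide (k.kD = (D.nuN : ℤ) * D.gN * (32 + D.gN) * 2) &&
  decide (k.kM = (D.nuN : ℤ) * ((D.gN : ℤ) * D.gN - 1024) * 2) &&
  expOk k.eCut 2 k.m l0 l1 && expOk k.eVal 1 1 l0 l1 && expOk k.eRoot 1 2 l0 l1

/-- The check of a piece. -/
def pieceOk (m : ℕ) (P : Piece × Bool) : Bool :=
  decide (0 < m) &&
  nonneg1 (.add (.num 1) (.mul (.frac 1 m) P.1.sh.expr)) P.1.lo P.1.hi &&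
  nonneg1 (.sub (.var 0) (.pow (.add (.num 1) (.mul (.frac 1 m) P.1.sh.expr)) m)) P.1.lo P.1.hi &&
  (!P.2 || (nonneg1 P.1.rt.expr P.1.lo P.1.hi &&
    nonneg1 (.sub (.mul (.pow P.1.rt.expr m) (.var 0)) (.num 1)) P.1.lo P.1.hi))

theorem pieceOk_sound {m : ℕ} {P : Piece × Bool} (h : pieceOk m P = true) : Piece.Valid m P := by
  simp only [pieceOk, Bool.and_eq_true, Bool.or_eq_true, decide_eq_true_eq] at h
  obtain ⟨⟨⟨hm, e0⟩, e1⟩, e2⟩ := h
  intro v hv hv0
  have n0 := nonneg1_sound e0 hv.1 hv.2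
  have n1 := nonneg1_sound e1 hv.1 hv.2
  simp only [Expr.eval, Q2.eval_expr, List.getD_cons_zero, sub_nonneg, Int.cast_one] at n0 n1
  refine ⟨fun w hw hwv => ?_, fun hf => ?_⟩
  · rw [← hwv] at n1
    have h1 := (pow_le_pow_iff_left₀ n0 hw hm.ne').1 (by simpa [hwv] using n1)
    have hm' : (0 : ℝ) < m := by exact_mod_cast hm
    rw [one_div, ← le_sub_iff_add_le', inv_mul_le_iff₀ hm'] at h1
    exact h1
  · rcases e2 with e2 | ⟨r0, r1⟩
    · simp [hf] at e2
    · have m0 := nonneg1_sound r0 hv.1 hv.2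
      have m1 := nonneg1_sound r1 hv.1 hv.2
      simp only [Expr.eval, L2.eval_expr, List.getD_cons_zero, sub_nonneg, Int.cast_one] at m0 m1
      exact ⟨m0, m1⟩

/-- The even half circle. -/
def evenHalf : ℕ → ℕ × ℕ
  | 0 => (1, 1)
  | i + 1 => ((2 * i + 2) * (evenHalf i).1, (2 * i + 3) * (evenHalf i).2)

theorem evenHalf_spec : ∀ i : ℕ, 0 < (evenHalf i).1 ∧ 0 < (evenHalf i).2 ∧
    half (2 * i) * ((evenHalf i).2 : ℝ) = (evenHalf i).1
  | 0 => by simp [evenHalf, half]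
  | i + 1 => by
    obtain ⟨h1, h2, h⟩ := evenHalf_spec i
    refine ⟨by simp [evenHalf, h1], by simp [evenHalf, h2], ?_⟩
    have hs := Ident.half_step (2 * i)
    simp only [evenHalf, mul_add, mul_one]
    push_cast at hs ⊢
    linear_combination ((evenHalf i).2 : ℝ) * hs + (2 * (i : ℝ) + 2) * h

theorem half_mul_succ (j : ℕ) : half j * half (j + 1) = Real.pi / (2 * ((j : ℝ) + 2)) := by
  have h := LargeN.circ_mul_succ j
  rw [Ident.circ_eq_half, Ident.circ_eq_half] at h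
  field_simp at h ⊢
  linarith

/-- The bracket of the ratio of the half circles. -/
def bracketOk (p : ℕ) (bl bu : ℤ) : Bool :=
  decide (0 < bl) && decide (bl ≤ bu) &&
  (if p % 2 = 0 then
    decide (bl * (2 * (p + 2)) * (evenHalf (p / 2)).1 ^ 2 * 1000000 ≤
      3141592 * scl * (evenHalf (p / 2)).2 ^ 2) &&
    decide (3141593 * scl * (evenHalf (p / 2)).2 ^ 2 ≤
      bu * (2 * (p + 2)) * (evenHalf (p / 2)).1 ^ 2 * 1000000)
  else
    decide (bl * 3141593 * (evenHalf ((p + 1) / 2)).2 ^ 2 ≤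
      2 * (p + 2) * (evenHalf ((p + 1) / 2)).1 ^ 2 * 1000000 * scl) &&
    decide (2 * (p + 2) * (evenHalf ((p + 1) / 2)).1 ^ 2 * 1000000 * scl ≤
      bu * 3141592 * (evenHalf ((p + 1) / 2)).2 ^ 2))

theorem bracketOk_sound {D : Par} (h : bracketOk D.p D.bl D.bu = true) : D.Bracket := by
  simp only [bracketOk, Bool.and_eq_true, decide_eq_true_eq] at h
  obtain ⟨⟨hl, hlu⟩, hc⟩ := h
  set p := D.p
  have hpi := Real.pi_gt_d6
  have hpi' := Real.pi_lt_d6
  norm_num at hpi hpi'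
  have hpp := half_mul_succ p
  have hp0 := Ident.half_pos p
  have hp1 := Ident.half_pos (p + 1)
  have S : (0 : ℝ) < sR := by norm_num
  have bl0 : (0 : ℝ) < D.bl := by exact_mod_cast hl
  have bu0 : (0 : ℝ) < D.bu := by exact_mod_cast hl.trans_le hlu
  rcases Nat.even_or_odd' p with ⟨i, hi | hi⟩
  · rw [if_pos (by omega), Bool.and_eq_true, decide_eq_true_eq, decide_eq_true_eq] at hc
    obtain ⟨c1, c2⟩ := hc
    rw [show p / 2 = i by omega] at c1 c2
    obtain ⟨n0, d0, hh⟩ := evenHalf_spec i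
    rw [show 2 * i = p by omega] at hh
    set N := (evenHalf i).1
    set M := (evenHalf i).2
    have hM : (0 : ℝ) < M := by exact_mod_cast d0
    have hN : (0 : ℝ) < N := by exact_mod_cast n0
    have eb : Ident.b0 p * ((2 * ((p : ℝ) + 2)) * (N : ℝ) ^ 2) = Real.pi * (M : ℝ) ^ 2 := by
      have h0 := hp0.ne'
      rw [Ident.b0, ← hh]
      field_simp at hpp ⊢
      linear_combination hpp
    have k : (0 : ℝ) < (2 * ((p : ℝ) + 2)) * (N : ℝ) ^ 2 := by positivity
    have a1 := (Int.cast_le (R := ℝ)).2 c1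
    have a2 := (Int.cast_le (R := ℝ)).2 c2
    push_cast [scl] at a1 a2
    have m1 := mul_le_mul_of_nonneg_right hpi.le (show 0 ≤ (M : ℝ) ^ 2 * sR by positivity)
    have m2 := mul_le_mul_of_nonneg_right hpi'.le (show 0 ≤ (M : ℝ) ^ 2 * sR by positivity)
    refine ⟨hl, le_of_mul_le_mul_right ?_ k, le_of_mul_le_mul_right ?_ k⟩
    · rw [eb, div_mul_eq_mul_div, div_le_iff₀ S]
      simp only [sR] at m1 ⊢
      linarith
    · rw [eb, div_mul_eq_mul_div, le_div_iff₀ S]
      simp only [sR] at m2 ⊢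
      linarith
  · rw [if_neg (by omega), Bool.and_eq_true, decide_eq_true_eq, decide_eq_true_eq] at hc
    obtain ⟨c1, c2⟩ := hc
    rw [show (p + 1) / 2 = i + 1 by omega] at c1 c2
    obtain ⟨n0, d0, hh⟩ := evenHalf_spec (i + 1)
    rw [show 2 * (i + 1) = p + 1 by omega] at hh
    set N := (evenHalf (i + 1)).1
    set M := (evenHalf (i + 1)).2
    have hM : (0 : ℝ) < M := by exact_mod_cast d0
    have eb : Ident.b0 p * (Real.pi * (M : ℝ) ^ 2) = 2 * ((p : ℝ) + 2) * (N : ℝ) ^ 2 := by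
      have h0 := hp0.ne'
      rw [Ident.b0, ← hh]
      field_simp at hpp ⊢
      linear_combination -hpp
    have k : (0 : ℝ) < Real.pi * (M : ℝ) ^ 2 := by positivity
    have a1 := (Int.cast_le (R := ℝ)).2 c1
    have a2 := (Int.cast_le (R := ℝ)).2 c2
    push_cast [scl] at a1 a2
    have m1 := mul_le_mul_of_nonneg_left hpi'.le (show 0 ≤ (D.bl : ℝ) * (M : ℝ) ^ 2 by positivity)
    have m2 := mul_le_mul_of_nonneg_left hpi.le (show 0 ≤ (D.bu : ℝ) * (M : ℝ) ^ 2 by positivity)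
    refine ⟨hl, le_of_mul_le_mul_right ?_ k, le_of_mul_le_mul_right ?_ k⟩
    · rw [eb, div_mul_eq_mul_div, div_le_iff₀ S]
      simp only [sR] at m1 ⊢
      linarith
    · rw [eb, div_mul_eq_mul_div, le_div_iff₀ S]
      simp only [sR] at m2 ⊢
      linarith

end Vale.Agent.P237.Petty.Cor.Grid
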