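import Vale.Agent.P237.Petty.Cor.Grid.Rows

/-!
# P237: piecewise affine functions and their means
-/

namespace Vale.Agent.P237.Petty.Cor.Grid

open MeasureTheory Set intervalIntegral
open Lift (circLow circHigh)

/-- A constant and hinges `(k, d)`: slope `d / 4096` added at `4096 k / 2 ^ 24`. -/
structure Hinges where
  /-- the value at zero -/
  v0 : ℤ
  /-- the hinges -/
  hs : List (ℤ × ℤ)

/-- The sum of the hinges. -/
noncomputable def hingeSum : List (ℤ × ℤ) → ℝ → ℝ
  | [], _ => 0
  | e :: l, s => (e.2 : ℝ) / 4096 * max 0 (s - (e.1 : ℝ) / 4096) + hingeSum l s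

/-- The value. -/
noncomputable def Hinges.ev (H : Hinges) (s : ℝ) : ℝ := (H.v0 : ℝ) / sR + hingeSum H.hs s

/-- The affine function on an interval free of hinges. -/
def affOn : List (ℤ × ℤ) → ℤ → ℤ → Option (ℤ × ℤ)
  | [], _, _ => some (0, 0)
  | e :: l, a, b =>
    match affOn l a b with
    | none => none
    | some r =>
      if e.1 * 4096 ≤ a then some (r.1 - e.2 * e.1, r.2 + e.2 * 4096)
      else if b ≤ e.1 * 4096 then some r else none

/-- The function is affine on the interval, with the given coefficients. -/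
def Hinges.isOn (H : Hinges) (q : L2) (a b : ℤ) : Bool :=
  match affOn H.hs a b with
  | none => false
  | some r => decide (q.c0 = H.v0 + r.1) && decide (q.c1 = r.2)

theorem affOn_sound : ∀ (l : List (ℤ × ℤ)) (a b : ℤ) (r : ℤ × ℤ), affOn l a b = some r →
    ∀ s : ℝ, (a : ℝ) ≤ sR * s → sR * s ≤ b → hingeSum l s = ((r.1 : ℝ) + r.2 * s) / sR
  | [], a, b, r, h, s, _, _ => by
    simp only [affOn, Option.some.injEq] at h
    simp [← h, hingeSum]
  | e :: l, a, b, r, h, s, h1, h2 => by
    simp only [affOn] at h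
    split at h
    · simp at h
    next r' hr =>
      have ih := affOn_sound l a b r' hr s h1 h2
      simp only [hingeSum, ih]
      split at h
      next hk =>
        have hk' : (e.1 : ℝ) * 4096 ≤ a := by exact_mod_cast hk
        simp only [Option.some.injEq] at h
        rw [← h, max_eq_right (by simp only [sR] at h1; linarith)]
        push_cast
        simp only [sR]
        ring
      next hk =>
        split at h
        next hb =>
          have hb' : (b : ℝ) ≤ e.1 * 4096 := by exact_mod_cast hb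
          simp only [Option.some.injEq] at h
          rw [← h, max_eq_left (by simp only [sR] at h2; linarith)]
          ring
        next => simp at h

theorem Hinges.isOn_sound {H : Hinges} {q : L2} {a b : ℤ} (h : H.isOn q a b = true) {s : ℝ}
    (h1 : (a : ℝ) ≤ sR * s) (h2 : sR * s ≤ b) : H.ev s = q.ev s := by
  simp only [Hinges.isOn] at h
  split at h
  · simp at h
  next r hr =>
    simp only [Bool.and_eq_true, decide_eq_true_eq] at h
    rw [Hinges.ev, affOn_sound _ _ _ r hr s h1 h2, L2.ev, h.1, h.2]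
    push_cast
    ring

theorem continuous_hingeSum : ∀ l : List (ℤ × ℤ), Continuous (hingeSum l)
  | [] => continuous_const
  | _ :: l => (continuous_const.mul (continuous_const.max
      (continuous_id.sub continuous_const))).add (continuous_hingeSum l)

theorem Hinges.continuous (H : Hinges) : Continuous H.ev :=
  continuous_const.add (continuous_hingeSum H.hs)

variable {p : ℕ}

/-- The mean of one hinge. -/
theorem integral_hinge {x : ℝ} (hx : x ∈ Icc (0 : ℝ) 1) :
    ∫ s in (0 : ℝ)..1, arc s ^ (p + 1) * max 0 (s - x) =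
      arc x ^ (p + 3) / ((p : ℝ) + 3) - x * circHigh p x := by
  have hc : Continuous fun s => arc s ^ (p + 1) := continuous_arc.pow _
  have hf : Continuous fun s => arc s ^ (p + 1) * max 0 (s - x) := by fun_prop
  rw [← intervalIntegral.integral_add_adjacent_intervals (b := x) (hf.intervalIntegrable _ _)
    (hf.intervalIntegrable _ _)]
  have e1 : ∫ s in (0 : ℝ)..x, arc s ^ (p + 1) * max 0 (s - x) = 0 := by
    rw [intervalIntegral.integral_congr (g := fun _ => (0 : ℝ)) fun s hs => ?_]
    · simp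
    · rw [uIcc_of_le hx.1] at hs
      simp [max_eq_left (sub_nonpos.2 hs.2)]
  have e2 : ∫ s in x..(1 : ℝ), arc s ^ (p + 1) * max 0 (s - x) =
      ∫ s in x..(1 : ℝ), (s * arc s ^ (p + 1) - x * arc s ^ (p + 1)) := by
    refine intervalIntegral.integral_congr fun s hs => ?_
    rw [uIcc_of_le hx.2] at hs
    simp only [max_eq_right (sub_nonneg.2 hs.1)]
    ring
  have hd : Continuous fun s : ℝ => s * arc s ^ (p + 1) := continuous_id.mul hc
  rw [e1, e2, zero_add, intervalIntegral.integral_sub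
    (hd.intervalIntegrable _ _) ((hc.const_mul x).intervalIntegrable _ _),
    intervalIntegral.integral_const_mul, ← integral_high_moment hx]
  field_simp
  rfl

theorem integral_hinge_nonneg (x : ℝ) :
    0 ≤ ∫ s in (0 : ℝ)..1, arc s ^ (p + 1) * max 0 (s - x) :=
  intervalIntegral.integral_nonneg zero_le_one fun s _ =>
    mul_nonneg (pow_nonneg (Real.sqrt_nonneg _) _) (le_max_left _ _)

/-- The power of the circle at the left end of a slab. -/
theorem slab_pow {σ : Slab} (h : σ.ok (p + 1) = true) :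
    σ.lo.ev ((σ.x0 : ℝ) / sR) ≤ arc ((σ.x0 : ℝ) / sR) ^ (p + 1) ∧
      arc ((σ.x0 : ℝ) / sR) ^ (p + 1) ≤ σ.up.ev ((σ.x0 : ℝ) / sR) := by
  obtain ⟨hx0, hx1, h01⟩ := slab_range h
  simp only [Slab.ok, Bool.and_eq_true, decide_eq_true_eq] at h
  obtain ⟨⟨⟨⟨⟨⟨⟨⟨-, l0⟩, l1⟩, u0⟩, u1⟩, -⟩, -⟩, -⟩, -⟩ := h
  set s := (σ.x0 : ℝ) / sR with hs
  obtain ⟨m1, m2⟩ : σ.Mem s := mem_iff.2 ⟨le_rfl, h01⟩
  have n0 := nonneg1_sound l0 m1 m2
  have n1 := nonneg1_sound l1 m1 m2
  have n2 := nonneg1_sound u0 m1 m2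
  have n3 := nonneg1_sound u1 m1 m2
  rw [Q2.eval_expr] at n0 n2
  simp only [Vale.Agent.P100.Bernstein.Expr.eval, Q2.eval_expr, eval_cirE, sub_nonneg,
    ← arc_pow_sq p hx0.1 hx0.2] at n1 n3
  exact ⟨(pow_le_pow_iff_left₀ n0 (pow_nonneg (Real.sqrt_nonneg _) _) two_ne_zero).1 n1,
    (pow_le_pow_iff_left₀ (pow_nonneg (Real.sqrt_nonneg _) _) n2 two_ne_zero).1 n3⟩

/-- Hinge means from below and above at the left end of a slab, over `(m + 2) S ^ 7`. -/
def hatLo (m : ℕ) (σ : Slab) : ℤ :=
  σ.lo.at3 σ.x0 *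
    max 0 ((scl * scl - σ.x0 * σ.x0) * (scl * scl) - ((m : ℤ) + 2) * σ.x0 * σ.hiU.at3 σ.x0)

/-- The upper one. -/
def hatHi (m : ℕ) (σ : Slab) : ℤ :=
  σ.up.at3 σ.x0 *
    max 0 ((scl * scl - σ.x0 * σ.x0) * (scl * scl) - ((m : ℤ) + 2) * σ.x0 * σ.hiL.at3 σ.x0)

/-- The lower bound of the mean of hinges, over `4096 (m + 2) S ^ 7`; each hinge is a node of
the table. -/
def hingeLow (m : ℕ) (T : List Slab) : List (ℤ × ℤ) → Option ℤ
  | [] => some 0
  | e :: l =>
    match T.find? (fun σ => σ.x0 == e.1 * 4096), hingeLow m T l with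
    | some σ, some r => some (r + e.2 * (if 0 ≤ e.2 then hatLo m σ else hatHi m σ))
    | none, some r => if e.2 == 0 then some r else none
    | _, none => none

/-- The lower bound of a mean, over `4096 (m + 2) S ^ 7`. -/
def Hinges.low (m : ℕ) (T : List Slab) (H : Hinges) : Option ℤ :=
  match T.head?, hingeLow m T H.hs with
  | some σ, some r =>
    some (r + 4096 * ((m : ℤ) + 2) * scl ^ 3 * H.v0 *
      (if 0 ≤ H.v0 then σ.hiL.at3 σ.x0 else σ.hiU.at3 σ.x0))
  | _, _ => none

theorem hat_bounds {σ : Slab} (hok : σ.ok (p + 1) = true) (hv : σ.Valid p) :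
    (hatLo (p + 1) σ : ℝ) ≤ (((p : ℝ) + 3) * sR ^ 7) *
        ∫ s in (0 : ℝ)..1, arc s ^ (p + 1) * max 0 (s - (σ.x0 : ℝ) / sR) ∧
      (((p : ℝ) + 3) * sR ^ 7) *
        ∫ s in (0 : ℝ)..1, arc s ^ (p + 1) * max 0 (s - (σ.x0 : ℝ) / sR) ≤
          (hatHi (p + 1) σ : ℝ) := by
  obtain ⟨hx0, -, h01⟩ := slab_range hok
  obtain ⟨c1, c2⟩ := slab_pow hok
  have hI := integral_hinge_nonneg (p := p) ((σ.x0 : ℝ) / sR)
  have e := integral_hinge (p := p) hx0
  set x := (σ.x0 : ℝ) / sR with hx
  obtain ⟨t1, t2⟩ := hv.high x (mem_iff.2 ⟨le_rfl, h01⟩)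
  have e3 : arc x ^ (p + 3) = arc x ^ (p + 1) * (1 - x ^ 2) := by
    rw [show p + 3 = p + 1 + 2 from rfl, pow_add, arc, Real.sq_sqrt]
    nlinarith [hx0.1, hx0.2]
  have hp3 : (0 : ℝ) < (p : ℝ) + 3 := by positivity
  set I := ∫ s in (0 : ℝ)..1, arc s ^ (p + 1) * max 0 (s - x) with hI'
  have eI : ((p : ℝ) + 3) * I = arc x ^ (p + 1) * (1 - x ^ 2) - ((p : ℝ) + 3) * x * circHigh p x := by
    rw [e, e3]
    field_simp
  have cast_in : ∀ q : Q2, (((scl * scl - σ.x0 * σ.x0) * (scl * scl) -
      (((p + 1 : ℕ) : ℤ) + 2) * σ.x0 * q.at3 σ.x0 : ℤ) : ℝ) =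
      sR ^ 4 * ((1 - x ^ 2) - ((p : ℝ) + 3) * x * q.ev x) := fun q => by
    simp only [Int.cast_sub, Int.cast_mul, Int.cast_add, Int.cast_natCast, Int.cast_ofNat]
    rw [at3_cast, ← hx, show (σ.x0 : ℝ) = x * sR by rw [hx, div_mul_cancel₀ _ (by norm_num)]]
    simp only [scl, sR]
    push_cast
    ring
  have hxp : 0 ≤ ((p : ℝ) + 3) * x := mul_nonneg hp3.le hx0.1
  have hcp : 0 ≤ arc x ^ (p + 1) := pow_nonneg (Real.sqrt_nonneg _) _
  constructor
  · rw [hatLo, Int.cast_mul, Int.cast_max, cast_in, Int.cast_zero, at3_cast, ← hx]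
    rcases le_total ((1 - x ^ 2) - ((p : ℝ) + 3) * x * σ.hiU.ev x) 0 with hn | hn
    · rw [max_eq_left (mul_nonpos_of_nonneg_of_nonpos (by positivity) hn), mul_zero]
      positivity
    · rw [max_eq_right (mul_nonneg (by positivity) hn)]
      have k1 := mul_le_mul_of_nonneg_right c1 hn
      have k2 := mul_le_mul_of_nonneg_left t2 hxp
      calc sR ^ 3 * σ.lo.ev x * (sR ^ 4 * (1 - x ^ 2 - ((p : ℝ) + 3) * x * σ.hiU.ev x))
          = sR ^ 7 * (σ.lo.ev x * (1 - x ^ 2 - ((p : ℝ) + 3) * x * σ.hiU.ev x)) := by ring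
        _ ≤ sR ^ 7 * (((p : ℝ) + 3) * I) :=
          mul_le_mul_of_nonneg_left (by rw [eI]; linarith) (by positivity)
        _ = _ := by ring
  · rw [hatHi, Int.cast_mul, Int.cast_max, cast_in, Int.cast_zero, at3_cast, ← hx]
    have k2 := mul_le_mul_of_nonneg_left t1 hxp
    have k4 : 0 ≤ σ.up.ev x := hcp.trans c2
    calc ((p : ℝ) + 3) * sR ^ 7 * I = sR ^ 7 * (((p : ℝ) + 3) * I) := by ring
      _ ≤ sR ^ 7 * (arc x ^ (p + 1) * (1 - x ^ 2 - ((p : ℝ) + 3) * x * σ.hiL.ev x)) :=
        mul_le_mul_of_nonneg_left (by rw [eI]; linarith) (by positivity)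
      _ ≤ sR ^ 7 * (σ.up.ev x * max 0 (1 - x ^ 2 - ((p : ℝ) + 3) * x * σ.hiL.ev x)) := by
        refine mul_le_mul_of_nonneg_left ?_ (by positivity)
        exact (mul_le_mul_of_nonneg_left (le_max_right _ _) hcp).trans
          (mul_le_mul_of_nonneg_right c2 (le_max_left _ _))
      _ = _ := by
        rw [show (0 : ℝ) = sR ^ 4 * 0 by ring, ← mul_max_of_nonneg _ _ (by positivity)]
        ring

theorem hingeLow_sound {T : List Slab} (hok : ∀ σ ∈ T, σ.ok (p + 1) = true)
    (hv : ∀ σ ∈ T, σ.Valid p) : ∀ (l : List (ℤ × ℤ)) (r : ℤ), hingeLow (p + 1) T l = some r →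
      (r : ℝ) ≤ 4096 * ((p : ℝ) + 3) * sR ^ 7 *
        ∫ s in (0 : ℝ)..1, arc s ^ (p + 1) * hingeSum l s
  | [], r, h => by
    simp only [hingeLow, Option.some.injEq] at h
    simp [hingeSum, ← h]
  | e :: l, r, h => by
    have hc : Continuous fun s => arc s ^ (p + 1) := continuous_arc.pow _
    have hs : Continuous fun s => arc s ^ (p + 1) * hingeSum l s :=
      hc.mul (continuous_hingeSum l)
    have hm : Continuous fun s => arc s ^ (p + 1) * max 0 (s - (e.1 : ℝ) / 4096) := by fun_prop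
    have eint : ∫ s in (0 : ℝ)..1, arc s ^ (p + 1) * hingeSum (e :: l) s =
        (e.2 : ℝ) / 4096 * (∫ s in (0 : ℝ)..1, arc s ^ (p + 1) * max 0 (s - (e.1 : ℝ) / 4096)) +
          ∫ s in (0 : ℝ)..1, arc s ^ (p + 1) * hingeSum l s := by
      rw [← intervalIntegral.integral_const_mul, ← intervalIntegral.integral_add
        ((hm.const_mul _).intervalIntegrable _ _) (hs.intervalIntegrable _ _)]
      exact intervalIntegral.integral_congr fun s _ => by simp only [hingeSum]; ring
    rw [eint]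
    simp only [hingeLow] at h
    split at h
    next σ r' hσ hr =>
      have hmem := List.mem_of_find?_eq_some hσ
      have hx := List.find?_some hσ
      simp only [beq_iff_eq] at hx
      obtain ⟨b1, b2⟩ := hat_bounds (hok σ hmem) (hv σ hmem)
      rw [show (σ.x0 : ℝ) / sR = (e.1 : ℝ) / 4096 by rw [hx]; push_cast [sR]; ring] at b1 b2
      have ih := hingeLow_sound hok hv l r' hr
      simp only [Option.some.injEq] at h
      subst h
      push_cast
      split
      next hd =>
        have := mul_le_mul_of_nonneg_left b1 (show (0 : ℝ) ≤ e.2 by exact_mod_cast hd)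
        linarith
      next hd =>
        have := mul_le_mul_of_nonpos_left b2 (show (e.2 : ℝ) ≤ 0 by exact_mod_cast (not_le.1 hd).le)
        linarith
    next r' hσ hr =>
      split at h
      next hz =>
        simp only [Option.some.injEq] at h
        subst h
        simp only [beq_iff_eq] at hz
        rw [hz]
        simpa using hingeLow_sound hok hv l _ hr
      next => simp at h
    next => simp at h

/-- The lower bound of a mean is valid. -/
theorem Hinges.low_sound {T : List Slab} (hT : tableOk (p + 1) T = true) {H : Hinges} {r : ℤ}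
    (h : H.low (p + 1) T = some r) :
    (r : ℝ) ≤ 4096 * ((p : ℝ) + 3) * sR ^ 7 * ∫ s in (0 : ℝ)..1, arc s ^ (p + 1) * H.ev s := by
  have hv := tableOk_sound hT
  simp only [tableOk, Bool.and_eq_true, List.all_eq_true] at hT
  obtain ⟨⟨hok, -⟩, h0⟩ := hT
  simp only [Hinges.low] at h
  split at h
  next σ r' hσ hr =>
    simp only [Option.some.injEq] at h
    subst h
    have hc : Continuous fun s => arc s ^ (p + 1) := continuous_arc.pow _
    have e : ∫ s in (0 : ℝ)..1, arc s ^ (p + 1) * H.ev s =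
        (H.v0 : ℝ) / sR * Ident.half (p + 1) +
          ∫ s in (0 : ℝ)..1, arc s ^ (p + 1) * hingeSum H.hs s := by
      have hd : Continuous fun s => arc s ^ (p + 1) * hingeSum H.hs s :=
        hc.mul (continuous_hingeSum _)
      rw [show Ident.half (p + 1) = ∫ s in (0 : ℝ)..1, arc s ^ (p + 1) from rfl,
        ← intervalIntegral.integral_const_mul, ← intervalIntegral.integral_add
        ((hc.const_mul _).intervalIntegrable _ _) (hd.intervalIntegrable _ _)]
      exact intervalIntegral.integral_congr fun s _ => by simp only [Hinges.ev]; ring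
    rw [e]
    have hmem : σ ∈ T := List.mem_of_mem_head? hσ
    have hx : σ.x0 = 0 := by
      cases T with
      | nil => simp at hσ
      | cons τ l =>
        obtain rfl : τ = σ := by simpa using hσ
        simp only [Bool.and_eq_true, decide_eq_true_eq] at h0
        exact h0.1.1
    obtain ⟨-, -, h01⟩ := slab_range (hok σ hmem)
    obtain ⟨t1, t2⟩ := (hv σ hmem).high _ (mem_iff.2 ⟨le_rfl, h01⟩)
    have ha0 : arc (0 : ℝ) = 1 := by simp [arc]
    rw [hx] at t1 t2
    simp only [Int.cast_zero, zero_div, ha0, one_pow, mul_one] at t1 t2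
    have hh : circHigh p 0 = Ident.half (p + 1) := rfl
    rw [hh] at t1 t2
    have ih := hingeLow_sound hok hv _ _ hr
    push_cast
    split
    next hd =>
      rw [at3_cast, hx, Int.cast_zero, zero_div]
      have := mul_le_mul_of_nonneg_left t1
        (show (0 : ℝ) ≤ 4096 * ((p : ℝ) + 3) * sR ^ 6 * H.v0 from
          mul_nonneg (by positivity) (by exact_mod_cast hd))
      simp only [scl, sR] at this ih ⊢
      push_cast
      linarith
    next hd =>
      rw [at3_cast, hx, Int.cast_zero, zero_div]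
      have := mul_le_mul_of_nonpos_left t2
        (show 4096 * ((p : ℝ) + 3) * sR ^ 6 * (H.v0 : ℝ) ≤ 0 from
          mul_nonpos_of_nonneg_of_nonpos (by positivity) (by exact_mod_cast (not_le.1 hd).le))
      simp only [scl, sR] at this ih ⊢
      push_cast
      linarith
  next => simp at h

end Vale.Agent.P237.Petty.Cor.Grid
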