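import Vale.Agent.P237.Petty.Cor.Grid.Auto
import Vale.Agent.P237.Petty.Cor.MillsUp

/-!
# P237: the masses of the circle on a list of slabs

On each slab two quadratics bound the power of the circle, the masses below at the nodes come from
their integrals, and two quadratics times the power of the circle bound the mass above, being a
subsolution and a supersolution of its differential equation.
-/

namespace Vale.Agent.P237.Petty.Cor.Grid

open MeasureTheory Set intervalIntegral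
open Vale.Agent.P100.Bernstein (Expr)
open Lift (circLow circHigh)

/-- A slab. -/
structure Slab where
  /-- left end -/
  x0 : ℤ
  /-- right end -/
  x1 : ℤ
  /-- the mass below the left end, from below -/
  cl0 : ℤ
  /-- the mass below the left end, from above -/
  cu0 : ℤ
  /-- the mass below the right end, from below -/
  cl1 : ℤ
  /-- the mass below the right end, from above -/
  cu1 : ℤ
  /-- the power of the circle, from below -/
  lo : Q2
  /-- the power of the circle, from above -/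
  up : Q2
  /-- the mass above over the power, from below -/
  hiL : Q2
  /-- the mass above over the power, from above -/
  hiU : Q2

/-- Six times the integral over a slab, scale four. -/
def integ (q : Q2) (a b : ℤ) : ℤ :=
  6 * q.c0 * (b - a) * (scl * scl) + 3 * q.c1 * (b * b - a * a) * scl +
    2 * q.c2 * (b * b * b - a * a * a)

/-- The differential equation of the mass above over the power. -/
def odeE (m : ℕ) (q : Q2) : Expr :=
  .sub (.mul (.add (.num 1) q.dExpr) cirE) (.mul (.mul (.num m) (.var 0)) q.expr)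

/-- The check of a slab. -/
def Slab.ok (m : ℕ) (σ : Slab) : Bool :=
  decide (σ.x0 ≤ σ.x1) && decide (0 ≤ σ.x0) && decide (σ.x1 < scl) &&
  nonneg1 σ.lo.expr σ.x0 σ.x1 &&
  nonneg1 (.sub (.pow cirE m) (.pow σ.lo.expr 2)) σ.x0 σ.x1 &&
  nonneg1 σ.up.expr σ.x0 σ.x1 &&
  nonneg1 (.sub (.pow σ.up.expr 2) (.pow cirE m)) σ.x0 σ.x1 &&
  decide (6 * (scl * scl * scl) * (σ.cl1 - σ.cl0) ≤ integ σ.lo σ.x0 σ.x1) &&
  decide (integ σ.up σ.x0 σ.x1 ≤ 6 * (scl * scl * scl) * (σ.cu1 - σ.cu0)) &&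
  nonneg1 (odeE m σ.hiL) σ.x0 σ.x1 && nonneg1 (.neg (odeE m σ.hiU)) σ.x0 σ.x1

/-- The value of a quadratic at a node, scale three. -/
def Q2.at3 (q : Q2) (x : ℤ) : ℤ := q.c0 * (scl * scl) + q.c1 * x * scl + q.c2 * x * x

/-- Neighbours fit, and the last slab is below and above the elementary bounds. -/
def chainOk (m : ℕ) : List Slab → Bool
  | [] => false
  | [σ] =>
      decide (0 < σ.x1) &&
      decide (σ.hiL.at3 σ.x1 * ((m + 2) * σ.x1 * σ.x1 + scl * scl) ≤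
        (scl * scl - σ.x1 * σ.x1) * σ.x1 * (scl * scl)) &&
      decide ((scl * scl - σ.x1 * σ.x1) * ((m + 3) * σ.x1 * σ.x1 + 2 * (scl * scl)) *
          (scl * scl) * scl ≤
        σ.hiU.at3 σ.x1 * ((m + 2) * σ.x1 * ((m + 2) * σ.x1 * σ.x1 + 3 * (scl * scl))) * scl)
  | σ :: τ :: l =>
      decide (σ.x1 = τ.x0) && decide (τ.cl0 ≤ σ.cl1) && decide (σ.cu1 ≤ τ.cu0) &&
      decide (σ.hiL.at3 σ.x1 ≤ τ.hiL.at3 σ.x1) && decide (τ.hiU.at3 σ.x1 ≤ σ.hiU.at3 σ.x1) &&
      chainOk m (τ :: l)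

/-- The check of a table. -/
def tableOk (m : ℕ) (L : List Slab) : Bool :=
  L.all (Slab.ok m) && chainOk m L &&
    (match L with
     | [] => false
     | σ :: _ => decide (σ.x0 = 0) && decide (σ.cl0 ≤ 0) && decide (0 ≤ σ.cu0))

/-- A point of a slab. -/
def Slab.Mem (σ : Slab) (s : ℝ) : Prop := (σ.x0 : ℝ) ≤ sR * s ∧ sR * s ≤ σ.x1

/-- What a slab gives. -/
structure Slab.Valid (p : ℕ) (σ : Slab) : Prop where
  node0 : (σ.x0 : ℝ) / sR ∈ Icc (0 : ℝ) 1
  node1 : (σ.x1 : ℝ) / sR ∈ Icc (0 : ℝ) 1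
  cl0 : (σ.cl0 : ℝ) / sR ≤ circLow p ((σ.x0 : ℝ) / sR)
  cl1 : (σ.cl1 : ℝ) / sR ≤ circLow p ((σ.x1 : ℝ) / sR)
  low : ∀ s, σ.Mem s → circLow p s ≤ (σ.cu0 : ℝ) / sR +
    ((σ.up.c0 : ℝ) * (s - (σ.x0 : ℝ) / sR) + σ.up.c1 * (s ^ 2 - ((σ.x0 : ℝ) / sR) ^ 2) / 2 +
      σ.up.c2 * (s ^ 3 - ((σ.x0 : ℝ) / sR) ^ 3) / 3) / sR
  high : ∀ s, σ.Mem s →
    σ.hiL.ev s * arc s ^ (p + 1) ≤ circHigh p s ∧ circHigh p s ≤ σ.hiU.ev s * arc s ^ (p + 1)

variable {p : ℕ}

theorem hasDerivAt_circLow (p : ℕ) (s : ℝ) : HasDerivAt (circLow p) (arc s ^ (p + 1)) s :=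
  intervalIntegral.integral_hasDerivAt_right ((continuous_arc.pow _).intervalIntegrable _ _)
    ((continuous_arc.pow _).stronglyMeasurableAtFilter _ _) (continuous_arc.pow _).continuousAt

theorem hasDerivAt_circHigh (p : ℕ) (s : ℝ) : HasDerivAt (circHigh p) (-arc s ^ (p + 1)) s :=
  intervalIntegral.integral_hasDerivAt_left ((continuous_arc.pow _).intervalIntegrable _ _)
    ((continuous_arc.pow _).stronglyMeasurableAtFilter _ _) (continuous_arc.pow _).continuousAt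

theorem concaveOn_circLow (p : ℕ) : ConcaveOn ℝ (Icc (0 : ℝ) 1) (circLow p) := by
  refine AntitoneOn.concaveOn_of_deriv (convex_Icc 0 1)
    (fun s _ => (hasDerivAt_circLow p s).continuousAt.continuousWithinAt)
    (fun s _ => (hasDerivAt_circLow p s).differentiableAt.differentiableWithinAt) ?_
  intro x hx y hy hxy
  rw [interior_Icc] at hx hy
  rw [(hasDerivAt_circLow p x).deriv, (hasDerivAt_circLow p y).deriv]
  exact pow_le_pow_left₀ (Real.sqrt_nonneg _) (Real.sqrt_le_sqrt (by nlinarith [hx.1])) _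

/-- The antiderivative of a quadratic. -/
noncomputable def Q2.prim (q : Q2) (s : ℝ) : ℝ :=
  ((q.c0 : ℝ) * s + q.c1 * s ^ 2 / 2 + q.c2 * s ^ 3 / 3) / sR

theorem Q2.hasDerivAt_prim (q : Q2) (s : ℝ) : HasDerivAt q.prim (q.ev s) s := by
  show HasDerivAt (fun s => ((q.c0 : ℝ) * s + q.c1 * s ^ 2 / 2 + q.c2 * s ^ 3 / 3) / sR) _ _
  refine ((((hasDerivAt_id s).const_mul (q.c0 : ℝ)).add
    (((hasDerivAt_pow 2 s).const_mul (q.c1 : ℝ)).div_const 2)).add
    (((hasDerivAt_pow 3 s).const_mul (q.c2 : ℝ)).div_const 3)).div_const sR |>.congr_deriv ?_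
  simp only [Q2.ev]
  push_cast
  ring

variable {σ : Slab}

theorem one_sub_sq_pos {x : ℝ} (h0 : 0 ≤ x) (h1 : x < 1) : 0 < 1 - x ^ 2 := by nlinarith

/-- The power of the half circle, squared. -/
theorem arc_pow_sq (p : ℕ) {s : ℝ} (h0 : 0 ≤ s) (h1 : s ≤ 1) :
    (arc s ^ (p + 1)) ^ 2 = (1 - s ^ 2) ^ (p + 1) := by
  rw [← pow_mul, mul_comm, pow_mul, arc, Real.sq_sqrt (by nlinarith)]

theorem mem_iff {σ : Slab} {s : ℝ} :
    σ.Mem s ↔ s ∈ Icc ((σ.x0 : ℝ) / sR) ((σ.x1 : ℝ) / sR) := by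
  have S : (0 : ℝ) < sR := by norm_num
  rw [Slab.Mem, mem_Icc, div_le_iff₀ S, le_div_iff₀ S, mul_comm sR s]

theorem slab_range (h : σ.ok (p + 1) = true) :
    (σ.x0 : ℝ) / sR ∈ Icc (0 : ℝ) 1 ∧ (σ.x1 : ℝ) / sR ∈ Ico (0 : ℝ) 1 ∧
      (σ.x0 : ℝ) / sR ≤ (σ.x1 : ℝ) / sR := by
  simp only [Slab.ok, Bool.and_eq_true, decide_eq_true_eq, scl] at h
  obtain ⟨⟨⟨⟨⟨⟨⟨⟨⟨⟨h01, h0⟩, h1⟩, -⟩, -⟩, -⟩, -⟩, -⟩, -⟩, -⟩, -⟩ := h
  have a0 : (0 : ℝ) ≤ σ.x0 := by exact_mod_cast h0
  have a1 : (σ.x1 : ℝ) < sR := by rw [sR]; exact_mod_cast h1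
  have a2 : (σ.x0 : ℝ) ≤ σ.x1 := by exact_mod_cast h01
  have S : (0 : ℝ) < sR := by norm_num
  refine ⟨⟨div_nonneg a0 S.le, ?_⟩, ⟨div_nonneg (a0.trans a2) S.le, ?_⟩,
    div_le_div_of_nonneg_right a2 S.le⟩
  · rw [div_le_one S]; linarith
  · rw [div_lt_one S]; exact a1

/-- On a slab: the increments of the mass below and the equation of the mass above. -/
theorem slab_sound (h : σ.ok (p + 1) = true) :
    ((σ.cl1 : ℝ) - σ.cl0) / sR ≤
        circLow p ((σ.x1 : ℝ) / sR) - circLow p ((σ.x0 : ℝ) / sR) ∧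
      circLow p ((σ.x1 : ℝ) / sR) - circLow p ((σ.x0 : ℝ) / sR) ≤
        ((σ.cu1 : ℝ) - σ.cu0) / sR ∧
      (∀ s, σ.Mem s → circLow p s - circLow p ((σ.x0 : ℝ) / sR) ≤
        σ.up.prim s - σ.up.prim ((σ.x0 : ℝ) / sR)) ∧
      (∀ s, σ.Mem s → (σ.hiL.ev ((σ.x1 : ℝ) / sR) * arc ((σ.x1 : ℝ) / sR) ^ (p + 1) ≤
          circHigh p ((σ.x1 : ℝ) / sR) → σ.hiL.ev s * arc s ^ (p + 1) ≤ circHigh p s) ∧
        (circHigh p ((σ.x1 : ℝ) / sR) ≤
          σ.hiU.ev ((σ.x1 : ℝ) / sR) * arc ((σ.x1 : ℝ) / sR) ^ (p + 1) →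
          circHigh p s ≤ σ.hiU.ev s * arc s ^ (p + 1))) := by
  obtain ⟨hx0, hx1, h01⟩ := slab_range h
  simp only [Slab.ok, Bool.and_eq_true, decide_eq_true_eq] at h
  obtain ⟨⟨⟨⟨⟨⟨⟨⟨-, l0⟩, l1⟩, u0⟩, u1⟩, il⟩, iu⟩, eL⟩, eU⟩ := h
  set a := (σ.x0 : ℝ) / sR with ha
  set b := (σ.x1 : ℝ) / sR with hb
  have S : (0 : ℝ) < sR := by norm_num
  have hin : ∀ s ∈ Icc a b, (σ.x0 : ℝ) ≤ sR * s ∧ sR * s ≤ σ.x1 := fun s hs => mem_iff.2 hs
  have hI : ∀ s ∈ Icc a b, 0 ≤ s ∧ s < 1 :=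
    fun s hs => ⟨hx0.1.trans hs.1, hs.2.trans_lt hx1.2⟩
  have hc : ∀ s ∈ Icc a b, (arc s ^ (p + 1)) ^ 2 = (1 - s ^ 2) ^ (p + 1) := fun s hs =>
    arc_pow_sq p (hI s hs).1 (hI s hs).2.le
  have hlo : ∀ s ∈ Icc a b, σ.lo.ev s ≤ arc s ^ (p + 1) := fun s hs => by
    have n0 := nonneg1_sound l0 (hin s hs).1 (hin s hs).2
    have n1 := nonneg1_sound l1 (hin s hs).1 (hin s hs).2
    rw [Q2.eval_expr] at n0
    simp only [Expr.eval, Q2.eval_expr, eval_cirE, sub_nonneg, ← hc s hs] at n1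
    exact (pow_le_pow_iff_left₀ n0 (pow_nonneg (Real.sqrt_nonneg _) _) two_ne_zero).1 n1
  have hup : ∀ s ∈ Icc a b, arc s ^ (p + 1) ≤ σ.up.ev s := fun s hs => by
    have n0 := nonneg1_sound u0 (hin s hs).1 (hin s hs).2
    have n1 := nonneg1_sound u1 (hin s hs).1 (hin s hs).2
    rw [Q2.eval_expr] at n0
    simp only [Expr.eval, Q2.eval_expr, eval_cirE, sub_nonneg, ← hc s hs] at n1
    exact (pow_le_pow_iff_left₀ (pow_nonneg (Real.sqrt_nonneg _) _) n0 two_ne_zero).1 n1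
  have mA : MonotoneOn (fun s => circLow p s - σ.lo.prim s) (Icc a b) := by
    refine monotoneOn_of_hasDerivWithinAt_nonneg (convex_Icc a b)
      (f' := fun s => arc s ^ (p + 1) - σ.lo.ev s)
      (fun s _ => ((hasDerivAt_circLow p s).sub (σ.lo.hasDerivAt_prim s)).continuousAt.continuousWithinAt)
      (fun s _ => ((hasDerivAt_circLow p s).sub (σ.lo.hasDerivAt_prim s)).hasDerivWithinAt)
      fun s hs => sub_nonneg.2 (hlo s (interior_subset hs))
  have mB : MonotoneOn (fun s => σ.up.prim s - circLow p s) (Icc a b) := by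
    refine monotoneOn_of_hasDerivWithinAt_nonneg (convex_Icc a b)
      (f' := fun s => σ.up.ev s - arc s ^ (p + 1))
      (fun s _ => ((σ.up.hasDerivAt_prim s).sub (hasDerivAt_circLow p s)).continuousAt.continuousWithinAt)
      (fun s _ => ((σ.up.hasDerivAt_prim s).sub (hasDerivAt_circLow p s)).hasDerivWithinAt)
      fun s hs => sub_nonneg.2 (hup s (interior_subset hs))
  have hprim : ∀ q : Q2, (integ q σ.x0 σ.x1 : ℝ) = 6 * sR ^ 4 * (q.prim b - q.prim a) := fun q => by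
    simp only [integ, Q2.prim, scl, ha, hb, sR]
    push_cast
    field_simp
    ring
  have il' : (6 * (sR * sR * sR) * ((σ.cl1 : ℝ) - σ.cl0)) ≤ integ σ.lo σ.x0 σ.x1 := by
    have := (Int.cast_le (R := ℝ)).2 il
    push_cast [scl] at this
    norm_num [sR] at this ⊢
    linarith
  have iu' : (integ σ.up σ.x0 σ.x1 : ℝ) ≤ 6 * (sR * sR * sR) * ((σ.cu1 : ℝ) - σ.cu0) := by
    have := (Int.cast_le (R := ℝ)).2 iu
    push_cast [scl] at this
    norm_num [sR] at this ⊢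
    linarith
  rw [hprim] at il' iu'
  have k0 : (0 : ℝ) < 6 * (sR * sR * sR) := by positivity
  refine ⟨?_, ?_, fun s hs => ?_, fun s hs => ?_⟩
  · have h1 : ((σ.cl1 : ℝ) - σ.cl0) / sR ≤ σ.lo.prim b - σ.lo.prim a := by
      rw [div_le_iff₀ S]
      exact le_of_mul_le_mul_left (by linarith) k0
    have h2 := mA (left_mem_Icc.2 h01) (right_mem_Icc.2 h01) h01
    simp only at h2
    linarith
  · have h1 : σ.up.prim b - σ.up.prim a ≤ ((σ.cu1 : ℝ) - σ.cu0) / sR := by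
      rw [le_div_iff₀ S]
      exact le_of_mul_le_mul_left (by linarith) k0
    have h2 := mB (left_mem_Icc.2 h01) (right_mem_Icc.2 h01) h01
    simp only at h2
    linarith
  · have hs' := mem_iff.1 hs
    have h2 := mB (left_mem_Icc.2 h01) hs' hs'.1
    simp only at h2
    linarith
  · have hs' := mem_iff.1 hs
    have hd : ∀ q : Q2, ∀ x ∈ Icc a b, HasDerivAt
        (fun x => circHigh p x - q.ev x * arc x ^ (p + 1))
        (-(arc x ^ (p + 1) / (1 - x ^ 2) * (odeE (p + 1) q).eval [x])) x := fun q x hx => by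
      refine ((hasDerivAt_circHigh p x).sub ((q.hasDerivAt x).mul (hasDerivAt_arc_pow p (s := x)
        ⟨by linarith [(hI x hx).1], (hI x hx).2⟩))).congr_deriv ?_
      have : 1 - x ^ 2 ≠ 0 := (one_sub_sq_pos (hI x hx).1 (hI x hx).2).ne'
      simp only [odeE, Expr.eval, Q2.eval_expr, Q2.eval_dExpr, eval_cirE, List.getD_cons_zero]
      push_cast
      field_simp
      ring
    have hpos : ∀ x ∈ Icc a b, 0 ≤ arc x ^ (p + 1) / (1 - x ^ 2) := fun x hx =>
      div_nonneg (pow_nonneg (Real.sqrt_nonneg _) _) (one_sub_sq_pos (hI x hx).1 (hI x hx).2).le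
    constructor <;> intro hend
    · have hm : AntitoneOn (fun x => circHigh p x - σ.hiL.ev x * arc x ^ (p + 1)) (Icc a b) := by
        refine antitoneOn_of_hasDerivWithinAt_nonpos (convex_Icc a b)
          (fun x hx => (hd σ.hiL x hx).continuousAt.continuousWithinAt)
          (fun x hx => (hd σ.hiL x (interior_subset hx)).hasDerivWithinAt) fun x hx => ?_
        have hx' := hin x (interior_subset hx)
        exact neg_nonpos.2 (mul_nonneg (hpos x (interior_subset hx)) (nonneg1_sound eL hx'.1 hx'.2))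
      have := hm hs' (right_mem_Icc.2 h01) hs'.2
      simp only at this
      linarith
    · have hm : MonotoneOn (fun x => circHigh p x - σ.hiU.ev x * arc x ^ (p + 1)) (Icc a b) := by
        refine monotoneOn_of_hasDerivWithinAt_nonneg (convex_Icc a b)
          (fun x hx => (hd σ.hiU x hx).continuousAt.continuousWithinAt)
          (fun x hx => (hd σ.hiU x (interior_subset hx)).hasDerivWithinAt) fun x hx => ?_
        have hx' := hin x (interior_subset hx)
        have := nonneg1_sound eU hx'.1 hx'.2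
        simp only [Expr.eval] at this
        exact neg_nonneg.2 (mul_nonpos_of_nonneg_of_nonpos (hpos x (interior_subset hx))
          (by linarith))
      have := hm hs' (right_mem_Icc.2 h01) hs'.2
      simp only at this
      linarith

theorem at3_cast (q : Q2) (x : ℤ) : (q.at3 x : ℝ) = sR ^ 3 * q.ev ((x : ℝ) / sR) := by
  simp only [Q2.at3, Q2.ev, scl, sR]
  push_cast
  field_simp
  ring

/-- The bounds of the mass above, from the end of the chain. -/
theorem chain_high : ∀ L : List Slab, chainOk (p + 1) L = true →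
    (∀ σ ∈ L, σ.ok (p + 1) = true) → ∀ σ ∈ L, ∀ s, σ.Mem s →
      σ.hiL.ev s * arc s ^ (p + 1) ≤ circHigh p s ∧ circHigh p s ≤ σ.hiU.ev s * arc s ^ (p + 1)
  | [], h, _ => by simp [chainOk] at h
  | [σ], h, hok => by
    simp only [chainOk, Bool.and_eq_true, decide_eq_true_eq] at h
    obtain ⟨⟨h0, hL⟩, hU⟩ := h
    intro τ hτ s hs
    obtain rfl := List.mem_singleton.1 hτ
    have ho := hok τ (List.mem_singleton_self _)
    obtain ⟨-, hx1, -⟩ := slab_range ho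
    obtain ⟨-, -, -, hq⟩ := slab_sound ho
    set b := (τ.x1 : ℝ) / sR with hb
    have S : (0 : ℝ) < sR := by norm_num
    have hb0 : 0 < b := div_pos (by exact_mod_cast h0) S
    have hx : (τ.x1 : ℝ) = b * sR := by rw [hb, div_mul_cancel₀ _ S.ne']
    have hT := circHigh_ge_sq (p := p) (s := b) ⟨hx1.1, hx1.2.le⟩
    have hT' := circHigh_le (p := p) (s := b) ⟨hb0, hx1.2.le⟩
    have e : arc b ^ (p + 3) = arc b ^ (p + 1) * (1 - b ^ 2) := by
      rw [show p + 3 = p + 1 + 2 from rfl, pow_add, arc, Real.sq_sqrt (by nlinarith [hx1.1, hx1.2])]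
    have hc : 0 ≤ arc b ^ (p + 1) := pow_nonneg (Real.sqrt_nonneg _) _
    refine ⟨(hq s hs).1 (le_trans ?_ hT), (hq s hs).2 (le_trans hT' ?_)⟩
    · have := (Int.cast_le (R := ℝ)).2 hL
      rw [Int.cast_mul, at3_cast, ← hb] at this
      rw [e, mul_assoc, mul_comm (τ.hiL.ev b)]
      refine mul_le_mul_of_nonneg_left ?_ hc
      rw [← mul_div_assoc, le_div_iff₀ (by positivity)]
      push_cast [scl] at this
      rw [hx] at this
      refine le_of_mul_le_mul_left ?_ (show (0 : ℝ) < sR ^ 5 by positivity)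
      simp only [sR] at this ⊢
      linarith
    · have := (Int.cast_le (R := ℝ)).2 hU
      rw [Int.cast_mul, Int.cast_mul, Int.cast_mul, Int.cast_mul, Int.cast_mul (τ.hiU.at3 _ * _),
        Int.cast_mul (τ.hiU.at3 _), at3_cast, ← hb] at this
      rw [e, mul_assoc, mul_comm (τ.hiU.ev b)]
      refine mul_le_mul_of_nonneg_left ?_ hc
      rw [← mul_div_assoc, div_le_iff₀ (by positivity)]
      push_cast [scl] at this
      rw [hx] at this
      refine le_of_mul_le_mul_left ?_ (show (0 : ℝ) < sR ^ 7 by positivity)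
      simp only [sR] at this ⊢
      linarith
  | σ :: τ :: l, h, hok => by
    simp only [chainOk, Bool.and_eq_true, decide_eq_true_eq] at h
    obtain ⟨⟨⟨⟨⟨hx, -⟩, -⟩, hL⟩, hU⟩, hl⟩ := h
    have ih := chain_high (τ :: l) hl fun ρ hρ => hok ρ (List.mem_cons_of_mem _ hρ)
    intro ρ hρ s hs
    rcases List.mem_cons.1 hρ with rfl | hρ
    · have ho := hok ρ List.mem_cons_self
      obtain ⟨-, -, -, hq⟩ := slab_sound ho
      have ht := hok τ (List.mem_cons_of_mem _ List.mem_cons_self)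
      obtain ⟨-, -, ht01⟩ := slab_range ht
      have hm : τ.Mem ((ρ.x1 : ℝ) / sR) := mem_iff.2 ⟨by rw [hx], by rw [hx]; exact ht01⟩
      obtain ⟨i1, i2⟩ := ih τ List.mem_cons_self _ hm
      have S3 : (0 : ℝ) < sR ^ 3 := by positivity
      have e1 := (Int.cast_le (R := ℝ)).2 hL
      have e2 := (Int.cast_le (R := ℝ)).2 hU
      rw [at3_cast, at3_cast] at e1 e2
      have hc : 0 ≤ arc ((ρ.x1 : ℝ) / sR) ^ (p + 1) := pow_nonneg (Real.sqrt_nonneg _) _
      exact ⟨(hq s hs).1 ((mul_le_mul_of_nonneg_right (le_of_mul_le_mul_left e1 S3) hc).trans i1),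
        (hq s hs).2 (i2.trans (mul_le_mul_of_nonneg_right (le_of_mul_le_mul_left e2 S3) hc))⟩
    · exact ih ρ hρ s hs

/-- The bounds of the mass below, from the start of the chain. -/
theorem chain_low : ∀ L : List Slab, chainOk (p + 1) L = true →
    (∀ σ ∈ L, σ.ok (p + 1) = true) →
    (∀ σ ∈ L.head?, (σ.cl0 : ℝ) / sR ≤ circLow p ((σ.x0 : ℝ) / sR) ∧
      circLow p ((σ.x0 : ℝ) / sR) ≤ (σ.cu0 : ℝ) / sR) →
    ∀ σ ∈ L, (σ.cl0 : ℝ) / sR ≤ circLow p ((σ.x0 : ℝ) / sR) ∧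
      circLow p ((σ.x0 : ℝ) / sR) ≤ (σ.cu0 : ℝ) / sR
  | [], h, _, _ => by simp [chainOk] at h
  | [σ], _, _, h0 => fun τ hτ => by
    obtain rfl := List.mem_singleton.1 hτ
    exact h0 τ rfl
  | σ :: τ :: l, h, hok, h0 => by
    simp only [chainOk, Bool.and_eq_true, decide_eq_true_eq] at h
    obtain ⟨⟨⟨⟨⟨hx, hl1⟩, hu1⟩, -⟩, -⟩, hl⟩ := h
    intro ρ hρ
    rcases List.mem_cons.1 hρ with rfl | hρ
    · exact h0 ρ rfl
    · refine chain_low (τ :: l) hl (fun ρ hρ => hok ρ (List.mem_cons_of_mem _ hρ)) ?_ ρ hρ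
      intro ρ' hρ'
      obtain rfl : τ = ρ' := by simpa using hρ'
      obtain ⟨a1, a2, -, -⟩ := slab_sound (hok σ List.mem_cons_self)
      obtain ⟨b1, b2⟩ := h0 σ rfl
      have c1 := div_le_div_of_nonneg_right ((Int.cast_le (R := ℝ)).2 hl1)
        (show (0 : ℝ) ≤ sR by norm_num)
      have c2 := div_le_div_of_nonneg_right ((Int.cast_le (R := ℝ)).2 hu1)
        (show (0 : ℝ) ≤ sR by norm_num)
      rw [← hx]
      rw [sub_div] at a1 a2
      constructor <;> linarith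

/-- A table gives its bounds. -/
theorem tableOk_sound {L : List Slab} (h : tableOk (p + 1) L = true) :
    ∀ σ ∈ L, σ.Valid p := by
  simp only [tableOk, Bool.and_eq_true, List.all_eq_true] at h
  obtain ⟨⟨hok, hch⟩, h0⟩ := h
  have hlow := chain_low L hch hok (fun σ hσ => by
    cases L with
    | nil => simp at hσ
    | cons τ l =>
      obtain rfl : τ = σ := by simpa using hσ
      simp only [Bool.and_eq_true, decide_eq_true_eq] at h0
      obtain ⟨⟨e, l0⟩, u0⟩ := h0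
      have l0' : (τ.cl0 : ℝ) ≤ 0 := by exact_mod_cast l0
      have u0' : (0 : ℝ) ≤ τ.cu0 := by exact_mod_cast u0
      rw [e]
      simp only [Int.cast_zero, zero_div, circLow, intervalIntegral.integral_same]
      exact ⟨div_nonpos_of_nonpos_of_nonneg l0' (by norm_num), div_nonneg u0' (by norm_num)⟩)
  intro σ hσ
  obtain ⟨hx0, hx1, -⟩ := slab_range (hok σ hσ)
  obtain ⟨a1, -, a3, -⟩ := slab_sound (hok σ hσ)
  obtain ⟨b1, b2⟩ := hlow σ hσ
  refine ⟨hx0, ⟨hx1.1, hx1.2.le⟩, b1, ?_, fun s hs => ?_, chain_high L hch hok σ hσ⟩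
  · rw [sub_div] at a1
    linarith
  · have h3 := a3 s hs
    simp only [Q2.prim] at h3
    have e : ((σ.up.c0 : ℝ) * s + σ.up.c1 * s ^ 2 / 2 + σ.up.c2 * s ^ 3 / 3) / sR -
        ((σ.up.c0 : ℝ) * ((σ.x0 : ℝ) / sR) + σ.up.c1 * ((σ.x0 : ℝ) / sR) ^ 2 / 2 +
          σ.up.c2 * ((σ.x0 : ℝ) / sR) ^ 3 / 3) / sR =
        ((σ.up.c0 : ℝ) * (s - (σ.x0 : ℝ) / sR) +
          σ.up.c1 * (s ^ 2 - ((σ.x0 : ℝ) / sR) ^ 2) / 2 +
          σ.up.c2 * (s ^ 3 - ((σ.x0 : ℝ) / sR) ^ 3) / 3) / sR := by ring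
    linarith

end Vale.Agent.P237.Petty.Cor.Grid
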