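import Vale.Agent.P237.Petty.Cor.Grid.Par
import Vale.Agent.P237.Petty.Cor.Grid.Slab

/-!
# P237: the enclosures of a row
-/

namespace Vale.Agent.P237.Petty.Cor.Grid

open MeasureTheory Set
open Vale.Agent.P100.Bernstein (Expr)
open Lift (circLow circHigh)

/-- A row: the range of `s`, the ends of the box, the enclosures and two bounds of `1 / arc s`. -/
structure RowD where
  /-- left end -/
  s0 : ℤ
  /-- right end -/
  s1 : ℤ
  /-- the largest relative displacement -/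
  dh : ℤ
  /-- the largest reciprocal of the rate -/
  vm : ℤ
  /-- the enclosures -/
  R : Row
  /-- the reciprocal of the half circle, from below -/
  rl : Q2
  /-- the reciprocal of the half circle, from above -/
  ru : Q2

namespace Par

variable (D : Par)

/-- `2 nu` as an expression. -/
def nu2X : Expr := .frac (2 * D.nuN) 16384

/-- The bound of `c0` at an end of the bracket, times the square of that end. -/
def c0X (e : ℤ) : Expr :=
  .add (.mul (.mul (.num (D.p + 4)) D.nu2X) (.mul (cE e) (cE e)))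
    (.mul (.frac ((D.p + 2) * D.p) 2)
      (.sub (.num (D.p + 3)) (.mul (.num (D.p + 4)) (.mul (cE e) (cE e)))))

/-- The part of the coefficient of `δ` without `c0`, cleared, for a bound `r` of `1 / arc s`. -/
def sigX (r : Q2) : Expr :=
  .add (.sub (.mul (.mul (.var 0) cirE) (dX D.K))
      (.mul (.mul (.num (D.p + 1)) (.mul (.var 0) (.var 0))) (evX D.K)))
    (.mul (.mul (.mul (.num D.p) (cE D.G0)) (.mul (.var 0) (.var 0))) r.expr)

/-- The coefficient of `δ ^ 2`, cleared. -/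
def quadX : Expr :=
  .sub (.sub (.mul (.sub (.mul (.var 0) D.sbX') D.sbX) cirE)
      (.mul (.mul (.num (D.p + 1)) (.mul (.var 0) (.var 0))) D.sbX))
    (.mul (.mul (.mul (.frac D.nuN 16384) (.num (D.p + 4)))
      (.mul (.frac D.gN 32) (.frac D.gN 32))) (.mul (.mul (.var 0) (.var 0)) cirE))

/-- The upper mass bound of a slab. -/
def slabX (σ : Slab) : Expr :=
  .add (cE σ.cu0) (.add (.add
    (.mul (cE σ.up.c0) (.sub (.var 0) (cE σ.x0)))
    (.mul (.mul (.frac 1 2) (cE σ.up.c1))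
      (.sub (.mul (.var 0) (.var 0)) (.mul (cE σ.x0) (cE σ.x0)))))
    (.mul (.mul (.frac 1 3) (cE σ.up.c2))
      (.sub (.mul (.mul (.var 0) (.var 0)) (.var 0)) (.mul (.mul (cE σ.x0) (cE σ.x0)) (cE σ.x0)))))

/-- The slabs cover an interval. -/
def cover (a b : ℤ) : List Slab → Bool
  | [] => false
  | [σ] => decide (σ.x0 ≤ a) && decide (b ≤ σ.x1)
  | σ :: τ :: l => decide (σ.x0 ≤ a) && cover σ.x1 b (τ :: l)

/-- The bounds of a row against one slab. -/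
def slabRow (R : Row) (σ : Slab) : Bool :=
  nonneg1 (.sub σ.hiL.expr R.hiL.expr) σ.x0 σ.x1 &&
  nonneg1 (.sub R.hiU.expr σ.hiU.expr) σ.x0 σ.x1 &&
  nonneg1 (.sub R.massU.expr (slabX σ)) σ.x0 σ.x1

/-- The slabs of a row. -/
def rowSlabs (T : List Slab) (Q : RowD) : List Slab :=
  T.filter fun σ => decide (σ.x0 < Q.s1) && decide (Q.s0 < σ.x1)

/-- The check of the masses in a row. -/
def massOk (T : List Slab) (Q : RowD) : Bool :=
  cover Q.s0 Q.s1 (rowSlabs T Q) && (rowSlabs T Q).all (slabRow Q.R) &&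
  nonneg1 Q.R.hiL.expr Q.s0 Q.s1 &&
  nonneg1 Q.R.loU.expr Q.s0 Q.s1 && nonneg1 Q.R.rootU.expr Q.s0 Q.s1 &&
  nonneg1 (.sub (.mul (.pow Q.R.loU.expr 2) (.pow cirE (D.p + 1))) (.pow Q.R.massU.expr 2))
    Q.s0 Q.s1 &&
  nonneg1 (.sub (.mul (.pow Q.R.rootU.expr 4) (.pow cirE (D.p + 1))) (.pow Q.R.massU.expr 4))
    Q.s0 Q.s1

/-- The check of the coefficients in a row. -/
def coefOk (Q : RowD) : Bool :=
  decide (0 ≤ D.G0) && decide (0 < D.bl) && decide (0 ≤ Q.s0) && decide (Q.s1 < scl) &&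
  nonneg1 (.sub (.num 1) (.mul (.pow Q.rl.expr 2) cirE)) Q.s0 Q.s1 &&
  nonneg1 Q.ru.expr Q.s0 Q.s1 &&
  nonneg1 (.sub (.mul (.pow Q.ru.expr 2) cirE) (.num 1)) Q.s0 Q.s1 &&
  nonneg1 (.sub (.mul (.num D.p)
      (.add (.sub cirE (.mul (.num 3) (.mul (cE D.bu) (cE D.bu))))
        (.mul (.mul (.num 2) (cE D.bl)) (.mul (.mul (cE D.bu) (cE D.bu)) Q.rl.expr))))
    (.mul (.mul (.num 2) (.mul (cE D.bu) (cE D.bu))) Q.R.w.expr)) Q.s0 Q.s1 &&
  nonneg1 (.sub (evX D.K) Q.R.lamL.expr) Q.s0 Q.s1 &&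
  nonneg1 (.sub Q.R.lamU.expr (evX D.K)) Q.s0 Q.s1 &&
  nonneg1 (.sub Q.R.shR.expr (.mul (cE D.G0) Q.ru.expr)) Q.s0 Q.s1 &&
  nonneg1 (.sub (.mul (.mul (cE D.bl) (cE D.bl))
      (.sub (D.sigX Q.rl) (.mul Q.R.sigL.expr cirE)))
    (.mul (.mul (.mul (.var 0) (.var 0)) cirE) (D.c0X D.bl))) Q.s0 Q.s1 &&
  nonneg1 (.sub (.mul (.mul (.mul (.var 0) (.var 0)) cirE) (D.c0X D.bu))
    (.mul (.mul (cE D.bu) (cE D.bu))
      (.sub (D.sigX Q.ru) (.mul Q.R.sigU.expr cirE)))) Q.s0 Q.s1 &&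
  nonneg1 (.sub D.quadX (.mul Q.R.quD.expr cirE)) Q.s0 Q.s1 &&
  nonneg1 (.sub (.mul (.num 2) D.sbX) Q.R.mixL.expr) Q.s0 Q.s1 &&
  nonneg1 (.sub Q.R.mixU.expr (.mul (.num 2) D.sbX)) Q.s0 Q.s1

end Par

/-- What a row bounds at an abscissa. -/
structure RowAt (D : Par) (R : Row) (s : ℝ) : Prop where
  w : R.w.ev s ≤ wS D.p (arc s)
  lamL : R.lamL.ev s ≤ evE D.K s
  lamU : evE D.K s ≤ R.lamU.ev s
  shR : D.gz / arc s ≤ R.shR.ev s
  sigL : R.sigL.ev s ≤ s * (D.kF' s - potRate D.p s * D.kF s - D.c0 * s)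
  sigU : s * (D.kF' s - potRate D.p s * D.kF s - D.c0 * s) ≤ R.sigU.ev s
  quD : R.quD.ev s ≤
    s ^ 2 * (D.bF' s - potRate D.p s * D.bF s - D.nu * ((D.p : ℝ) + 4) * D.g ^ 2)
  mixL : R.mixL.ev s ≤ 2 * D.sb s
  mixU : 2 * D.sb s ≤ R.mixU.ev s
  hiL0 : 0 ≤ R.hiL.ev s
  hiL : R.hiL.ev s * arc s ^ (D.p + 1) ≤ circHigh D.p s
  hiU : circHigh D.p s ≤ R.hiU.ev s * arc s ^ (D.p + 1)
  loU : circLow D.p s ≤ R.loU.ev s * arc s ^ (D.p + 1)
  massU : circLow D.p s ≤ R.massU.ev s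
  rootU : 0 ≤ R.rootU.ev s ∧ circLow D.p s ^ 2 ≤ R.rootU.ev s ^ 2 * arc s ^ (D.p + 1)

variable {D : Par}

theorem cover_mem : ∀ (L : List Slab) (a b : ℤ), Par.cover a b L = true → ∀ s : ℝ,
    (a : ℝ) ≤ sR * s → sR * s ≤ b → ∃ σ ∈ L, σ.Mem s
  | [], _, _, h, _, _, _ => by simp [Par.cover] at h
  | [σ], a, b, h, s, h1, h2 => by
    simp only [Par.cover, Bool.and_eq_true, decide_eq_true_eq] at h
    exact ⟨σ, List.mem_singleton_self _, ((Int.cast_le (R := ℝ)).2 h.1).trans h1,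
      h2.trans ((Int.cast_le (R := ℝ)).2 h.2)⟩
  | σ :: τ :: l, a, b, h, s, h1, h2 => by
    simp only [Par.cover, Bool.and_eq_true, decide_eq_true_eq] at h
    rcases le_total (sR * s) σ.x1 with c | c
    · exact ⟨σ, List.mem_cons_self, ((Int.cast_le (R := ℝ)).2 h.1).trans h1, c⟩
    · obtain ⟨ρ, hρ, hm⟩ := cover_mem (τ :: l) _ b h.2 s c h2
      exact ⟨ρ, List.mem_cons_of_mem _ hρ, hm⟩

/-- The bound of `c0` times a square. -/
theorem c0X_eval (e : ℤ) (s : ℝ) :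
    (D.c0X e).eval [s] = ((D.p : ℝ) + 4) * (2 * D.nu) * ((e : ℝ) / sR) ^ 2 +
      ((D.p : ℝ) + 2) * D.p / 2 *
        ((D.p : ℝ) + 3 - ((D.p : ℝ) + 4) * ((e : ℝ) / sR) ^ 2) := by
  simp only [Par.c0X, Par.nu2X, Par.nu, Expr.eval, eval_cE]
  push_cast
  ring

theorem c0_eq (D : Par) :
    D.c0 * Ident.b0 D.p ^ 2 = ((D.p : ℝ) + 4) * (2 * D.nu) * Ident.b0 D.p ^ 2 +
      ((D.p : ℝ) + 2) * D.p / 2 * ((D.p : ℝ) + 3 - ((D.p : ℝ) + 4) * Ident.b0 D.p ^ 2) := by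
  have hb := (Ident.b0_pos D.p).ne'
  have h4 : (D.p : ℝ) + 4 ≠ 0 := by positivity
  rw [Par.c0, sqCoef, nuS, Ident.muMin]
  field_simp
  ring

theorem sigX_eval (D : Par) (r : Q2) (s : ℝ) :
    (D.sigX r).eval [s] = s * (1 - s ^ 2) * dE D.K s -
      ((D.p : ℝ) + 1) * s ^ 2 * evE D.K s + (D.p : ℝ) * D.gz * s ^ 2 * r.ev s := by
  simp only [Par.sigX, Par.gz, Expr.eval, eval_evX, eval_dX, eval_cE, eval_cirE, Q2.eval_expr,
    List.getD_cons_zero]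
  push_cast
  ring

theorem le_inv_of_sq {x c : ℝ} (hc : 0 < c) (h : x ^ 2 * c ^ 2 ≤ 1) : x ≤ 1 / c := by
  rw [le_div_iff₀ hc]
  refine le_of_pow_le_pow_left₀ two_ne_zero zero_le_one ?_
  rw [mul_pow, one_pow]
  exact h

theorem inv_le_of_sq {x c : ℝ} (hc : 0 < c) (hx : 0 ≤ x) (h : 1 ≤ x ^ 2 * c ^ 2) : 1 / c ≤ x := by
  rw [div_le_iff₀ hc]
  refine le_of_pow_le_pow_left₀ two_ne_zero (mul_nonneg hx hc.le) ?_
  rw [mul_pow, one_pow]
  exact h

theorem sig_clear (D : Par) {s c : ℝ} (hc : 0 < c) (hcs : arc s = c) (h : c ^ 2 = 1 - s ^ 2) :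
    s * (D.kF' s - potRate D.p s * D.kF s - D.c0 * s) * (1 - s ^ 2) =
      s * (1 - s ^ 2) * dE D.K s - ((D.p : ℝ) + 1) * s ^ 2 * evE D.K s +
        (D.p : ℝ) * D.gz * s ^ 2 * (1 / c) - D.c0 * s ^ 2 * (1 - s ^ 2) := by
  simp only [Par.kF', Par.kF, potRate, hcs, ← h]
  field_simp
  ring

theorem w_eq (p : ℕ) {s c : ℝ} (hc : 0 < c) (h : c ^ 2 = 1 - s ^ 2) :
    wS p c = (p : ℝ) / 2 * ((1 - s ^ 2) / Ident.b0 p ^ 2 - 3 + 2 * Ident.b0 p * (1 / c)) := by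
  have := (Ident.b0_pos p).ne'
  rw [wS, sqCoef, ← h]
  field_simp
  ring

theorem c0_lower (D : Par) {L : ℝ} (hL : 0 ≤ L) (hb : L ≤ Ident.b0 D.p) :
    D.c0 * L ^ 2 ≤ ((D.p : ℝ) + 4) * (2 * D.nu) * L ^ 2 +
      ((D.p : ℝ) + 2) * D.p / 2 * ((D.p : ℝ) + 3 - ((D.p : ℝ) + 4) * L ^ 2) := by
  refine le_of_mul_le_mul_right ?_ (pow_pos (Ident.b0_pos D.p) 2)
  rw [mul_right_comm, c0_eq D]
  have := mul_le_mul_of_nonneg_left (pow_le_pow_left₀ hL hb 2)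
    (show (0 : ℝ) ≤ ((D.p : ℝ) + 2) * D.p / 2 * ((D.p : ℝ) + 3) by positivity)
  linarith

theorem c0_upper (D : Par) {U : ℝ} (hb : Ident.b0 D.p ≤ U) :
    ((D.p : ℝ) + 4) * (2 * D.nu) * U ^ 2 +
      ((D.p : ℝ) + 2) * D.p / 2 * ((D.p : ℝ) + 3 - ((D.p : ℝ) + 4) * U ^ 2) ≤ D.c0 * U ^ 2 := by
  refine le_of_mul_le_mul_right ?_ (pow_pos (Ident.b0_pos D.p) 2)
  rw [mul_right_comm D.c0, c0_eq D]
  have := mul_le_mul_of_nonneg_left (pow_le_pow_left₀ (Ident.b0_pos D.p).le hb 2)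
    (show (0 : ℝ) ≤ ((D.p : ℝ) + 2) * D.p / 2 * ((D.p : ℝ) + 3) by positivity)
  linarith

theorem row_coef (hD : D.Bracket) {Q : RowD} (h : D.coefOk Q = true) {s : ℝ}
    (h1 : (Q.s0 : ℝ) ≤ sR * s) (h2 : sR * s ≤ Q.s1) (hs : 0 < s) :
    Q.R.w.ev s ≤ wS D.p (arc s) ∧ (Q.R.lamL.ev s ≤ evE D.K s ∧ evE D.K s ≤ Q.R.lamU.ev s) ∧
    D.gz / arc s ≤ Q.R.shR.ev s ∧
    (Q.R.sigL.ev s ≤ s * (D.kF' s - potRate D.p s * D.kF s - D.c0 * s) ∧
      s * (D.kF' s - potRate D.p s * D.kF s - D.c0 * s) ≤ Q.R.sigU.ev s) ∧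
    Q.R.quD.ev s ≤
      s ^ 2 * (D.bF' s - potRate D.p s * D.bF s - D.nu * ((D.p : ℝ) + 4) * D.g ^ 2) ∧
    (Q.R.mixL.ev s ≤ 2 * D.sb s ∧ 2 * D.sb s ≤ Q.R.mixU.ev s) := by
  simp only [Par.coefOk, Bool.and_eq_true, decide_eq_true_eq] at h
  obtain ⟨⟨⟨⟨⟨⟨⟨⟨⟨⟨⟨⟨⟨⟨⟨hG, hbl⟩, -⟩, hs1⟩, er⟩, eu0⟩, eu⟩, ew⟩, el⟩, el'⟩, esh⟩, esl⟩, esu⟩, eq⟩,
    em⟩, em'⟩ := h
  have hsc : (Q.s1 : ℝ) < sR := by
    have := (Int.cast_lt (R := ℝ)).2 hs1
    simpa [scl, sR] using this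
  have hs' : s < 1 := by
    have h3 := h2.trans_lt hsc
    norm_num [sR] at h3
    linarith
  have hz : 0 < 1 - s ^ 2 := one_sub_sq_pos hs.le hs'
  have hca : 0 < arc s := Real.sqrt_pos.2 hz
  have hc2 : arc s ^ 2 = 1 - s ^ 2 := Real.sq_sqrt hz.le
  have N : ∀ {e : Expr}, nonneg1 e Q.s0 Q.s1 = true → 0 ≤ e.eval [s] :=
    fun he => nonneg1_sound he h1 h2
  obtain ⟨hb, hbl', hbu'⟩ := hD
  set b := Ident.b0 D.p with hbdef
  have hbp : 0 < b := Ident.b0_pos D.p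
  set L := (D.bl : ℝ) / sR with hL
  set U := (D.bu : ℝ) / sR with hU
  have hL0 : 0 < L := div_pos (by exact_mod_cast hb) (by norm_num)
  have hG0 : 0 ≤ D.gz := div_nonneg (by exact_mod_cast hG) (by norm_num)
  have rL : Q.rl.ev s ≤ 1 / arc s := by
    have n := N er
    simp only [Expr.eval, Q2.eval_expr, eval_cirE, Int.cast_one, ← hc2, sub_nonneg] at n
    exact le_inv_of_sq hca n
  have rU : 1 / arc s ≤ Q.ru.ev s := by
    have n0 := N eu0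
    have n := N eu
    rw [Q2.eval_expr] at n0
    simp only [Expr.eval, Q2.eval_expr, eval_cirE, Int.cast_one, ← hc2, sub_nonneg] at n
    exact inv_le_of_sq hca n0 n
  refine ⟨?_, ⟨?_, ?_⟩, ?_, ⟨?_, ?_⟩, ?_, ?_, ?_⟩
  · have n := N ew
    simp only [Expr.eval, Q2.eval_expr, eval_cE, eval_cirE] at n
    rw [← hL, ← hU] at n
    push_cast at n
    have hU0 : 0 < U := hL0.trans_le (hbl'.trans hbu')
    rw [w_eq D.p hca hc2]
    have k1 : (1 - s ^ 2) / U ^ 2 ≤ (1 - s ^ 2) / b ^ 2 :=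
      div_le_div_of_nonneg_left hz.le (by positivity) (pow_le_pow_left₀ hbp.le hbu' 2)
    have k2 : L * Q.rl.ev s ≤ b * (1 / arc s) :=
      (mul_le_mul_of_nonneg_left rL hL0.le).trans
        (mul_le_mul_of_nonneg_right hbl' (by positivity))
    have k3 : Q.R.w.ev s ≤ (D.p : ℝ) / 2 * ((1 - s ^ 2) / U ^ 2 - 3 + 2 * (L * Q.rl.ev s)) := by
      rw [div_mul_eq_mul_div, le_div_iff₀ (by norm_num : (0 : ℝ) < 2)]
      refine le_of_mul_le_mul_left ?_ (pow_pos hU0 2)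
      field_simp
      linarith
    refine k3.trans (mul_le_mul_of_nonneg_left ?_ (by positivity))
    linarith
  · have n := N el
    simp only [Expr.eval, Q2.eval_expr, eval_evX] at n
    linarith
  · have n := N el'
    simp only [Expr.eval, Q2.eval_expr, eval_evX] at n
    linarith
  · have n := N esh
    simp only [Expr.eval, Q2.eval_expr, eval_cE, sub_nonneg] at n
    refine le_trans ?_ n
    rw [Par.gz, div_eq_mul_one_div]
    exact mul_le_mul_of_nonneg_left rU hG0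
  · have n := N esl
    simp only [Expr.eval, Q2.eval_expr, eval_cE, eval_cirE, c0X_eval, sigX_eval,
      List.getD_cons_zero, sub_nonneg] at n
    rw [← hL] at n
    have k1 := mul_le_mul_of_nonneg_left rL
      (show (0 : ℝ) ≤ (D.p : ℝ) * D.gz * s ^ 2 by positivity)
    have k2 := mul_le_mul_of_nonneg_left (c0_lower D hL0.le hbl')
      (show (0 : ℝ) ≤ s ^ 2 * (1 - s ^ 2) by positivity)
    refine le_of_mul_le_mul_right ?_ hz
    rw [sig_clear D hca rfl hc2]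
    refine le_of_mul_le_mul_left ?_ (mul_pos hL0 hL0)
    have k3 := mul_le_mul_of_nonneg_left k1 (mul_pos hL0 hL0).le
    linarith
  · have n := N esu
    simp only [Expr.eval, Q2.eval_expr, eval_cE, eval_cirE, c0X_eval, sigX_eval,
      List.getD_cons_zero, sub_nonneg] at n
    rw [← hU] at n
    have hU0 : 0 < U := hL0.trans_le (hbl'.trans hbu')
    have k1 := mul_le_mul_of_nonneg_left rU
      (show (0 : ℝ) ≤ (D.p : ℝ) * D.gz * s ^ 2 by positivity)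
    have k2 := mul_le_mul_of_nonneg_left (c0_upper D hbu')
      (show (0 : ℝ) ≤ s ^ 2 * (1 - s ^ 2) by positivity)
    refine le_of_mul_le_mul_right ?_ hz
    rw [sig_clear D hca rfl hc2]
    refine le_of_mul_le_mul_left ?_ (mul_pos hU0 hU0)
    have k3 := mul_le_mul_of_nonneg_left k1 (mul_pos hU0 hU0).le
    linarith
  · have n := N eq
    simp only [Par.quadX, Expr.eval, Q2.eval_expr, eval_cirE, D.eval_sbX, D.eval_sbX',
      List.getD_cons_zero] at n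
    push_cast at n
    refine le_of_mul_le_mul_right ?_ hz
    have e : s ^ 2 * (D.bF' s - potRate D.p s * D.bF s - D.nu * ((D.p : ℝ) + 4) * D.g ^ 2) *
        (1 - s ^ 2) = (s * D.sb' s - D.sb s) * (1 - s ^ 2) -
          ((D.p : ℝ) + 1) * s ^ 2 * D.sb s -
          D.nu * ((D.p : ℝ) + 4) * D.g ^ 2 * (s ^ 2 * (1 - s ^ 2)) := by
      simp only [Par.bF', Par.bF, potRate]
      field_simp
    rw [e]
    simp only [Par.nu, Par.g]
    linarith
  · have n := N em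
    simp only [Expr.eval, Q2.eval_expr, D.eval_sbX] at n
    push_cast at n
    linarith
  · have n := N em'
    simp only [Expr.eval, Q2.eval_expr, D.eval_sbX] at n
    push_cast at n
    linarith

/-- The bounds of a row at one of its points. -/
theorem rowAt (hD : D.Bracket) {T : List Slab} (hT : ∀ σ ∈ T, σ.Valid D.p) {Q : RowD}
    (hc : D.coefOk Q = true) (hm : D.massOk T Q = true) {s : ℝ}
    (h1 : (Q.s0 : ℝ) ≤ sR * s) (h2 : sR * s ≤ Q.s1) (hs : 0 < s) (hs1 : s < 1) :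
    RowAt D Q.R s := by
  obtain ⟨hw, ⟨hl, hl'⟩, hsh, ⟨hsl, hsu⟩, hq, hx, hx'⟩ := row_coef hD hc h1 h2 hs
  simp only [Par.massOk, Bool.and_eq_true, List.all_eq_true] at hm
  obtain ⟨⟨⟨⟨⟨⟨hcov, hall⟩, e0⟩, l0⟩, r0⟩, e1⟩, e2⟩ := hm
  have N : ∀ {e : Expr}, nonneg1 e Q.s0 Q.s1 = true → 0 ≤ e.eval [s] :=
    fun he => nonneg1_sound he h1 h2
  obtain ⟨σ, hσ, hmem⟩ := cover_mem _ _ _ hcov s h1 h2
  have hv := hT σ (List.mem_filter.1 hσ).1
  have hrow := hall σ hσ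
  simp only [Par.slabRow, Bool.and_eq_true] at hrow
  obtain ⟨⟨a1, a2⟩, a3⟩ := hrow
  have b1 := nonneg1_sound a1 hmem.1 hmem.2
  have b2 := nonneg1_sound a2 hmem.1 hmem.2
  have b3 := nonneg1_sound a3 hmem.1 hmem.2
  simp only [Expr.eval, Q2.eval_expr, sub_nonneg] at b1 b2
  obtain ⟨i1, i2⟩ := hv.high s hmem
  have hc0 : 0 ≤ arc s ^ (D.p + 1) := pow_nonneg (Real.sqrt_nonneg _) _
  have hC0 : 0 ≤ circLow D.p s :=
    intervalIntegral.integral_nonneg hs.le fun v _ => pow_nonneg (Real.sqrt_nonneg _) _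
  have hmass : circLow D.p s ≤ Q.R.massU.ev s := by
    refine (hv.low s hmem).trans ?_
    simp only [Par.slabX, Expr.eval, Q2.eval_expr, eval_cE, List.getD_cons_zero] at b3
    push_cast at b3
    refine le_trans (le_of_eq ?_) (sub_nonneg.1 b3)
    ring
  have e3 := arc_pow_sq D.p hs.le hs1.le
  have n0 := N e0
  have nl := N l0
  have nr := N r0
  have n1 := N e1
  have n2 := N e2
  rw [Q2.eval_expr] at n0 nl nr
  simp only [Expr.eval, Q2.eval_expr, eval_cirE, sub_nonneg, ← e3] at n1 n2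
  refine ⟨hw, hl, hl', hsh, hsl, hsu, hq, hx, hx', n0,
    (mul_le_mul_of_nonneg_right b1 hc0).trans i1, i2.trans (mul_le_mul_of_nonneg_right b2 hc0),
    ?_, hmass, nr, ?_⟩
  · refine hmass.trans ((pow_le_pow_iff_left₀ (hC0.trans hmass) (mul_nonneg nl hc0)
      two_ne_zero).1 (n1.trans (le_of_eq ?_)))
    ring
  · refine (pow_le_pow_left₀ hC0 hmass 2).trans
      ((pow_le_pow_iff_left₀ (sq_nonneg _) (mul_nonneg (sq_nonneg _) hc0) two_ne_zero).1 ?_)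
    refine le_trans (le_of_eq ?_) (n2.trans (le_of_eq ?_)) <;> ring

end Vale.Agent.P237.Petty.Cor.Grid
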