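import Vale.Agent.P237.Petty.Cor.Grid.Rows
import Vale.Agent.P237.Petty.Cor.Grid.Consts

/-!
# P237: the facts of a leaf on a state
-/

namespace Vale.Agent.P237.Petty.Cor.Grid

open MeasureTheory Set
open Lift (circLow circHigh)

variable {D : Par}

/-- The cancelled cell of the parameters. -/
noncomputable def Par.cell (D : Par) (ell s t a r : ℝ) : ℝ :=
  cancelExpr D.p D.gam D.nu ell (fun s t => s + D.g * (s - t)) (fun _ _ => 1 + D.g)
    (fun _ _ => -D.g) (quadPot D.kF D.bF) (quadPotS D.kF D.kF' D.bF D.bF') (quadPotT D.kF D.bF)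
    s t a r

theorem gam_mul (D : Par) : D.gam * Ident.b0 D.p = ((D.p : ℝ) + 1) * D.gz := by
  rw [Par.gam, div_mul_cancel₀ _ (Ident.b0_pos D.p).ne']

/-- The cell in the coordinates of the leaves. -/
theorem cell_eq {top ell s t a r q : ℝ} (h : FlatState D.p top s t a r q) :
    D.cell ell s t a r = ell * wS D.p (arc s) +
      ((D.p : ℝ) + 1) * D.gz * (1 / a - 1 / arc s) + D.kF s * (1 / r - 1) +
      (D.kF' s - potRate D.p s * D.kF s - D.c0 * s) * (t - s) +
      (D.bF' s - potRate D.p s * D.bF s +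
        D.nu * (2 * D.g * (1 + D.g) / (1 / r) - ((D.p : ℝ) + 4) * D.g ^ 2)) * (t - s) ^ 2 +
      (2 * D.bF s - 2 * D.nu * s * (D.g ^ 2 - 1) / (1 / r)) * ((1 / r - 1) * (t - s)) +
      2 * D.nu * (1 + D.g) * (1 - s ^ 2) * ((1 / r - 1) ^ 2 / (1 / r)) := by
  have hr := h.state.rate_pos.ne'
  have e : D.nu * testDef D.p D.g s t r +
      nullPart D.p (quadPot D.kF D.bF) (quadPotS D.kF D.kF' D.bF D.bF') (quadPotT D.kF D.bF) s t r =
      D.kF s * (1 / r - 1) + (D.kF' s - potRate D.p s * D.kF s) * (t - s) +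
      2 * D.nu * (1 + D.g) * (1 - s ^ 2) * ((1 / r - 1) ^ 2 / (1 / r)) +
      (D.bF' s - potRate D.p s * D.bF s +
        D.nu * (2 * D.g * (1 + D.g) / (1 / r) - ((D.p : ℝ) + 4) * D.g ^ 2)) * (t - s) ^ 2 +
      (2 * D.bF s - 2 * D.nu * s * (D.g ^ 2 - 1) / (1 / r)) * ((1 / r - 1) * (t - s)) := by
    simp only [testDef, nullPart, quadPot, quadPotS, quadPotT, potRate]
    field_simp
    ring
  simp only [Par.cell, cancelExpr, testGen_affine D.g s t hr, gam_mul]
  rw [show 2 * (sqCoef D.p + ((D.p : ℝ) + 4) * (D.nu - nuS D.p)) = D.c0 from rfl]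
  linear_combination e

/-- A root of the reciprocal of the rate. -/
theorem root_rate {top s t a r q : ℝ} (h : FlatState D.p top s t a r q) :
    (arc s / a) ^ (D.p + 1) = 1 / r := by
  rw [h.state.rate_eq, one_div_div, div_pow]

theorem root_unique {top s t a r q w : ℝ} (h : FlatState D.p top s t a r q) (hw : 0 ≤ w)
    (he : w ^ (D.p + 1) = 1 / r) : w = arc s / a :=
  (pow_left_inj₀ hw (div_nonneg h.state.arc_pos'.le h.state.pos.le) (Nat.succ_ne_zero _)).1
    (he.trans (root_rate h).symm)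

/-- The rows, the constants and a state give the facts of the leaves. -/
theorem facts_of_state {k : Cst} {l0 l1 : ℤ} (hc : cstOk D k l0 l1 = true) {R : Row}
    {ell s t a r q : ℝ} (h : FlatState D.p ell s t a r q) (hR : RowAt D R s) (hG : 0 ≤ D.gz)
    (hl0 : (l0 : ℝ) ≤ sR * ell) (hl1 : sR * ell ≤ l1) :
    Facts k R (circLow D.p) ⟨s, (t - s) / s, 1 / r, ell⟩
      ((1 / r) * (D.cell ell s t a r - (ell * R.tA.ev s - R.tB.ev s))) := by
  simp only [cstOk, Bool.and_eq_true, decide_eq_true_eq] at hc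
  obtain ⟨⟨⟨⟨⟨⟨hm, hC⟩, hD⟩, hM⟩, xC⟩, xV⟩, xR⟩ := hc
  have hs := h.state.s_mem
  have hs0 := hs.1.ne'
  have hr := h.state.rate_pos
  have hv : 0 < 1 / r := one_div_pos.2 hr
  have ha := h.state.pos
  have hca := h.state.arc_pos'
  have hc := pow_pos hca (D.p + 1)
  have hz : 0 < 1 - s ^ 2 := one_sub_sq_pos hs.1.le hs.2
  have hc2 : arc s ^ 2 = 1 - s ^ 2 := Real.sq_sqrt hz.le
  have hm' : (k.m : ℝ) = (D.p : ℝ) + 1 := by rw [hm]; push_cast; ring
  have hell : 0 ≤ ell := by
    simp only [expOk, Bool.and_eq_true, decide_eq_true_eq] at xV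
    have : (0 : ℝ) ≤ l0 := by exact_mod_cast xV.1.1.1
    norm_num [sR] at hl0
    linarith
  have eC := expOk_sound xC hl0 hl1
  have eV := expOk_sound xV hl0 hl1
  have eR := expOk_sound xR hl0 hl1
  push_cast at eC eV eR
  rw [hm'] at eC
  norm_num at eV
  have et : s * (1 + (t - s) / s) = t := by field_simp; ring
  have eaa : a ^ (D.p + 1) = arc s ^ (D.p + 1) / (1 / r) := by
    rw [h.state.rate_eq]; field_simp
  have hT : 0 ≤ circHigh D.p s :=
    intervalIntegral.integral_nonneg hs.2.le fun v _ => pow_nonneg (Real.sqrt_nonneg _) _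
  have hC0 : 0 ≤ circLow D.p s :=
    intervalIntegral.integral_nonneg hs.1.le fun v _ => pow_nonneg (Real.sqrt_nonneg _) _
  have hU0 : 0 ≤ R.hiU.ev s := nonneg_of_mul_nonneg_left (hT.trans hR.hiU) hc
  have hL0 : 0 ≤ R.loU.ev s := nonneg_of_mul_nonneg_left (hC0.trans hR.loU) hc
  refine ⟨hv, fun P hP0 hP => ?_, ?_, ?_, ?_, ?_, ?_, ?_, fun line hline => ?_, fun A => ?_,
    fun σ P hσ hsh => ?_⟩
  · simp only [cutV, Pnt.tp, et]
    have ht := h.state.t_mem
    have hct : 0 ≤ 1 - t ^ 2 := by nlinarith [ht.1, ht.2]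
    have h1 : arc t ≤ Real.exp (ell / ((D.p : ℝ) + 1)) * a := by
      refine (pow_le_pow_iff_left₀ (Real.sqrt_nonneg _) (by positivity) (Nat.succ_ne_zero D.p)).1 ?_
      refine h.cut.trans (le_of_eq ?_)
      rw [mul_pow, ← Real.exp_nat_mul]
      push_cast
      field_simp
    have h2 : a ≤ P.rt.ev (1 / r) * arc s := by
      rw [← div_le_iff₀ hca]
      refine (pow_le_pow_iff_left₀ (by positivity) hP0 (Nat.succ_ne_zero D.p)).1 ?_
      rw [hm] at hP
      rw [div_pow, eaa, div_div_cancel_left' hc.ne', inv_le_iff_one_le_mul₀ hv]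
      exact hP
    have h3 := pow_le_pow_left₀ (Real.sqrt_nonneg _)
      (h1.trans (mul_le_mul_of_nonneg_left h2 (Real.exp_pos _).le)) 2
    simp only [arc, Real.sq_sqrt hct] at h3 hc2
    rw [mul_pow, mul_pow, Real.sq_sqrt hz.le, ← Real.exp_nat_mul] at h3
    push_cast at h3
    rw [show 2 * (ell / ((D.p : ℝ) + 1)) = 2 / ((D.p : ℝ) + 1) * ell by ring] at h3
    have h4 := mul_le_mul_of_nonneg_right eC
      (mul_nonneg (sq_nonneg (P.rt.ev (1 / r))) hz.le)
    linarith
  · simp only [rectV, Pnt.tp, et]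
    have h1 := hR.hiL.trans h.state.high_rect
    rw [eaa, mul_div_assoc', le_div_iff₀ hv] at h1
    refine le_of_mul_le_mul_right ?_ hc
    linarith
  · simp only [highV, Pnt.tp, et, hm']
    have h1 := h.state.high.trans (mul_le_mul_of_nonneg_left hR.hiU
      (show (0 : ℝ) ≤ (D.p : ℝ) + 2 by positivity))
    rw [eaa, div_mul_eq_mul_div, div_le_iff₀ hv] at h1
    refine le_of_mul_le_mul_right ?_ hc
    linarith
  · simp only [sqV, Pnt.tp, et, hm']
    have h1 := h.state.sq_le
    rw [div_eq_mul_one_div] at h1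
    linarith
  · simp only [lowV, Pnt.tp, et]
    have h1 := h.state.low.trans hR.loU
    rw [eaa, mul_div_assoc', div_le_iff₀ hv] at h1
    refine le_of_mul_le_mul_right ?_ hc
    linarith
  · simp only [dispV]
    have h1 := (h.disp_ge hell).trans
      (mul_le_mul_of_nonneg_left hR.hiU (sub_nonneg.2 (Real.one_le_exp hell)))
    have h2 : s - t ≤ (Real.exp ell - 1) * R.hiU.ev s := le_of_mul_le_mul_right (by linarith) hc
    have h3 := mul_le_mul_of_nonneg_right (sub_le_sub_right eV 1) hU0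
    rw [show s * ((t - s) / s) = t - s by field_simp]
    linarith
  · simp only [hazV]
    have h1 := h.inv_rate_le_max hell
    have hTp := circHigh_pos D.p ⟨hs.1.le, hs.2⟩
    rw [show Real.exp ell * (1 + (1 - Real.exp (-ell)) * circLow D.p s / circHigh D.p s) =
      Real.exp ell + (Real.exp ell - Real.exp ell * Real.exp (-ell)) *
        (circLow D.p s / circHigh D.p s) by ring, ← Real.exp_add, add_neg_cancel, Real.exp_zero]
      at h1
    have hE := sub_nonneg.2 (Real.one_le_exp hell)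
    have h2 : circLow D.p s / circHigh D.p s * R.hiL.ev s ≤ R.loU.ev s := by
      rw [div_mul_eq_mul_div, div_le_iff₀ hTp]
      refine le_of_mul_le_mul_right ?_ hc
      have := mul_le_mul hR.loU hR.hiL (mul_nonneg hR.hiL0 hc.le) (mul_nonneg hL0 hc.le)
      linarith
    have h3 := mul_le_mul_of_nonneg_right h1 hR.hiL0
    have h4 := mul_le_mul_of_nonneg_left h2 hE
    have h5 := mul_le_mul_of_nonneg_right (sub_le_sub_right eV 1) hL0
    have h6 := mul_le_mul_of_nonneg_right eV hR.hiL0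
    linarith
  · simp only [pinV, Pnt.tp, et] at hline ⊢
    have h1 := (hline.trans h.low).trans (mul_le_mul_of_nonneg_left hR.massU (Real.exp_pos ell).le)
    have h2 := mul_le_mul_of_nonneg_right eV (hC0.trans hR.massU)
    linarith
  · simp only [geoV, Pnt.tp, et]
    have ht := h.state.t_mem
    have h1 := h.chord_geo (u := 0) ⟨le_rfl, ht.1⟩
    have e0 : circLow D.p 0 = 0 := intervalIntegral.integral_same
    rw [show arc 0 = 1 by simp [arc], one_pow, Real.log_one, e0, mul_zero, sub_zero, sub_zero] at h1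
    have hh : 0 < a ^ (D.p + 1) := pow_pos ha _
    set E := Real.exp ((0 - ell - Real.log (a ^ (D.p + 1))) / 2) with hE
    have hE2 : E ^ 2 * (Real.exp ell * a ^ (D.p + 1)) = 1 := by
      rw [hE, ← Real.exp_nat_mul, ← Real.exp_log hh, ← Real.exp_add, ← Real.exp_add, Real.log_exp]
      push_cast
      ring_nf
      exact Real.exp_zero
    have hEp : 0 < E := Real.exp_pos _
    have h2 := pow_le_pow_left₀ (mul_nonneg (mul_nonneg ht.1.le hh.le) hEp.le) h1 2
    rw [mul_pow, mul_pow] at h2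
    have h3 : t ^ 2 ≤ R.rootU.ev s ^ 2 * Real.exp ell * (1 / r) := by
      have h4 := mul_le_mul_of_nonneg_left (h2.trans hR.rootU.2) (Real.exp_pos ell).le
      refine le_of_mul_le_mul_right ?_ hh
      calc t ^ 2 * a ^ (D.p + 1) = t ^ 2 * (a ^ (D.p + 1)) ^ 2 *
            (E ^ 2 * (Real.exp ell * a ^ (D.p + 1))) / a ^ (D.p + 1) := by rw [hE2]; field_simp
        _ = Real.exp ell * (t ^ 2 * (a ^ (D.p + 1)) ^ 2 * E ^ 2) := by field_simp
        _ ≤ Real.exp ell * (R.rootU.ev s ^ 2 * arc s ^ (D.p + 1)) := h4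
        _ = _ := by rw [eaa]; field_simp
    have hh2 : Real.exp (ell / 2) ≤ k.eRoot.ev ell := by
      refine le_trans (le_of_eq ?_) eR
      ring_nf
    have hr0 := hR.rootU.1
    have he2 : Real.exp ell = Real.exp (ell / 2) ^ 2 := by
      rw [← Real.exp_nat_mul]; ring_nf
    set y := Real.sqrt (1 / r) with hy
    have hy2 : y ^ 2 = 1 / r := Real.sq_sqrt hv.le
    have hy0 : 0 ≤ y := Real.sqrt_nonneg _
    have h5 : t ≤ R.rootU.ev s * Real.exp (ell / 2) * y := by
      refine le_of_pow_le_pow_left₀ two_ne_zero (by positivity) ?_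
      rw [mul_pow, mul_pow, ← he2, hy2]
      exact h3
    have hA : (0 : ℝ) ≤ (A : ℝ) / sR := by positivity
    have h6 := mul_le_mul_of_nonneg_left h5 (mul_nonneg zero_le_two hA)
    have h7 := mul_le_mul_of_nonneg_left hh2
      (mul_nonneg (mul_nonneg zero_le_two hA) (mul_nonneg hr0 hy0))
    have h8 := mul_le_mul_of_nonneg_right (two_mul_le_add_sq ((A : ℝ) / sR) y)
      (mul_nonneg hr0 ((Real.exp_pos _).le.trans hh2))
    rw [hy2] at h8
    linarith
  · have hd : (t - s) = s * ((t - s) / s) := by field_simp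
    set δ := (t - s) / s with hδ
    set v := 1 / r with hvd
    have hw := hsh (arc s / a) (div_nonneg hca.le ha.le) (by rw [hm]; exact root_rate h)
    rw [hm'] at hw
    have kC : (k.kC : ℝ) / sR = 2 * D.nu * (1 + D.g) := by
      rw [hC, Par.nu, Par.g]; push_cast [sR]; ring
    have kD : (k.kD : ℝ) / sR = 2 * D.nu * D.g * (1 + D.g) := by
      rw [hD, Par.nu, Par.g]; push_cast [sR]; ring
    have kM : (k.kM : ℝ) / sR = 2 * D.nu * (D.g ^ 2 - 1) := by
      rw [hM, Par.nu, Par.g]; push_cast [sR]; ring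
    have hX : v * D.cell ell s t a r = ell * v * wS D.p (arc s) +
        v * (evE D.K s * (v - 1)) +
        D.gz / arc s * ((((D.p : ℝ) + 1) * (arc s / a - 1)) - (v - 1)) * v +
        s * (D.kF' s - potRate D.p s * D.kF s - D.c0 * s) * δ * v +
        s ^ 2 * (D.bF' s - potRate D.p s * D.bF s - D.nu * ((D.p : ℝ) + 4) * D.g ^ 2) * δ ^ 2 * v +
        2 * D.sb s * δ * (v - 1) * v + 2 * D.nu * (1 + D.g) * ((1 - s ^ 2) * (v - 1) ^ 2) +
        2 * D.nu * D.g * (1 + D.g) * (s ^ 2 * δ ^ 2) -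
        2 * D.nu * (D.g ^ 2 - 1) * (s ^ 2 * δ * (v - 1)) := by
      have hb : 2 * D.sb s = 2 * (s * D.bF s) := by rw [Par.bF]; field_simp
      rw [cell_eq h, ← hvd, hd, hb, Par.kF]
      have := hca.ne'
      have := ha.ne'
      have := hv.ne'
      field_simp
      ring
    simp only [goalV, kC, kD, kM]
    rw [mul_sub v (D.cell ell s t a r), hX]
    have g0 := mul_le_mul_of_nonneg_right hR.w (mul_nonneg hell hv.le)
    obtain ⟨hσd, hσv, hσm⟩ : (R.sig σ).ev s * δ ≤
          s * (D.kF' s - potRate D.p s * D.kF s - D.c0 * s) * δ ∧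
        (R.lam σ).ev s * (v - 1) ≤ evE D.K s * (v - 1) ∧
        (R.mix σ).ev s * (δ * (v - 1)) ≤ 2 * D.sb s * (δ * (v - 1)) := by
      cases σ <;> obtain ⟨s1, s2⟩ := hσ <;> simp only at s1 s2 <;>
        simp only [Row.sig, Row.lam, Row.mix]
      · exact ⟨mul_le_mul_of_nonneg_right hR.sigL s1,
          mul_le_mul_of_nonneg_right hR.lamL (sub_nonneg.2 s2),
          mul_le_mul_of_nonneg_right hR.mixL (mul_nonneg s1 (sub_nonneg.2 s2))⟩
      · exact ⟨mul_le_mul_of_nonneg_right hR.sigL s1,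
          mul_le_mul_of_nonpos_right hR.lamU (sub_nonpos.2 s2),
          mul_le_mul_of_nonpos_right hR.mixU (mul_nonpos_of_nonneg_of_nonpos s1 (sub_nonpos.2 s2))⟩
      · exact ⟨mul_le_mul_of_nonpos_right hR.sigU s1,
          mul_le_mul_of_nonneg_right hR.lamL (sub_nonneg.2 s2),
          mul_le_mul_of_nonpos_right hR.mixU (mul_nonpos_of_nonpos_of_nonneg s1 (sub_nonneg.2 s2))⟩
      · exact ⟨mul_le_mul_of_nonpos_right hR.sigU s1,
          mul_le_mul_of_nonpos_right hR.lamU (sub_nonpos.2 s2),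
          mul_le_mul_of_nonneg_right hR.mixL (mul_nonneg_of_nonpos_of_nonpos s1 (sub_nonpos.2 s2))⟩
    have g1 := mul_le_mul_of_nonneg_right hσd hv.le
    have g2 := mul_le_mul_of_nonneg_right hσv hv.le
    have g3 := mul_le_mul_of_nonneg_right hσm hv.le
    have g4 := mul_le_mul_of_nonneg_right hR.quD (mul_nonneg (sq_nonneg δ) hv.le)
    have hexc : ((D.p : ℝ) + 1) * (arc s / a - 1) - (v - 1) ≤ 0 := by
      have hb := one_add_mul_le_pow (show -2 ≤ arc s / a - 1 by
        linarith [div_nonneg hca.le ha.le]) (D.p + 1)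
      rw [add_sub_cancel, root_rate h] at hb
      push_cast at hb
      linarith
    have g5 := mul_le_mul_of_nonpos_right hR.shR hexc
    have g6 : R.shR.ev s * (P.sh.ev v - (v - 1)) ≤
        D.gz / arc s * (((D.p : ℝ) + 1) * (arc s / a - 1) - (v - 1)) := by
      exact (mul_le_mul_of_nonneg_left (sub_le_sub_right hw _)
        ((div_nonneg hG hca.le).trans hR.shR)).trans g5
    have g7 := mul_le_mul_of_nonneg_right g6 hv.le
    linarith

end Vale.Agent.P237.Petty.Cor.Grid
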