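import Vale.Agent.P237.Petty.Cor.Grid.Sound
import Mathlib.Analysis.Convex.Function
import Mathlib.Data.List.GetD

/-!
# P237: a subdivision of a row of a cell

A tree bisects the box of a row; its leaves carry multipliers. The facts that the leaves use are
collected in `Facts`, for an abstract lower bound `X` of the cell and an abstract concave mass `F`.
-/

namespace Vale.Agent.P237.Petty.Cor.Grid

open Set

/-- The axes of a box. -/
inductive Axis where
  | s
  | d
  | v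
  | l

/-- A subdivision with multipliers at the leaves; `i` is the piece of `v`, `x` and `y` are the
nodes of the line of the pinned mass. -/
inductive Tree where
  | cut (a : Axis) (c : ℤ) (lo hi : Tree)
  | pos (i : ℕ) (σ : Sgn) (μ : Mult) (x y : ℕ)
  | void (i : ℕ) (μ : Mult) (x y : ℕ)

/-- The data shared by the leaves of a row: the pieces, each with a flag for a valid ratio, and
the nodes with the lower bounds of the mass. -/
structure Ctx where
  /-- the constants -/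
  c : Cst
  /-- the enclosures -/
  R : Row
  /-- the pieces -/
  pieces : List (Piece × Bool)
  /-- the nodes and lower values -/
  grid : List (ℤ × ℤ)

/-- The two halves of a box at `c`. -/
def Box.halves (B : Box) (a : Axis) (c : ℤ) : Box × Box :=
  match a with
  | .s => ({ B with s1 := c }, { B with s0 := c })
  | .d => ({ B with d1 := c }, { B with d0 := c })
  | .v => ({ B with v1 := c }, { B with v0 := c })
  | .l => ({ B with l1 := c }, { B with l0 := c })

/-- A piece that is not valid. -/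
def noPiece : Piece × Bool := (⟨1, 0, ⟨0, 0, 0⟩, ⟨0, 0⟩⟩, false)

/-- The multipliers only use valid data on the box. -/
def Ctx.fitTest (K : Ctx) (i : ℕ) (μ : Mult) (x y : ℕ) (B : Box) : Bool :=
  decide (i < K.pieces.length) &&
  (μ.cut == 0 || (K.pieces.getD i noPiece).2) &&
  (μ.pin == 0 ||
    (decide (x < K.grid.length) && decide (y < K.grid.length) && decide (0 ≤ B.s0) &&
      decide (0 ≤ scl + B.d0) &&
      decide ((K.grid.getD x (0, 0)).1 * scl ≤ B.s0 * (scl + B.d0)) &&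
      decide (B.s1 * (scl + B.d1) ≤ (K.grid.getD y (0, 0)).1 * scl) &&
      decide (μ.line.c0 * scl + μ.line.c1 * (K.grid.getD x (0, 0)).1 ≤
        (K.grid.getD x (0, 0)).2 * scl) &&
      decide (μ.line.c0 * scl + μ.line.c1 * (K.grid.getD y (0, 0)).1 ≤
        (K.grid.getD y (0, 0)).2 * scl)))

/-- The check of a subdivision. -/
def Ctx.chk (K : Ctx) : Tree → Box → Bool
  | .cut a c lo hi, B => K.chk lo (B.halves a c).1 && K.chk hi (B.halves a c).2
  | .pos i σ μ x y, B =>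
      K.fitTest i μ x y B && posTest K.c K.R (K.pieces.getD i noPiece).1 σ μ B
  | .void i μ x y, B => K.fitTest i μ x y B && voidTest K.c K.R (K.pieces.getD i noPiece).1 μ B

/-- The shadow and the ratio of a piece are valid. -/
def Piece.Valid (m : ℕ) (P : Piece × Bool) : Prop :=
  ∀ v : ℝ, P.1.Has v → 0 < v →
    (∀ w : ℝ, 0 ≤ w → w ^ m = v → P.1.sh.ev v ≤ (m : ℝ) * (w - 1)) ∧
      (P.2 = true → 0 ≤ P.1.rt.ev v ∧ 1 ≤ P.1.rt.ev v ^ m * v)

/-- The lower values are below `F`. -/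
def GridBelow (F : ℝ → ℝ) (G : List (ℤ × ℤ)) : Prop :=
  ∀ q ∈ G, (q.1 : ℝ) / sR ∈ Icc (0 : ℝ) 1 ∧ (q.2 : ℝ) / sR ≤ F ((q.1 : ℝ) / sR)

/-- What the leaves use at a point. -/
structure Facts (k : Cst) (R : Row) (F : ℝ → ℝ) (z : Pnt) (X : ℝ) : Prop where
  v_pos : 0 < z.v
  cut : ∀ P : Piece, 0 ≤ P.rt.ev z.v → 1 ≤ P.rt.ev z.v ^ k.m * z.v → 0 ≤ cutV k P z
  rect : 0 ≤ rectV R z
  high : 0 ≤ highV k R z
  sq : 0 ≤ sqV k z
  low : 0 ≤ lowV R z
  disp : 0 ≤ dispV k R z
  haz : 0 ≤ hazV k R z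
  pin : ∀ line : L2, line.ev z.tp ≤ F z.tp → 0 ≤ pinV k R line z
  geo : ∀ a : ℕ, 0 ≤ geoV k R a z
  goal : ∀ (σ : Sgn) (P : Piece), σ.Of z →
    (∀ w : ℝ, 0 ≤ w → w ^ k.m = z.v → P.sh.ev z.v ≤ (k.m : ℝ) * (w - 1)) →
      goalV k R P (R.lam σ) (R.sig σ) (R.mix σ) z ≤ X

variable {K : Ctx} {F : ℝ → ℝ} {z : Pnt} {X : ℝ}

theorem inB_halves {B : Box} (h : InB B z) (a : Axis) (c : ℤ) :
    InB (B.halves a c).1 z ∨ InB (B.halves a c).2 z := by
  cases a
  · exact (le_total (sR * z.s) c).imp (fun g => { h with s1 := g }) fun g => { h with s0 := g }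
  · exact (le_total (sR * z.d) c).imp (fun g => { h with d1 := g }) fun g => { h with d0 := g }
  · exact (le_total (sR * z.v) c).imp (fun g => { h with v1 := g }) fun g => { h with v0 := g }
  · exact (le_total (sR * z.l) c).imp (fun g => { h with l1 := g }) fun g => { h with l0 := g }

/-- A line below a concave function at two nodes is below it between them. -/
theorem line_le {line : L2} {G : List (ℤ × ℤ)} (hF : ConcaveOn ℝ (Icc (0 : ℝ) 1) F)
    (hG : GridBelow F G) {a b : ℤ × ℤ} (ha : a ∈ G) (hb : b ∈ G) {t : ℝ}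
    (h1 : (a.1 : ℝ) / sR ≤ t) (h2 : t ≤ (b.1 : ℝ) / sR)
    (la : line.ev ((a.1 : ℝ) / sR) ≤ (a.2 : ℝ) / sR)
    (lb : line.ev ((b.1 : ℝ) / sR) ≤ (b.2 : ℝ) / sR) : line.ev t ≤ F t := by
  obtain ⟨w1, w2, hw1, hw2, hw, e⟩ := Vale.Agent.P100.Bernstein.exists_weights h1 h2
  have h := hF.2 (hG a ha).1 (hG b hb).1 hw1 hw2 hw
  simp only [smul_eq_mul] at h
  have e' : w1 * ((a.1 : ℝ) / sR) + w2 * ((b.1 : ℝ) / sR) = t := by rw [e]; ring
  rw [e'] at h
  refine le_trans ?_ h
  have := mul_le_mul_of_nonneg_left (la.trans (hG a ha).2) hw1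
  have := mul_le_mul_of_nonneg_left (lb.trans (hG b hb).2) hw2
  have el : line.ev t = w1 * line.ev ((a.1 : ℝ) / sR) + w2 * line.ev ((b.1 : ℝ) / sR) := by
    simp only [L2.ev]
    rw [← e']
    linear_combination -(line.c0 : ℝ) / sR * hw
  linarith

theorem holds_of_facts (hp : ∀ P ∈ K.pieces, Piece.Valid K.c.m P)
    (hF : ConcaveOn ℝ (Icc (0 : ℝ) 1) F) (hG : GridBelow F K.grid)
    (h : Facts K.c K.R F z X) {B : Box} (hb : InB B z) {i x y : ℕ} {μ : Mult}
    (hf : K.fitTest i μ x y B = true) (hv : (K.pieces.getD i noPiece).1.Has z.v) :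
    Holds K.c K.R (K.pieces.getD i noPiece).1 μ z ∧
      ∀ w : ℝ, 0 ≤ w → w ^ K.c.m = z.v →
        (K.pieces.getD i noPiece).1.sh.ev z.v ≤ (K.c.m : ℝ) * (w - 1) := by
  simp only [Ctx.fitTest, Bool.and_eq_true, Bool.or_eq_true, beq_iff_eq, decide_eq_true_eq] at hf
  obtain ⟨⟨hi, hc⟩, hpin⟩ := hf
  have hmem : K.pieces.getD i noPiece ∈ K.pieces := by
    rw [List.getD_eq_getElem _ _ hi]
    exact List.getElem_mem hi
  obtain ⟨hsh, hrt⟩ := hp _ hmem z.v hv h.v_pos
  refine ⟨⟨fun hm => ?_, fun _ => h.rect, fun _ => h.high, fun _ => h.sq, fun _ => h.low,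
    fun _ => h.disp, fun _ => h.haz, fun hm => ?_, fun _ => h.geo _⟩, hsh⟩
  · obtain ⟨r0, r1⟩ := hrt (hc.resolve_left hm)
    exact h.cut _ r0 r1
  · obtain ⟨⟨⟨⟨⟨⟨⟨hx, hy⟩, s0⟩, d0⟩, tx⟩, ty⟩, lx⟩, ly⟩ := hpin.resolve_left hm
    have S : (0 : ℝ) < sR := by norm_num
    have e : ((scl : ℤ) : ℝ) = sR := by simp [scl, sR]
    have hgx : K.grid.getD x (0, 0) ∈ K.grid := by
      rw [List.getD_eq_getElem _ _ hx]
      exact List.getElem_mem hx
    have hgy : K.grid.getD y (0, 0) ∈ K.grid := by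
      rw [List.getD_eq_getElem _ _ hy]
      exact List.getElem_mem hy
    obtain ⟨a, hae⟩ : ∃ a, K.grid.getD x (0, 0) = a := ⟨_, rfl⟩
    obtain ⟨b, hbe⟩ : ∃ b, K.grid.getD y (0, 0) = b := ⟨_, rfl⟩
    rw [hae] at tx lx hgx
    rw [hbe] at ty ly hgy
    have s0' : (0 : ℝ) ≤ B.s0 := by exact_mod_cast s0
    have d0' : 0 ≤ sR + B.d0 := by rw [← e]; exact_mod_cast d0
    have tx' : (a.1 : ℝ) * sR ≤ B.s0 * (sR + B.d0) := by rw [← e]; exact_mod_cast tx
    have ty' : (B.s1 : ℝ) * (sR + B.d1) ≤ b.1 * sR := by rw [← e]; exact_mod_cast ty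
    have lx' : (μ.line.c0 : ℝ) * sR + μ.line.c1 * a.1 ≤ a.2 * sR := by
      rw [← e]; exact_mod_cast lx
    have ly' : (μ.line.c0 : ℝ) * sR + μ.line.c1 * b.1 ≤ b.2 * sR := by
      rw [← e]; exact_mod_cast ly
    refine h.pin _ (line_le hF hG hgx hgy ?_ ?_ ?_ ?_)
    · rw [div_le_iff₀ S, Pnt.tp]
      have := mul_le_mul hb.s0 (show sR + B.d0 ≤ sR + sR * z.d by linarith [hb.d0]) d0'
        (le_trans s0' hb.s0)
      nlinarith
    · rw [le_div_iff₀ S, Pnt.tp]
      have := mul_le_mul hb.s1 (show sR + sR * z.d ≤ sR + B.d1 by linarith [hb.d1])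
        (by linarith [hb.d0]) (le_trans s0' (hb.s0.trans hb.s1))
      nlinarith
    · simp only [L2.ev]
      rw [div_le_div_iff_of_pos_right S, mul_div_assoc', ← le_sub_iff_add_le', div_le_iff₀ S]
      linarith
    · simp only [L2.ev]
      rw [div_le_div_iff_of_pos_right S, mul_div_assoc', ← le_sub_iff_add_le', div_le_iff₀ S]
      linarith

/-- A subdivision that passes gives the sign at every point of its box. -/
theorem chk_sound (hp : ∀ P ∈ K.pieces, Piece.Valid K.c.m P)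
    (hF : ConcaveOn ℝ (Icc (0 : ℝ) 1) F) (hG : GridBelow F K.grid) :
    ∀ (T : Tree) (B : Box), K.chk T B = true → InB B z → Facts K.c K.R F z X → 0 ≤ X
  | .cut a c lo hi, B, h, hb, hf => by
    simp only [Ctx.chk, Bool.and_eq_true] at h
    exact (inB_halves hb a c).elim (fun g => chk_sound hp hF hG lo _ h.1 g hf)
      fun g => chk_sound hp hF hG hi _ h.2 g hf
  | .pos i σ μ x y, B, h, hb, hf => by
    simp only [Ctx.chk, Bool.and_eq_true] at h
    obtain ⟨hv, hσ, hG'⟩ := posTest_sound h.2 hb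
    obtain ⟨hh, hsh⟩ := holds_of_facts hp hF hG hf hb h.1 hv
    exact (hG' hh).trans (hf.goal σ _ hσ hsh)
  | .void i μ x y, B, h, hb, hf => by
    simp only [Ctx.chk, Bool.and_eq_true] at h
    obtain ⟨hv, hF'⟩ := voidTest_sound h.2 hb
    exact (hF' (holds_of_facts hp hF hG hf hb h.1 hv).1).elim

/-- The subdivisions of the two halves of a box make one of the box. -/
theorem chk_cut {a : Axis} {c : ℤ} {lo hi : Tree} {B : Box}
    (h1 : K.chk lo (B.halves a c).1 = true) (h2 : K.chk hi (B.halves a c).2 = true) :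
    K.chk (.cut a c lo hi) B = true := by
  simp [Ctx.chk, h1, h2]

end Vale.Agent.P237.Petty.Cor.Grid
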